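import Vale.Agent.P284.H894.V.Spec
import Vale.Agent.P272.K.Inv.Wirt
import Vale.Agent.P272.K.C2.Mat
import Vale.Agent.P268.Hol
import Mathlib.Analysis.Matrix.Order
import Mathlib.Analysis.SpecialFunctions.ContinuousFunctionalCalculus.Rpow.Basic

/-!
# P284, theorem V, block VP: pointwise linear algebra
-/

open scoped Manifold ContDiff Topology Pointwise ComplexConjugate ComplexOrder Matrix
open Filter Set Metric MeasureTheory

noncomputable section

namespace Vale.Agent.P284.H730.V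

open Vale.Agent.P272.K Vale.Agent.P284.H894.V

variable {n : ℕ}

/-! ### sesquilinear algebra -/

/-- the sesquilinear form `Σ M_{kj} a_j \bar b_k` -/
def S (M : Matrix (Fin n) (Fin n) ℂ) (a b : Fin n → ℂ) : ℂ := ∑ j, ∑ k, M k j * a j * conj (b k)

variable {M w A B : Matrix (Fin n) (Fin n) ℂ} {a b u : Fin n → ℂ}

theorem S_eq : S M a b = star b ⬝ᵥ (M *ᵥ a) := by
  simp only [S, dotProduct, Matrix.mulVec, Finset.mul_sum]
  rw [Finset.sum_comm]
  refine Finset.sum_congr rfl fun k _ => Finset.sum_congr rfl fun j _ => ?_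
  simp only [Pi.star_apply, RCLike.star_def]
  ring

theorem S_conj (hM : M.IsHermitian) : conj (S M a b) = S M b a := by
  simp only [S, map_sum, map_mul, Complex.conj_conj]
  rw [Finset.sum_comm]
  refine Finset.sum_congr rfl fun k _ => Finset.sum_congr rfl fun j _ => ?_
  have : conj (M k j) = M j k := by
    have := hM.apply j k
    simpa using this
  rw [this]
  ring

theorem S_re_symm (hM : M.IsHermitian) : (S M a b).re = (S M b a).re := by
  rw [← S_conj hM, Complex.conj_re]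

theorem S_add_left (a a' b : Fin n → ℂ) : S M (a + a') b = S M a b + S M a' b := by
  simp only [S_eq, Matrix.mulVec_add, dotProduct_add]

theorem S_add_right (a b b' : Fin n → ℂ) : S M a (b + b') = S M a b + S M a b' := by
  simp only [S_eq, star_add, add_dotProduct]

theorem S_smul_left (c : ℝ) (a b : Fin n → ℂ) : S M ((c : ℂ) • a) b = c * S M a b := by
  simp only [S_eq, Matrix.mulVec_smul, dotProduct_smul, smul_eq_mul]

theorem S_smul_right (c : ℝ) (a b : Fin n → ℂ) : S M a ((c : ℂ) • b) = c * S M a b := by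
  simp only [S_eq, star_smul, smul_dotProduct, smul_eq_mul]
  simp

theorem S_nonneg (hM : M.PosSemidef) (a : Fin n → ℂ) : 0 ≤ (S M a a).re := by
  rw [S_eq]
  exact (Complex.le_def.1 (hM.dotProduct_mulVec_nonneg a)).1

theorem S_one (a : Fin n → ℂ) : (S 1 a a).re = ∑ j, ‖a j‖ ^ 2 := by
  rw [S_eq, Matrix.one_mulVec, dotProduct, Complex.re_sum]
  refine Finset.sum_congr rfl fun j _ => ?_
  rw [Pi.star_apply, RCLike.star_def, mul_comm, Complex.mul_conj, Complex.normSq_eq_norm_sq,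
    Complex.ofReal_re]

/-- `q(x + y) ≤ 2 q(x) + 2 q(y)` with real weights -/
theorem S_comb (hM : M.PosSemidef) (s t : ℝ) (a b : Fin n → ℂ) :
    (S M ((s : ℂ) • a + (t : ℂ) • b) ((s : ℂ) • a + (t : ℂ) • b)).re ≤
      2 * s ^ 2 * (S M a a).re + 2 * t ^ 2 * (S M b b).re := by
  have h := S_nonneg hM ((s : ℂ) • a + ((-t : ℝ) : ℂ) • b)
  simp only [S_add_left, S_add_right, S_smul_left, S_smul_right, Complex.add_re,
    Complex.re_ofReal_mul] at h ⊢
  nlinarith [h]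

theorem trace_mul_nonneg (hA : A.PosSemidef) (hB : B.PosSemidef) : 0 ≤ (A * B).trace.re := by
  open scoped MatrixOrder in
  obtain ⟨C, rfl⟩ := CStarAlgebra.nonneg_iff_eq_star_mul_self.mp hA.nonneg
  have h1 : (star C * C * B).trace = (C * B * Cᴴ).trace := by
    rw [Matrix.mul_assoc, Matrix.trace_mul_comm, Matrix.star_eq_conjTranspose]
  rw [h1]
  exact (Complex.le_def.1 (hB.mul_mul_conjTranspose_same C).trace_nonneg).1

/-! ### ellipticity -/

/-- `star u ⬝ᵥ a` is real -/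
theorem S_inv_eq (hw : w.PosDef) (a : Fin n → ℂ) :
    w *ᵥ (w⁻¹ *ᵥ a) = a := by
  rw [Matrix.mulVec_mulVec, Matrix.mul_nonsing_inv w (isUnit_iff_ne_zero.2 hw.det_pos.ne'),
    Matrix.one_mulVec]

theorem S_inv_val (hw : w.PosDef) (a : Fin n → ℂ) :
    S w⁻¹ a a = S w (w⁻¹ *ᵥ a) (w⁻¹ *ᵥ a) := by
  have h1 : S w⁻¹ a a = S 1 (w⁻¹ *ᵥ a) a := by rw [S_eq, S_eq, Matrix.one_mulVec]
  have h2 : S w (w⁻¹ *ᵥ a) (w⁻¹ *ᵥ a) = S 1 a (w⁻¹ *ᵥ a) := by
    rw [S_eq, S_eq, S_inv_eq hw, Matrix.one_mulVec]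
  rw [h2, ← S_conj Matrix.isHermitian_one, ← h1, S_conj hw.inv.isHermitian]

theorem one_le_inv {Lam : ℝ} (hw : w.PosDef)
    (hup : ∀ v : Fin n → ℂ, (S w v v).re ≤ Lam * (S 1 v v).re) (hL : 0 < Lam) (a : Fin n → ℂ) :
    (S 1 a a).re ≤ Lam * (S w⁻¹ a a).re := by
  set u := w⁻¹ *ᵥ a with hu
  have h1 := S_nonneg hw.posSemidef (u + ((-(1 / Lam) : ℝ) : ℂ) • a)
  simp only [S_add_left, S_add_right, S_smul_left, S_smul_right, Complex.add_re,
    Complex.re_ofReal_mul] at h1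
  have h2 : S w u a = S 1 a a := by rw [S_eq, S_eq, hu, S_inv_eq hw, Matrix.one_mulVec]
  have h3 : (S w a u).re = (S 1 a a).re := by rw [S_re_symm hw.isHermitian, h2]
  rw [h3, h2, ← S_inv_val hw] at h1
  have h4 := hup a
  have h5 : (1 / Lam) * (1 / Lam) * (S w a a).re ≤ (1 / Lam) * (S 1 a a).re := by
    calc (1 / Lam) * (1 / Lam) * (S w a a).re ≤ (1 / Lam) * (1 / Lam) * (Lam * (S 1 a a).re) := by
          gcongr
      _ = (1 / Lam) * (S 1 a a).re := by field_simp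
  have h6 : (1 / Lam) * (S 1 a a).re ≤ (S w⁻¹ a a).re := by nlinarith
  calc (S 1 a a).re = Lam * ((1 / Lam) * (S 1 a a).re) := by field_simp
    _ ≤ Lam * (S w⁻¹ a a).re := by gcongr

theorem inv_le_one {lam : ℝ} (hw : w.PosDef)
    (hlow : ∀ v : Fin n → ℂ, lam * (S 1 v v).re ≤ (S w v v).re) (hl : 0 < lam) (a : Fin n → ℂ) :
    lam * (S w⁻¹ a a).re ≤ (S 1 a a).re := by
  set u := w⁻¹ *ᵥ a with hu
  have h1 := S_nonneg (Matrix.PosSemidef.one (n := Fin n) (R := ℂ)) (a + ((-lam : ℝ) : ℂ) • u)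
  simp only [S_add_left, S_add_right, S_smul_left, S_smul_right, Complex.add_re,
    Complex.re_ofReal_mul] at h1
  have h2 : S 1 u a = S w⁻¹ a a := by rw [S_eq, S_eq, Matrix.one_mulVec]
  have h3 : (S 1 a u).re = (S w⁻¹ a a).re := by rw [S_re_symm Matrix.isHermitian_one, h2]
  rw [h3, h2] at h1
  have h4 := hlow u
  rw [← S_inv_val hw] at h4
  nlinarith

/-- `Lam w⁻¹ - 1` is positive semidefinite -/
theorem sub_psd {Lam : ℝ} (hw : w.PosDef)
    (hup : ∀ v : Fin n → ℂ, (S w v v).re ≤ Lam * (S 1 v v).re) (hL : 0 < Lam) :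
    ((Lam : ℂ) • w⁻¹ - 1).PosSemidef := by
  have hH : ((Lam : ℂ) • w⁻¹ - 1).IsHermitian := by
    refine Matrix.IsHermitian.sub ?_ Matrix.isHermitian_one
    have h1 : w⁻¹ᴴ = w⁻¹ := hw.inv.isHermitian
    rw [Matrix.IsHermitian, Matrix.conjTranspose_smul, h1]
    simp
  refine Matrix.PosSemidef.of_dotProduct_mulVec_nonneg hH fun a => ?_
  have h2 : (star a ⬝ᵥ (((Lam : ℂ) • w⁻¹ - 1) *ᵥ a)).re = Lam * (S w⁻¹ a a).re - (S 1 a a).re := by
    rw [Matrix.sub_mulVec, Matrix.smul_mulVec, dotProduct_sub, dotProduct_smul, Complex.sub_re,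
      smul_eq_mul, Complex.re_ofReal_mul, S_eq, S_eq]
  have h3 : (star a ⬝ᵥ (((Lam : ℂ) • w⁻¹ - 1) *ᵥ a)).im = 0 := by
    rw [← S_eq, ← Complex.conj_eq_iff_im, S_conj hH]
  rw [Complex.le_def, h2, h3]
  exact ⟨by simpa using sub_nonneg.2 (one_le_inv hw hup hL a), rfl⟩

theorem trace_sq {H : Matrix (Fin n) (Fin n) ℂ} (hH : H.IsHermitian) :
    (H * H).trace.re = ∑ j, ∑ k, ‖H j k‖ ^ 2 := by
  rw [Matrix.trace, Complex.re_sum]
  refine Finset.sum_congr rfl fun j _ => ?_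
  rw [Matrix.diag_apply, Matrix.mul_apply, Complex.re_sum]
  refine Finset.sum_congr rfl fun k _ => ?_
  have : H k j = conj (H j k) := by
    have := hH.apply k j
    simpa using this.symm
  rw [this, Complex.mul_conj, Complex.normSq_eq_norm_sq, Complex.ofReal_re]

theorem hh_nonneg' {H : Matrix (Fin n) (Fin n) ℂ} (hw : w.PosDef) (hH : H.IsHermitian) :
    0 ≤ (w⁻¹ * H * (w⁻¹ * H)).trace.re := by
  have h1 : w⁻¹ * H * (w⁻¹ * H) = w⁻¹ * (Hᴴ * w⁻¹ * H) := by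
    rw [hH]
    simp only [Matrix.mul_assoc]
  rw [h1]
  exact trace_mul_nonneg hw.inv.posSemidef (hw.inv.posSemidef.conjTranspose_mul_mul_same H)

theorem D2_le' {H : Matrix (Fin n) (Fin n) ℂ} {Lam : ℝ} (hw : w.PosDef) (hH : H.IsHermitian)
    (hup : ∀ v : Fin n → ℂ, (S w v v).re ≤ Lam * (S 1 v v).re) (hL : 0 < Lam) :
    ∑ j, ∑ k, ‖H j k‖ ^ 2 ≤ Lam ^ 2 * (w⁻¹ * H * (w⁻¹ * H)).trace.re := by
  have hD := sub_psd hw hup hL
  rw [← trace_sq hH]
  have h1 : 0 ≤ ((((Lam : ℂ) • w⁻¹ - 1)) * (H * H)).trace.re := by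
    refine trace_mul_nonneg hD ?_
    have := Matrix.posSemidef_conjTranspose_mul_self H
    rwa [hH] at this
  have h2 : 0 ≤ ((((Lam : ℂ) • w⁻¹ - 1)) * (H * w⁻¹ * H)).trace.re := by
    refine trace_mul_nonneg hD ?_
    have := hw.inv.posSemidef.conjTranspose_mul_mul_same H
    rwa [hH] at this
  rw [Matrix.sub_mul, Matrix.smul_mul, Matrix.one_mul, Matrix.trace_sub, Matrix.trace_smul,
    Complex.sub_re, smul_eq_mul, Complex.re_ofReal_mul] at h1 h2
  have h3 : (w⁻¹ * (H * H)).trace = (H * w⁻¹ * H).trace := by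
    rw [← Matrix.mul_assoc, Matrix.trace_mul_comm, Matrix.mul_assoc]
  have h4 : w⁻¹ * (H * w⁻¹ * H) = w⁻¹ * H * (w⁻¹ * H) := by simp only [Matrix.mul_assoc]
  rw [h3] at h1
  rw [h4] at h2
  nlinarith [mul_nonneg hL.le h2]

/-! ### gradients -/

/-- the vector `(∂_j f)` -/
def dd (f : Cm n → ℝ) (z : Cm n) : Fin n → ℂ := fun j => dz j (fun y => (f y : ℂ)) z

theorem fderiv_ofReal (f : Cm n → ℝ) (z v : Cm n) :
    conj (fderiv ℝ (fun y => (f y : ℂ)) z v) = fderiv ℝ (fun y => (f y : ℂ)) z v := by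
  by_cases h : DifferentiableAt ℝ f z
  · have h1 : fderiv ℝ (fun y => (f y : ℂ)) z = Complex.ofRealCLM.comp (fderiv ℝ f z) :=
      (Complex.ofRealCLM.hasFDerivAt.comp z h.hasFDerivAt).fderiv
    rw [h1]
    simp
  · rw [fderiv_zero_of_not_differentiableAt]
    · simp
    · intro h'
      exact h (by simpa [Function.comp_def] using Complex.reCLM.differentiableAt.comp z h')

theorem dzb_dd (f : Cm n → ℝ) (k : Fin n) (z : Cm n) :
    dzb k (fun y => (f y : ℂ)) z = conj (dd f z k) := by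
  simp only [dd, dz, dzb, map_div₀, map_sub, map_mul, fderiv_ofReal, Complex.conj_I, map_ofNat]
  ring

theorem gr_eq (w : Cm n → Matrix (Fin n) (Fin n) ℂ) (f h : Cm n → ℝ) (z : Cm n) :
    gr w f h z = (S (w z)⁻¹ (dd f z) (dd h z)).re := by
  simp only [gr, S, dzb_dd]
  rfl

theorem D1_eq (f : Cm n → ℝ) (z : Cm n) : D1 f z = (S 1 (dd f z) (dd f z)).re := by
  rw [S_one]; rfl

theorem dd_mul {f h : Cm n → ℝ} {z : Cm n} (hf : DifferentiableAt ℝ f z)
    (hh : DifferentiableAt ℝ h z) :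
    dd (fun y => f y * h y) z = ((f z : ℝ) : ℂ) • dd h z + ((h z : ℝ) : ℂ) • dd f z := by
  ext j
  simp only [dd, Pi.add_apply, Pi.smul_apply, smul_eq_mul]
  have : (fun y => ((f y * h y : ℝ) : ℂ)) = fun y => (f y : ℂ) * (h y : ℂ) := by
    ext y; push_cast; rfl
  rw [this, C2.dz_mul j (C2.differentiableAt_ofReal hf) (C2.differentiableAt_ofReal hh)]
  ring

/-- the quadratic form of `w` in the notation of `VPStmt` -/
theorem form_eq (w : Matrix (Fin n) (Fin n) ℂ) (v : Cm n) :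
    (∑ j, ∑ k, w j k * v j * conj (v k)).re = (S w (fun j => conj (v j)) (fun j => conj (v j))).re := by
  rw [S, Finset.sum_comm]
  refine congrArg Complex.re (Finset.sum_congr rfl fun k _ => Finset.sum_congr rfl fun j _ => ?_)
  rw [Complex.conj_conj]
  ring

theorem form_star (w : Matrix (Fin n) (Fin n) ℂ) (v : Cm n) :
    (S w v v).re = (∑ j, ∑ k, w j k * conj (v j) * conj (conj (v k))).re := by
  rw [form_eq w (fun j => conj (v j))]
  simp only [Complex.conj_conj]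

theorem sum_norm_conj (v : Cm n) : ∑ j, ‖conj (v j)‖ ^ 2 = (S 1 v v).re := by
  rw [S_one]
  simp

theorem two_le : (2 : WithTop ℕ∞) ≤ ∞ :=
  (WithTop.coe_le_coe.2 le_top : ((2 : ℕ∞) : WithTop ℕ∞) ≤ ((⊤ : ℕ∞) : WithTop ℕ∞))

/-! ### change of coordinates -/

section trans
variable {T : Cm n → Cm n} {z : Cm n}

theorem dd_comp {f f' : Cm n → ℝ} (hT : DifferentiableAt ℂ T z) (hf' : DifferentiableAt ℝ f' (T z))
    (e : ∀ᶠ y in 𝓝 z, f y = f' (T y)) : dd f z = (jmat T z)ᵀ *ᵥ dd f' (T z) := by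
  ext i
  have h1 : (fun y => (f y : ℂ)) =ᶠ[𝓝 z] fun y => (f' (T y) : ℂ) := by
    filter_upwards [e] with y hy
    rw [hy]
  have h2 : DifferentiableAt ℝ (fun y => (f' y : ℂ)) (T z) := C2.differentiableAt_ofReal hf'
  rw [dd, C2.dz_congr i h1, dz_comp_holo (f := fun y => (f' y : ℂ)) h2 hT]
  simp only [Matrix.mulVec, dotProduct, Matrix.transpose_apply, dd]
  exact Finset.sum_congr rfl fun p _ => mul_comm _ _

/-- the entries of the Jacobian matrix are holomorphic -/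
theorem jmat_holo (hT : ∀ᶠ y in 𝓝 z, DifferentiableAt ℂ T y) (p i : Fin n) :
    DifferentiableAt ℂ (fun y => jmat T y p i) z := by
  obtain ⟨U, hU, hUo, hzU⟩ := _root_.mem_nhds_iff.1 hT
  have h1 : DifferentiableOn ℂ (fun y => T y p) U := fun y hy =>
    (differentiableAt_comp_apply (hU hy) p).differentiableWithinAt
  have h2 := Vale.Agent.P268.differentiableOn_fderiv_apply hUo h1 (Pi.single i 1)
  have h3 : DifferentiableAt ℂ (fun y => fderiv ℂ (fun y => T y p) y (Pi.single i 1)) z :=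
    (h2 z hzU).differentiableAt (hUo.mem_nhds hzU)
  refine h3.congr_of_eventuallyEq ?_
  filter_upwards [hUo.mem_nhds hzU] with y hy
  rw [jmat, Matrix.of_apply, Vale.Agent.P272.K.dz_of_holo (differentiableAt_comp_apply (hU hy) p)]

theorem cHess_comp {f f' : Cm n → ℝ} (hT : ∀ᶠ y in 𝓝 z, DifferentiableAt ℂ T y)
    (hf' : ContDiffAt ℝ ∞ f' (T z)) (e : ∀ᶠ y in 𝓝 z, f y = f' (T y)) :
    cHess f z = (jmat T z)ᵀ * cHess f' (T z) * (jmat T z).map (starRingEnd ℂ) := by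
  have hTz : DifferentiableAt ℂ T z := hT.self_of_nhds
  have h2 : ContDiffAt ℝ 2 f' (T z) := hf'.of_le two_le
  ext j k
  rw [C2.cHess_apply]
  have e1 : (dzb k fun y => (f y : ℂ)) =ᶠ[𝓝 z]
      fun y => ∑ q, dzb q (fun y => (f' y : ℂ)) (T y) * cj (jmat T y q k) := by
    have hc : ∀ᶠ y in 𝓝 z, ContDiffAt ℝ 2 f' (T y) :=
      hTz.continuousAt.eventually (C2.eventually_contDiffAt (m := 2) h2)
    filter_upwards [e.eventually_nhds, hT, hc] with y hy hTy hcy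
    have h1 : (fun y => (f y : ℂ)) =ᶠ[𝓝 y] fun y => (f' (T y) : ℂ) := by
      filter_upwards [hy] with x hx
      rw [hx]
    rw [C2.dzb_congr k h1, dzb_comp_holo (f := fun y => (f' y : ℂ))
      (C2.differentiableAt_ofReal (hcy.differentiableAt (by norm_num))) hTy]
  have hd : ∀ q, DifferentiableAt ℝ (dzb q (fun y => (f' y : ℂ))) (T z) := fun q =>
    C2.differentiableAt_dzb q (C2.contDiffAt_ofReal h2)
  have hTr : DifferentiableAt ℝ T z := hTz.restrictScalars ℝ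
  have hd' : ∀ q, DifferentiableAt ℝ (fun y => dzb q (fun y => (f' y : ℂ)) (T y)) z := fun q =>
    (hd q).comp z hTr
  have hJ : ∀ q, DifferentiableAt ℝ (fun y => jmat T y q k) z := fun q =>
    (jmat_holo hT q k).restrictScalars ℝ
  have hJ' : ∀ q, DifferentiableAt ℝ (fun y => cj (jmat T y q k)) z := fun q =>
    C2.differentiableAt_conj (hJ q)
  rw [C2.dz_congr j e1, C2.dz_sum j _ (fun q _ => (hd' q).fun_mul (hJ' q))]
  have e2 : ∀ q, dz j (fun y => dzb q (fun y => (f' y : ℂ)) (T y) * cj (jmat T y q k)) z =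
      (∑ p, jmat T z p j * cHess f' (T z) p q) * cj (jmat T z q k) := by
    intro q
    rw [C2.dz_mul j (hd' q) (hJ' q), C2.dz_conj j (hJ q),
      Vale.Agent.P272.K.dzb_of_holo (jmat_holo hT q k), map_zero, mul_zero, add_zero,
      dz_comp_holo (hd q) hTz]
    congr 1
    exact Finset.sum_congr rfl fun p _ => mul_comm _ _
  simp only [e2]
  rw [Matrix.mul_apply]
  refine Finset.sum_congr rfl fun q _ => ?_
  rw [Matrix.mul_apply]
  rfl

theorem inv_law {w w' J : Matrix (Fin n) (Fin n) ℂ} (hw : w.det ≠ 0)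
    (h : w = Jᵀ * w' * J.map (starRingEnd ℂ)) :
    J.map (starRingEnd ℂ) * w⁻¹ * Jᵀ = w'⁻¹ := by
  have h1 : w.det = J.det * w'.det * (J.map (starRingEnd ℂ)).det := by
    rw [h, Matrix.det_mul, Matrix.det_mul, Matrix.det_transpose]
  have h2 : J.det ≠ 0 := fun h0 => hw (by rw [h1, h0]; ring)
  have h3 : (J.map (starRingEnd ℂ)).det ≠ 0 := fun h0 => hw (by rw [h1, h0]; ring)
  rw [h, Matrix.mul_inv_rev, Matrix.mul_inv_rev, ← Matrix.mul_assoc, ← Matrix.mul_assoc,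
    Matrix.mul_nonsing_inv _ (isUnit_iff_ne_zero.2 h3), Matrix.one_mul, Matrix.mul_assoc,
    Matrix.nonsing_inv_mul _ (isUnit_iff_ne_zero.2 (by rwa [Matrix.det_transpose])), Matrix.mul_one]

theorem S_pull {M J : Matrix (Fin n) (Fin n) ℂ} (a b : Fin n → ℂ) :
    S M (Jᵀ *ᵥ a) (Jᵀ *ᵥ b) = S (J.map (starRingEnd ℂ) * M * Jᵀ) a b := by
  rw [S_eq, S_eq, Matrix.star_mulVec, ← Matrix.dotProduct_mulVec, Matrix.mulVec_mulVec,
    Matrix.mulVec_mulVec]
  rfl

theorem trace_pull {M J H : Matrix (Fin n) (Fin n) ℂ} :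
    (M * (Jᵀ * H * J.map (starRingEnd ℂ))).trace =
      (J.map (starRingEnd ℂ) * M * Jᵀ * H).trace := by
  have h1 : M * (Jᵀ * H * J.map (starRingEnd ℂ)) = (M * (Jᵀ * H)) * J.map (starRingEnd ℂ) := by
    simp only [Matrix.mul_assoc]
  rw [h1, Matrix.trace_mul_comm]
  simp only [Matrix.mul_assoc]

theorem trace_pull2 {M J F H : Matrix (Fin n) (Fin n) ℂ} :
    (M * (Jᵀ * F * J.map (starRingEnd ℂ)) * (M * (Jᵀ * H * J.map (starRingEnd ℂ)))).trace =
      (J.map (starRingEnd ℂ) * M * Jᵀ * F * (J.map (starRingEnd ℂ) * M * Jᵀ * H)).trace := by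
  have h1 : M * (Jᵀ * F * J.map (starRingEnd ℂ)) * (M * (Jᵀ * H * J.map (starRingEnd ℂ))) =
      (M * (Jᵀ * F * J.map (starRingEnd ℂ)) * (M * (Jᵀ * H))) * J.map (starRingEnd ℂ) := by
    simp only [Matrix.mul_assoc]
  rw [h1, Matrix.trace_mul_comm]
  simp only [Matrix.mul_assoc]

theorem det_jmat (hT : DifferentiableAt ℂ T z) : (fderiv ℂ T z).det = (jmat T z).det := by
  have : (fderiv ℂ T z).det = LinearMap.det (fderiv ℂ T z : Cm n →ₗ[ℂ] Cm n) := rfl
  rw [this, ← LinearMap.det_toMatrix']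
  congr 1
  ext p i
  rw [LinearMap.toMatrix'_apply, jmat_apply hT]
  rfl

theorem vol_law {w w' J : Matrix (Fin n) (Fin n) ℂ} (h : w = Jᵀ * w' * J.map (starRingEnd ℂ)) :
    w.det.re = w'.det.re * ‖J.det‖ ^ 2 := by
  have h3 : (J.map (starRingEnd ℂ)).det = conj J.det := by
    rw [RingHom.map_det]; rfl
  rw [h, Matrix.det_mul, Matrix.det_mul, Matrix.det_transpose, h3]
  have : J.det * w'.det * conj J.det = ((‖J.det‖ ^ 2 : ℝ) : ℂ) * w'.det := by
    rw [← Complex.normSq_eq_norm_sq, ← Complex.mul_conj]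
    ring
  rw [this, Complex.re_ofReal_mul]
  ring

end trans

theorem vp_symm (w : Cm n → Matrix (Fin n) (Fin n) ℂ) (f h : Cm n → ℝ) (z : Cm n)
    (hw : (w z).PosDef) : gr w f h z = gr w h f z := by
  rw [gr_eq, gr_eq]
  exact S_re_symm hw.inv.isHermitian

theorem vp_nonneg (w : Cm n → Matrix (Fin n) (Fin n) ℂ) (f : Cm n → ℝ) (z : Cm n)
    (hw : (w z).PosDef) :
    0 ≤ gr w f f z ∧ (ContDiffAt ℝ ∞ f z → 0 ≤ hh w f f z) ∧ 0 < vol w z := by
  refine ⟨?_, fun hf => ?_, ?_⟩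
  · rw [gr_eq]
    exact S_nonneg hw.inv.posSemidef _
  · exact hh_nonneg' hw (C2.cHess_isHermitian (hf.of_le two_le))
  · exact (Complex.lt_def.1 hw.det_pos).1

theorem vp_ell (w : Cm n → Matrix (Fin n) (Fin n) ℂ) (f : Cm n → ℝ) (z : Cm n) (lam Lam : ℝ)
    (hw : (w z).PosDef) (hl : 0 < lam)
    (hlow : ∀ v : Cm n, lam * ∑ j, ‖v j‖ ^ 2 ≤ (∑ j, ∑ k, w z j k * v j * conj (v k)).re)
    (hup : ∀ v : Cm n, (∑ j, ∑ k, w z j k * v j * conj (v k)).re ≤ Lam * ∑ j, ‖v j‖ ^ 2) :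
    D1 f z ≤ Lam * gr w f f z ∧ lam * gr w f f z ≤ D1 f z ∧
      (ContDiffAt ℝ ∞ f z → D2 f z ≤ Lam ^ 2 * hh w f f z) := by
  have hlow' : ∀ v : Fin n → ℂ, lam * (S 1 v v).re ≤ (S (w z) v v).re := by
    intro v
    rw [form_star (w z), ← sum_norm_conj]
    exact hlow fun j => conj (v j)
  have hup' : ∀ v : Fin n → ℂ, (S (w z) v v).re ≤ Lam * (S 1 v v).re := by
    intro v
    rw [form_star (w z), ← sum_norm_conj]
    exact hup fun j => conj (v j)
  rcases n.eq_zero_or_pos with hn | hn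
  · subst hn
    refine ⟨?_, ?_, fun _ => ?_⟩
    · simp [D1, gr]
    · simp [D1, gr]
    · simp [D2, hh, Matrix.trace]
  have hL : 0 < Lam := by
    have h1 := hlow' (fun _ => 1)
    have h2 := hup' (fun _ => 1)
    have h3 : (S (1 : Matrix (Fin n) (Fin n) ℂ) (fun _ => 1) (fun _ => 1)).re = n := by
      rw [S_one]; simp
    rw [h3] at h1 h2
    have h4 : (0 : ℝ) < n := by exact_mod_cast hn
    nlinarith [mul_pos hl h4]
  refine ⟨?_, ?_, fun hf => ?_⟩
  · rw [D1_eq, gr_eq]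
    exact one_le_inv hw hup' hL _
  · rw [D1_eq, gr_eq]
    exact inv_le_one hw hlow' hl _
  · exact D2_le' hw (C2.cHess_isHermitian (hf.of_le two_le)) hup' hL

theorem vp_prod (w : Cm n → Matrix (Fin n) (Fin n) ℂ) (f h : Cm n → ℝ) (z : Cm n)
    (hw : (w z).PosDef) (hf : DifferentiableAt ℝ f z) (hh : DifferentiableAt ℝ h z) :
    gr w (fun y => f y * h y) (fun y => f y * h y) z ≤
      2 * f z ^ 2 * gr w h h z + 2 * h z ^ 2 * gr w f f z := by
  rw [gr_eq, gr_eq, gr_eq, dd_mul hf hh]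
  exact S_comb hw.inv.posSemidef _ _ _ _

theorem vp_trans (w w' : Cm n → Matrix (Fin n) (Fin n) ℂ) (f h f' h' : Cm n → ℝ)
    (T : Cm n → Cm n) (z : Cm n) (hT : ∀ᶠ y in 𝓝 z, DifferentiableAt ℂ T y)
    (hw : (w z).PosDef)
    (hlaw : w z = (Matrix.of fun p i => dz i (fun y => T y p) z).transpose * w' (T z) *
      (Matrix.of fun p i => dz i (fun y => T y p) z).map (starRingEnd ℂ))
    (hf' : ContDiffAt ℝ ∞ f' (T z)) (hh' : ContDiffAt ℝ ∞ h' (T z))
    (ef : ∀ᶠ y in 𝓝 z, f y = f' (T y)) (eh : ∀ᶠ y in 𝓝 z, h y = h' (T y)) :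
    lap w f z = lap w' f' (T z) ∧ gr w f h z = gr w' f' h' (T z) ∧
      hh w f h z = hh w' f' h' (T z) ∧
      vol w z = vol w' (T z) * ‖(fderiv ℂ T z).det‖ ^ 2 := by
  have hTz : DifferentiableAt ℂ T z := hT.self_of_nhds
  have hlaw' : w z = (jmat T z)ᵀ * w' (T z) * (jmat T z).map (starRingEnd ℂ) := hlaw
  have hinv : (jmat T z).map (starRingEnd ℂ) * (w z)⁻¹ * (jmat T z)ᵀ = (w' (T z))⁻¹ :=
    inv_law hw.det_pos.ne' hlaw'
  refine ⟨?_, ?_, ?_, ?_⟩
  · rw [lap, lap, cHess_comp hT hf' ef, trace_pull, hinv]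
  · rw [gr_eq, gr_eq, dd_comp hTz (hf'.differentiableAt (by norm_num)) ef,
      dd_comp hTz (hh'.differentiableAt (by norm_num)) eh, S_pull, hinv]
  · rw [hh, hh, cHess_comp hT hf' ef, cHess_comp hT hh' eh, trace_pull2, hinv]
  · rw [vol, vol, vol_law hlaw', det_jmat hTz]

/-- **VP** -/
theorem vpStmt : VPStmt where
  symm := vp_symm
  nonneg := vp_nonneg
  ell := vp_ell
  prod := vp_prod
  trans := fun w w' f h f' h' T z hT hw _ => vp_trans w w' f h f' h' T z hT hw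

end Vale.Agent.P284.H730.V

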