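import Vale.Agent.P284.H730.Dn3
import Vale.Agent.P284.H409.SpecA

/-!
# P284, theorem A, block A4: `DensStmt`
-/

set_option linter.all false

open scoped Manifold ContDiff Topology Pointwise ComplexConjugate ComplexOrder
open Filter Set Metric MeasureTheory

noncomputable section

namespace Vale.Agent.P284.H730.A

open Vale.Agent.P272.K Vale.Agent.P284.H248 Vale.Agent.P284.H894
  Vale.Agent.P284.H894.V Vale.Agent.P284.H639.V Vale.Agent.P284.H913.V

/-- a multiplicative function of absolute value `1` is a homomorphism -/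
def homOf {Γ : Type} [Group Γ] (σ : Γ → ℂ) (h1 : ∀ g, ‖σ g‖ = 1)
    (hm : ∀ g h, σ (g * h) = σ g * σ h) : Γ →* ℂ where
  toFun := σ
  map_one' := by
    have h2 := hm 1 1
    rw [mul_one] at h2
    have h3 : σ 1 ≠ 0 := fun h => by
      have := h1 1
      rw [h, norm_zero] at this
      exact zero_ne_one this
    exact (mul_right_cancel₀ h3 (by rw [one_mul]; exact h2)).symm
  map_mul' := hm

theorem tw_iff {n : ℕ} {Γ : Type} [Group Γ] {C : Coc n Γ} {σ : Γ → ℂ} (h1 : ∀ g, ‖σ g‖ = 1)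
    (hm : ∀ g h, σ (g * h) = σ g * σ h) {s : Γ → C.I → Cm n → ℂ} :
    H409.A.Tw C σ 0 s ↔ UT C (homOf σ h1 hm) s := by
  constructor
  · intro h
    refine ⟨h.smooth, h.compat, fun g γ a z hz => ?_⟩
    have := h.equi g γ a z hz
    simp only [Pi.zero_apply, add_zero] at this
    exact this
  · intro h
    refine ⟨h.smooth, h.compat, fun g γ a z hz => ?_⟩
    have := h.equiv g γ a z hz
    simp only [Pi.zero_apply, add_zero]
    exact this

/-- **A4** -/
theorem densStmt : H409.A.DensStmt := by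
  intro n Γ _ C P K σ h1 hm q hq
  have h1' : ∀ g, ‖homOf σ h1 hm g‖ = 1 := h1
  obtain ⟨l₀, hl₀, hd⟩ := dense_range (homOf σ h1 hm) h1' P K
  refine ⟨l₀, hl₀, fun l hl s hs δ hδ => ?_⟩
  have hq' : Pot C (fun a z => l + q a z) :=
    ⟨fun a z hz => contDiffAt_const.add (hq.smooth a z hz),
      fun a b z hz => by rw [hq.compat a b z hz]⟩
  obtain ⟨v, hv⟩ := hd _ hq' (fun a z hz => by linarith [hq.nonneg a z hz])
    ⟨s, (tw_iff h1 hm).1 hs⟩ δ hδ
  refine ⟨v, (tw_iff h1 hm).2 v.2, ?_⟩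
  rw [ipU_self] at hv
  refine lt_of_eq_of_lt ?_ hv
  refine Vale.Agent.P284.H66.S7.BInt_congr P K fun a z hz => ?_
  have h3 : ((⟨s, (tw_iff h1 hm).1 hs⟩ - opL K hq' v : utM C (homOf σ h1 hm)) :
      Γ → C.I → Cm n → ℂ) 1 a z = s 1 a z - (opL K hq' v : Γ → C.I → Cm n → ℂ) 1 a z := rfl
  rw [h3, opL_apply K hq' v 1 (V_sub_Ω C a hz), norm_sub_rev (s 1 a z)]
  rfl

end Vale.Agent.P284.H730.A
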