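import Vale.Agent.P284.H730.T3c
import Vale.Agent.P284.H409.T.Spec

/-!
# P284, theorem T, row T3 (helper730): the literal statement `T3Stmt`
-/

noncomputable section

namespace Vale.Agent.P284.H730.T

/-- **T3** (730): dense range of `l - Δ` for large `l`, sections with values in a Hilbert space. -/
theorem t3Stmt : Vale.Agent.P284.H409.T.T3Stmt := by
  intro n Γ _ C P K H _ _ _ π
  obtain ⟨l₀, h0, h⟩ := densH P K
  exact ⟨l₀, h0, fun l hl s hs δ hδ => h H π l hl s hs δ hδ⟩

end Vale.Agent.P284.H730.T
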