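import Vale.Agent.P284.H731.Alb

/-!
# P284 (helper730): the Albanese map from the finite dimension of the space of pluriharmonic functions
with bounded gradient (731's proof of `AlbStmt2`)
-/

open scoped Manifold ContDiff Topology Pointwise ComplexConjugate ComplexOrder
open Filter Set Metric

noncomputable section

namespace Vale.Agent.P284.H730.Alb

open Vale.Agent.P272.K Vale.Agent.P284.H894.V Vale.Agent.P284.H465.V17 Vale.Agent.P284.H894.G
  Vale.Agent.P284.H731.S2 Vale.Agent.P284.H5.V Vale.Agent.P284.H894.W Vale.Agent.P284.H731.Alb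
  Vale.Agent.P284.H894

/-- the Albanese map, from the Hodge theorem `S1` and the finite dimension -/
theorem alb_of (hS1 : Vale.Agent.P284.H446.V.S1Stmt) (n : ℕ) (X : Type) [TopologicalSpace X]
    [T2Space X] [CompactSpace X] [ConnectedSpace X]
    [ChartedSpace (Cm n) X] [IsManifold 𝓘(ℂ, Cm n) ω X]
    (w : Chart n X → Cm n → Matrix (Fin n) (Fin n) ℂ) (hw : IsKahler w)
    (E Γ : Type) [TopologicalSpace E] [SimplyConnectedSpace E] [Group Γ] [MulAction Γ E]
    (p : E → X) (hG : IsGalois Γ p)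
    (hFD : ∃ V : Submodule ℝ (E → ℝ), FiniteDimensional ℝ V ∧ ∀ u, u ∈ V ↔ ∃ B, IsPHB p w u B) :
    ∃ (G K : Subgroup Γ) (N : ℕ) (F : E → Cm N) (c : Γ → Cm N), Alb p w G K F c := by
  obtain ⟨_, _, _, hfg, -⟩ := Vale.Agent.P284.H639.V.v15Stmt n X w hw E Γ p hG
  obtain ⟨V, hVfd, hV⟩ := hFD
  have hVeq : V = phb p w := Submodule.ext fun u => hV u
  have : FiniteDimensional ℝ (phb p w) := hVeq ▸ hVfd
  have : FiniteDimensional ℝ (V0 p w Γ) :=
    Submodule.finiteDimensional_of_le (inf_le_left : V0 p w Γ ≤ phb p w)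
  obtain ⟨y₀⟩ : Nonempty E := inferInstance
  obtain ⟨G, hGfi, hGc⟩ := exists_subgroup (p := p) (w := w) (Γ := Γ)
  have := finite_H0 (p := p) (w := w) (Γ := Γ) y₀
  let b := Module.finBasis ℂ (H0 p w Γ y₀)
  let F : E → Cm (Module.finrank ℂ (H0 p w Γ y₀)) := fun y j => (b j : E → ℂ) y
  have hb : ∀ j, (fun y => (F y j).re) ∈ V0 p w Γ ∧ (fun y => (F y j).im) ∈ V0 p w Γ ∧
    Conj n p (fun y => (F y j).re) (fun y => (F y j).im) ∧ F y₀ j = 0 := fun j => mem_H0.1 (b j).2
  have hF0 : F y₀ = 0 := funext fun j => (hb j).2.2.2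
  let c : Γ → Cm (Module.finrank ℂ (H0 p w Γ y₀)) := fun g => F (g • y₀)
  have hequiv : ∀ g ∈ G, ∀ y, F (g • y) = F y + c g := by
    intro g hg y
    funext j
    obtain ⟨r, hr⟩ := hGc _ (hb j).1 g hg
    obtain ⟨s, hs⟩ := hGc _ (hb j).2.1 g hg
    have h1 : (F y₀ j).re = 0 := by rw [hF0]; rfl
    have h2 : (F y₀ j).im = 0 := by rw [hF0]; rfl
    have h3 : ((F (g • y₀) j).re) = r := by
      rw [show ((F (g • y₀) j).re) = (F y₀ j).re + r from hr y₀, h1, zero_add]
    have h4 : ((F (g • y₀) j).im) = s := by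
      rw [show ((F (g • y₀) j).im) = (F y₀ j).im + s from hs y₀, h2, zero_add]
    apply Complex.ext
    · show (F (g • y) j).re = (F y j + F (g • y₀) j).re
      rw [Complex.add_re, h3]
      exact hr y
    · show (F (g • y) j).im = (F y j + F (g • y₀) j).im
      rw [Complex.add_im, h4]
      exact hs y
  have hadd : ∀ g ∈ G, ∀ h ∈ G, c (g * h) = c g + c h := by
    intro g hg h hh
    show F ((g * h) • y₀) = _
    rw [mul_smul, hequiv g hg, add_comm]
  have hrep : ∀ u ∈ V0 p w Γ, ∃ a : Fin (Module.finrank ℂ (H0 p w Γ y₀)) → ℂ,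
      ∀ y, u y = (∑ j, a j * F y j).re + u y₀ := by
    intro u hu
    obtain ⟨⟨B, hB⟩, G', hG', hc⟩ := mem_V0.1 hu
    obtain ⟨v, hv1, hv2⟩ := s2 hG.cov hB
    have hv : v ∈ V0 p w Γ := mem_V0.2 ⟨⟨B, hv1⟩, G', hG', fun g hg => by
      obtain ⟨r, hr⟩ := hc g hg
      exact conj_periods hG hv2 g hr⟩
    have hone : (fun _ : E => (1 : ℝ)) ∈ V0 p w Γ := by
      refine mem_V0.2 ⟨⟨0, fun y e he => ⟨fun _ => 1, Eventually.of_forall fun _ => rfl,
        Eventually.of_forall fun z => ⟨contDiffAt_const, ?_⟩, fun x => ?_⟩⟩, ⊤, inferInstance,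
        fun g _ => ⟨0, fun y => (add_zero _).symm⟩⟩
      · ext j k
        rw [cHess_apply]
        have : dzb k (fun _ : Cm n => ((1 : ℝ) : ℂ)) = fun _ => 0 := funext fun y => dzb_const _
        rw [this, dz_const]
        rfl
      · have h : fderiv ℝ (fun _ : Cm n => (1 : ℝ)) (e (p y)) = 0 := fderiv_const_apply _
        rw [h]
        simp
    let f : E → ℂ := fun y => ((u y + (-u y₀) * 1 : ℝ) : ℂ) + ((v y + (-v y₀) * 1 : ℝ) : ℂ) * Complex.I
    have hre : (fun y => (f y).re) = fun y => u y + (-u y₀) * 1 := by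
      funext y
      simp only [f, Complex.add_re, Complex.ofReal_re, Complex.mul_re, Complex.I_re, mul_zero,
        Complex.ofReal_im, Complex.I_im, mul_one, sub_self, add_zero]
    have him : (fun y => (f y).im) = fun y => v y + (-v y₀) * 1 := by
      funext y
      simp only [f, Complex.add_im, Complex.ofReal_re, Complex.mul_im, Complex.I_re, mul_zero,
        Complex.ofReal_im, Complex.I_im, mul_one, add_zero, zero_add]
    have hf : f ∈ H0 p w Γ y₀ := by
      refine mem_H0.2 ⟨?_, ?_, ?_, ?_⟩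
      · rw [hre]
        exact (V0 p w Γ).add_mem hu ((V0 p w Γ).smul_mem _ hone)
      · rw [him]
        exact (V0 p w Γ).add_mem hv ((V0 p w Γ).smul_mem _ hone)
      · exact (hv2.add_const ((-u y₀) * 1) ((-v y₀) * 1)).congr hre.symm him.symm
      · simp [f]
    refine ⟨fun j => b.repr ⟨f, hf⟩ j, fun y => ?_⟩
    have h1 := congrArg (fun x : H0 p w Γ y₀ => (x : E → ℂ) y) (b.sum_repr ⟨f, hf⟩)
    have h2 : (∑ j, b.repr ⟨f, hf⟩ j * F y j) = f y := by
      rw [← show _ = f y from h1]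
      push_cast
      rw [Finset.sum_apply]
      rfl
    rw [h2, show (f y).re = u y + (-u y₀) * 1 from congrFun hre y]
    ring
  have hfun : ∀ a : Fin (Module.finrank ℂ (H0 p w Γ y₀)) → ℂ,
      (fun y => ∑ j, a j * F y j) ∈ H0 p w Γ y₀ := by
    intro a
    have h1 := (∑ j, a j • b j : H0 p w Γ y₀).2
    convert h1 using 1
    funext y
    push_cast
    rw [Finset.sum_apply]
    rfl
  have hper : ∀ (G' : Subgroup Γ) (_ : G'.FiniteIndex) (χ : G' →* Multiplicative ℤ),
      ∃ a : Fin (Module.finrank ℂ (H0 p w Γ y₀)) → ℂ, ∀ g : G',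
        ((Multiplicative.toAdd (χ g) : ℤ) : ℝ) = (∑ j, a j * c g j).re := by
    intro G' hG' χ
    obtain ⟨u, B, hu, hu2⟩ := hS1 n X w hw E Γ p hG (phb p w) inferInstance (fun u => Iff.rfl) G' hG' χ
    obtain ⟨a, ha⟩ := hrep u (mem_V0.2 ⟨⟨B, hu⟩, G', hG', fun g hg => ⟨_, hu2 ⟨g, hg⟩⟩⟩)
    refine ⟨a, fun g => ?_⟩
    have h1 := hu2 g y₀
    have h2 := ha ((g : Γ) • y₀)
    rw [h1] at h2
    have h3 : (∑ j, a j * c g j).re = (∑ j, a j * F ((g : Γ) • y₀) j).re := rfl
    rw [h3]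
    linarith
  refine ⟨G,
    { carrier := {g | g ∈ G ∧ c g = 0}
      mul_mem' := ?_
      one_mem' := ?_
      inv_mem' := ?_ }, _, F, c, ?_⟩
  · rintro g h ⟨hg, hg0⟩ ⟨hh, hh0⟩
    exact ⟨G.mul_mem hg hh, by rw [hadd g hg h hh, hg0, hh0, add_zero]⟩
  · exact ⟨G.one_mem, by show F ((1 : Γ) • y₀) = 0; rw [one_smul, hF0]⟩
  · rintro g ⟨hg, hg0⟩
    refine ⟨G.inv_mem hg, ?_⟩
    have h1 := hadd g hg g⁻¹ (G.inv_mem hg)
    rw [mul_inv_cancel, hg0, zero_add] at h1
    rw [← h1]
    show F ((1 : Γ) • y₀) = 0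
    rw [one_smul, hF0]
  · refine ⟨hGfi, ?_, hequiv, fun g => Iff.rfl, ?_, ?_, ?_⟩
    · exact holB_of hw.toIsHermitian hG.cov fun j =>
        ⟨(mem_V0.1 (hb j).1).1, (mem_V0.1 (hb j).2.1).1, (hb j).2.2.1⟩
    · -- the periods form a discrete set
      intro R
      have : Group.FG G := Subgroup.fg_of_index_ne_zero G
      obtain ⟨r, β, χ, hχ⟩ := exists_int_coords (H := G) (fun g => c g)
        (fun g h => hadd g g.2 h h.2)
      choose a ha using fun k => hper G hGfi (χ k)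
      refine Set.Finite.subset (Set.Finite.image (fun m : Fin r → ℤ => ∑ k, (m k : ℝ) • β k)
        (Set.Finite.pi' fun k => Set.finite_Icc (-⌈(∑ j, ‖a k j‖) * R⌉) ⌈(∑ j, ‖a k j‖) * R⌉)) ?_
      rintro v ⟨⟨g, hg, rfl⟩, hR⟩
      refine ⟨fun k => Multiplicative.toAdd (χ k ⟨g, hg⟩), fun k => ?_, (hχ ⟨g, hg⟩).symm⟩
      have h1 : |((Multiplicative.toAdd (χ k ⟨g, hg⟩) : ℤ) : ℝ)| ≤ (∑ j, ‖a k j‖) * R := by
        rw [ha k ⟨g, hg⟩]
        refine (Complex.abs_re_le_norm _).trans ((norm_sum_le _ _).trans ?_)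
        rw [Finset.sum_mul]
        refine Finset.sum_le_sum fun j _ => ?_
        rw [norm_mul]
        exact mul_le_mul_of_nonneg_left ((norm_le_pi_norm _ j).trans hR) (norm_nonneg _)
      have h2 := abs_le.1 (h1.trans (Int.le_ceil _))
      constructor
      · exact_mod_cast h2.1
      · exact_mod_cast h2.2
    · -- the periods span
      by_contra hne
      obtain ⟨l, hl0, hl⟩ := Submodule.exists_le_ker_of_lt_top _ (lt_top_iff_ne_top.2 hne)
      apply hl0
      obtain ⟨a, ha⟩ := functional_eq l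
      have hf := mem_H0.1 (hfun a)
      obtain ⟨B, hB⟩ := (mem_V0.1 hf.1).1
      have h1 : ∀ g ∈ G, ∀ y, (∑ j, a j * F (g • y) j).re = (∑ j, a j * F y j).re := by
        intro g hg y
        rw [← ha, ← ha, hequiv g hg, map_add]
        have h2 : l (c g) = 0 := hl (Submodule.subset_span ⟨g, hg, rfl⟩)
        rw [h2, add_zero]
      have h2 := const_of_fi hG hB G hGfi h1
      have h3 : ∀ y y', (∑ j, a j * F y j).im = (∑ j, a j * F y' j).im := by
        intro y y'
        have := const_of_conj hG.cov hf.2.2.1.mul_I h2 y y'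
        linarith
      have h4 : ∀ y, ∑ j, a j * F y j = 0 := by
        intro y
        rw [← hf.2.2.2]
        exact Complex.ext (h2 y y₀) (h3 y y₀)
      have h5 : ∑ j, a j • b j = 0 := by
        apply Subtype.ext
        funext y
        rw [← show _ = ((0 : H0 p w Γ y₀) : E → ℂ) y from h4 y]
        push_cast
        rw [Finset.sum_apply]
        rfl
      have h6 : ∀ j, a j = 0 := Fintype.linearIndependent_iff.1 b.linearIndependent a h5
      refine LinearMap.ext fun z => ?_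
      rw [ha]
      simp [h6]
    · -- maximality
      intro G' hG' hle φ hφ g hg hcg
      have : Group.FG G' := Subgroup.fg_of_index_ne_zero G'
      obtain ⟨r, β, χ, hχ⟩ := exists_int_coords (H := G') (fun g => φ g)
        (fun g h => hφ g g.2 h h.2)
      have h1 := hχ ⟨g, hg⟩
      rw [show φ g = _ from h1]
      refine Finset.sum_eq_zero fun k _ => ?_
      obtain ⟨a, ha⟩ := hper G' hG' (χ k)
      rw [ha ⟨g, hg⟩, show c ((⟨g, hg⟩ : G') : Γ) = 0 from hcg]
      simp

end Vale.Agent.P284.H730.Alb
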