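import Vale.Agent.P284.H730.S5G3

/-!
# P284, next theorem, S5-GEO, part 4: pluriharmonic functions of `V₁ → V₁ / S` and pluriharmonic functions
along `V₁`; `GeoStmt`
-/

open scoped Manifold ContDiff Topology Pointwise ComplexConjugate ComplexOrder Matrix
open Filter Set Metric

noncomputable section

namespace Vale.Agent.P284.H730.G

open Vale.Agent.P272.K Vale.Agent.P284.H894.G Vale.Agent.P284.H894.W Vale.Agent.P284.H894.V
open Vale.Agent.P272.K.QN (jm jm_holo dz_comp_F dzb_comp_F pb pl loc pb_apply isSemi_pb loc_apply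
  jm_mulVec quadR loc_contDiffAt)

/-- complex Hessian of a composition with a holomorphic map `ℂᴺ → ℂⁿ` -/
theorem cHess_comp_R {N n : ℕ} {Φ : Cm N → Cm n} {z : Cm N} {g : Cm n → ℝ}
    (hg : ContDiffAt ℝ 2 g (Φ z)) (h : ContDiffAt ℂ ω Φ z) :
    cHess (fun y => g (Φ y)) z =
      (jm Φ z).transpose * cHess g (Φ z) * (jm Φ z).map (starRingEnd ℂ) := by
  have hF : ContDiffAt ℝ 2 (fun y => (g y : ℂ)) (Φ z) := ofReal_contDiffAt hg
  have hev : ∀ᶠ y in 𝓝 z, ContDiffAt ℂ ω Φ y := h.eventually (by simp)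
  have hev2 : ∀ᶠ y in 𝓝 z, ContDiffAt ℝ 2 (fun y => (g y : ℂ)) (Φ y) :=
    h.continuousAt.eventually (hF.eventually (by simp))
  ext j k
  rw [cHess_apply]
  have h1 : dzb k (fun y => ((g (Φ y) : ℝ) : ℂ)) =ᶠ[𝓝 z]
      fun y => ∑ q, dzb q (fun y => (g y : ℂ)) (Φ y) * cj (jm Φ y q k) := by
    filter_upwards [hev, hev2] with y hy hy2
    exact dzb_comp_F (f := fun y => (g y : ℂ)) (hy2.differentiableAt (by norm_num))
      (hy.differentiableAt (by simp))
  rw [dz_congr h1]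
  have hd1 : ∀ q, DifferentiableAt ℝ (fun y => dzb q (fun y => (g y : ℂ)) (Φ y)) z := by
    intro q
    exact (differentiableAt_dzb hF).comp z ((h.differentiableAt (by simp)).restrictScalars ℝ)
  have hd2 : ∀ q, DifferentiableAt ℝ (fun y => jm Φ y q k) z := fun q =>
    ((jm_holo h q k).differentiableAt (by simp)).restrictScalars ℝ
  have hd3 : ∀ q, DifferentiableAt ℝ (fun y => cj (jm Φ y q k)) z := by
    intro q
    exact Complex.conjCLE.differentiableAt.comp z (hd2 q)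
  rw [dz_sum (F := fun q y => dzb q (fun y => (g y : ℂ)) (Φ y) * cj (jm Φ y q k)) Finset.univ
    fun q _ => (hd1 q).mul (hd3 q)]
  have h2 : ∀ q, dz j (fun y => dzb q (fun y => (g y : ℂ)) (Φ y) * cj (jm Φ y q k)) z =
      ∑ p, jm Φ z p j * cHess g (Φ z) p q * cj (jm Φ z q k) := by
    intro q
    rw [dz_mul (hd1 q) (hd3 q), dz_cj (hd2 q),
      dzb_of_holo ((jm_holo h q k).differentiableAt (by simp)),
      dz_comp_F (differentiableAt_dzb hF) (h.differentiableAt (by simp))]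
    simp only [cj, map_zero, mul_zero, add_zero]
    rw [Finset.sum_mul]
    refine Finset.sum_congr rfl fun p _ => ?_
    rw [cHess_apply]; ring
  rw [Finset.sum_congr rfl fun q _ => h2 q]
  simp only [Matrix.mul_apply, Matrix.transpose_apply, Matrix.map_apply, Finset.sum_mul]

section
variable {n m : ℕ} {X : Type} [TopologicalSpace X] [ChartedSpace (Cm n) X]
  {Y : Type} [TopologicalSpace Y] [ChartedSpace (Cm m) Y]
  {E : Type} [TopologicalSpace E] {V₁ : Set E} {p₁ : V₁ → Y} {ι : Y → X} {p : E → X}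

open Classical in
/-- the expression of a function on `V₁` along a holomorphic map with values in `V₁` -/
lemma along_local (hι : Continuous ι) (hI : ∀ c ∈ atlas (Cm m) Y, Imm n ι c)
    (hp₁ : Continuous p₁) (hpι : ∀ y, ι (p₁ y) = p y)
    {w₁ : Chart m Y → Cm m → Matrix (Fin m) (Fin m) ℂ} {u : V₁ → ℝ} {B : ℝ}
    (hu : IsPHB p₁ w₁ u B) {k : ℕ} {g : Cm k → E} {s₀ : Cm k}
    (hg : ∀ᶠ s in 𝓝 s₀, g s ∈ V₁ ∧ HolTo (n := n) p g s) :
    ∃ (c : Chart m Y) (y₁ : V₁) (G : Cm m → ℝ) (τ : Cm k → Cm m), (y₁ : E) = g s₀ ∧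
      At c (p₁ y₁) ∧ τ s₀ = c (p₁ y₁) ∧ ContDiffAt ℂ ω τ s₀ ∧
      ((fun s => if h : g s ∈ V₁ then u ⟨g s, h⟩ else 0) =ᶠ[𝓝 s₀] fun s => G (τ s)) ∧
      (∀ᶠ z in 𝓝 (c (p₁ y₁)), ContDiffAt ℝ ∞ G z ∧ cHess G z = 0) ∧
      (∀ v : Cm m, fderiv ℝ G (c (p₁ y₁)) v ^ 2 ≤
        B * (∑ j, ∑ k, w₁ c (c (p₁ y₁)) j k * v j * conj (v k)).re) ∧
      ∀ e : Chart n X, At e (p (g s₀)) →
        (fun s => e (p (g s))) =ᶠ[𝓝 s₀] fun s => loc ι c e (τ s) := by
  set y₁ : V₁ := ⟨g s₀, hg.self_of_nhds.1⟩ with hy₁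
  set c := chartAt (Cm m) (p₁ y₁) with hc
  have hAt : At c (p₁ y₁) := ⟨chart_mem_atlas _ _, mem_chart_source _ _⟩
  obtain ⟨G, hG1, hG2, hG3⟩ := hu y₁ c hAt
  set γ : Cm k → V₁ := fun s => if h : g s ∈ V₁ then ⟨g s, h⟩ else y₁ with hγ
  have hγ0 : γ s₀ = y₁ := by
    rw [hγ]
    exact dif_pos hg.self_of_nhds.1
  have hγv : ∀ᶠ s in 𝓝 s₀, (γ s : E) = g s := by
    filter_upwards [hg] with s hs
    simp only [hγ, dif_pos hs.1]
  have hγc : ContinuousAt γ s₀ := by
    rw [Topology.IsInducing.subtypeVal.continuousAt_iff]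
    refine ContinuousAt.congr hg.self_of_nhds.2.1 ?_
    filter_upwards [hγv] with s hs
    exact hs.symm
  set τ : Cm k → Cm m := fun s => c (p₁ (γ s)) with hτ
  have hτ0 : τ s₀ = c (p₁ y₁) := by
    simp only [hτ, hγ0]
  have hpγ : ContinuousAt (fun s => p₁ (γ s)) s₀ := hp₁.continuousAt.comp hγc
  have hsrc : ∀ᶠ s in 𝓝 s₀, p₁ (γ s) ∈ c.source :=
    hpγ.eventually (c.open_source.mem_nhds (by simp only [hγ0]; exact hAt.2))
  have hτc : ContinuousAt τ s₀ :=
    ContinuousAt.comp (g := c) (by rw [hγ0]; exact c.continuousAt hAt.2) hpγ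
  have hloc : ∀ e : Chart n X, At e (p (g s₀)) →
      (fun s => e (p (g s))) =ᶠ[𝓝 s₀] fun s => loc ι c e (τ s) := by
    intro e he
    filter_upwards [hsrc, hγv] with s hs hs2
    simp only [loc, hτ]
    rw [c.left_inv hs, hpι, hs2]
  refine ⟨c, y₁, G, τ, rfl, hAt, hτ0, ?_, ?_, hG2, hG3, hloc⟩
  · -- holomorphy
    set e := chartAt (Cm n) (p (g s₀)) with he
    have hAte : At e (p (g s₀)) := ⟨chart_mem_atlas _ _, mem_chart_source _ _⟩
    have h1 : c.symm (τ s₀) = p₁ y₁ := by rw [hτ0]; exact c.left_inv hAt.2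
    have h2 : At e (ι (c.symm (τ s₀))) := by rw [h1, hpι]; exact hAte
    have h3 : τ s₀ ∈ c.target := by rw [hτ0]; exact c.map_source hAt.2
    refine contDiffAt_of_comp (g' := fun z => e (ι (c.symm z))) (g := fun s => e (p (g s)))
      ((hI c hAt.1).omega hι h3 h2) (hI c hAt.1 _ h3 e h2).2 ?_ hτc (hloc e hAte)
    have h4 : ∀ᶠ s in 𝓝 s₀, DifferentiableAt ℂ (fun s => e (p (g s))) s := by
      have h5 : ContinuousAt (fun s => p (g s)) s₀ := by
        have h6 : ContinuousAt (fun s => ι (p₁ (γ s))) s₀ := hι.continuousAt.comp hpγ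
        refine h6.congr ?_
        filter_upwards [hγv] with s hs
        rw [hpι, hs]
      filter_upwards [hg, h5.eventually (e.open_source.mem_nhds hAte.2)] with s hs hs2
      exact hs.2.2 e ⟨hAte.1, hs2⟩
    obtain ⟨U, hU, hUo, hz⟩ := _root_.mem_nhds_iff.1 h4
    have hd : DifferentiableOn ℂ (fun s => e (p (g s))) U := fun z hz =>
      (hU hz : DifferentiableAt ℂ _ z).differentiableWithinAt
    exact (Vale.Agent.P268.analyticAt_of_differentiableOn hUo hd hz).contDiffAt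
  · have h1 : ∀ᶠ s in 𝓝 s₀, u (γ s) = G (c (p₁ (γ s))) := by
      have h2 : Tendsto γ (𝓝 s₀) (𝓝 y₁) := by
        have := hγc.tendsto
        rwa [hγ0] at this
      exact h2.eventually hG1
    filter_upwards [h1, hg] with s hs hs2
    have h3 : γ s = ⟨g s, hs2.1⟩ := dif_pos hs2.1
    rw [dif_pos hs2.1, ← h3]
    exact hs

variable [IsManifold 𝓘(ℂ, Cm n) ω X] [IsManifold 𝓘(ℂ, Cm m) ω Y]

/-- pluriharmonic functions with bounded gradient on `V₁ → Y` are pluriharmonic with bounded gradient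
along `V₁` -/
theorem along_of_phb (hι : ContMDiff 𝓘(ℂ, Cm m) 𝓘(ℂ, Cm n) ω ι)
    (hI : ∀ c ∈ atlas (Cm m) Y, Imm n ι c) (hp₁ : Continuous p₁) (hpι : ∀ y, ι (p₁ y) = p y)
    {w : Chart n X → Cm n → Matrix (Fin n) (Fin n) ℂ} (hw : IsHermitian w) {u : V₁ → ℝ} {B : ℝ}
    (hu : IsPHB p₁ (pb (n := m) (m := n) ι w) u B) : Along p w V₁ u B := by
  classical
  intro k g t hg
  refine ⟨?_, fun e he v => ?_⟩
  · filter_upwards [eventually_eventually_nhds.2 hg] with s₀ hs₀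
    obtain ⟨c, y₁, G, τ, hy, hc, hτ0, hτ, hU, hG, -, -⟩ :=
      along_local hι.continuous hI hp₁ hpι hu hs₀
    have hG0 := hG.self_of_nhds
    rw [← hτ0] at hG0
    have hτr : ContDiffAt ℝ ∞ τ s₀ := (hτ.restrict_scalars ℝ).of_le (by exact_mod_cast le_top)
    constructor
    · have h1 : ContDiffAt ℝ ∞ (fun s => G (τ s)) s₀ := hG0.1.comp s₀ hτr
      exact h1.congr_of_eventuallyEq hU
    · have h1 := cHess_comp_R (hG0.1.of_le (WithTop.coe_le_coe.2 (le_top : (2 : ℕ∞) ≤ ⊤))) hτ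
      rw [hG0.2, Matrix.mul_zero, Matrix.zero_mul] at h1
      rw [← h1]
      ext i j
      rw [cHess_apply, cHess_apply]
      refine dz_congr ?_
      filter_upwards [hU.eventuallyEq_nhds] with s hs
      refine dzb_congr ?_
      filter_upwards [hs] with x hx
      rw [hx]
  · obtain ⟨c, y₁, G, τ, hy, hc, hτ0, hτ, hU, hG, hG3, hloc⟩ :=
      along_local hι.continuous hI hp₁ hpι hu hg
    have hG0 := hG.self_of_nhds
    rw [← hτ0] at hG0
    have hτd : DifferentiableAt ℂ τ t := hτ.differentiableAt (by simp)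
    have h1 : fderiv ℝ (fun s => if h : g s ∈ V₁ then u ⟨g s, h⟩ else 0) t v =
        fderiv ℝ G (c (p₁ y₁)) (fderiv ℂ τ t v) := by
      have h2 : (fun s => if h : g s ∈ V₁ then u ⟨g s, h⟩ else 0) =ᶠ[𝓝 t] fun s => G (τ s) := hU
      rw [h2.fderiv_eq]
      have h3 : HasFDerivAt (fun s => G (τ s))
          ((fderiv ℝ G (τ t)).comp ((fderiv ℂ τ t).restrictScalars ℝ)) t :=
        ((hG0.1.differentiableAt (by simp)).hasFDerivAt).comp t
          (hτd.hasFDerivAt.restrictScalars ℝ)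
      rw [h3.fderiv, hτ0]
      rfl
    rw [h1]
    refine (hG3 _).trans (le_of_eq ?_)
    congr 2
    have he' : At e (ι (p₁ y₁)) := by rw [hpι, hy]; exact he
    have hq : ∀ {k : ℕ} (M : Matrix (Fin k) (Fin k) ℂ) (v : Cm k),
        (∑ i, ∑ j, M i j * v i * conj (v j)) = Vale.Agent.P272.K.P1.herm M v := by
      intro k M v
      simp only [Vale.Agent.P272.K.P1.herm, mul_assoc]
    have hld : DifferentiableAt ℂ (loc ι c e) (τ t) := by
      rw [hτ0]
      exact (loc_contDiffAt hι hc he').differentiableAt (by simp)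
    have h4 : fderiv ℂ (fun s => e (p (g s))) t v = fderiv ℂ (loc ι c e) (τ t) (fderiv ℂ τ t v) := by
      rw [(hloc e he).fderiv_eq]
      have h5 : HasFDerivAt (fun s => loc ι c e (τ s))
          ((fderiv ℂ (loc ι c e) (τ t)).comp (fderiv ℂ τ t)) t :=
        hld.hasFDerivAt.comp t hτd.hasFDerivAt
      rw [h5.fderiv]
      rfl
    have h6 : fderiv ℂ (fun s => e (p (g s))) t v =
        (jm (loc ι c e) (c (p₁ y₁))).mulVec (fderiv ℂ τ t v) := by
      rw [h4]
      ext i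
      rw [jm_mulVec hld, hτ0]
      rfl
    rw [hq, pb_apply hι hw hc he']
    unfold pl
    rw [quadR, ← h6, loc_apply hc, hpι, hy, ← hq]

end

/-- **WGEO** -/
theorem geoStmt : GeoStmt := by
  intro n X _ _ _ _ _ _ w hw E Γ _ _ _ _ p hp N F hF S y₀ V₁ hFS hinv hconn hV hO hcl hreg hQ
  obtain ⟨v₀, hv₀⟩ := hconn.nonempty
  have hNn : N ≤ n := by
    obtain ⟨B, hB⟩ := hF
    have hAt : At (chartAt (Cm n) (p v₀)) (p v₀) := ⟨chart_mem_atlas _ _, mem_chart_source _ _⟩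
    obtain ⟨f, hf1, hf2, -⟩ := hB v₀ _ hAt
    have hs := hreg v₀ hv₀ _ f hAt hf1
    have h1 := LinearMap.finrank_le_finrank_of_surjective
      (f := (fderiv ℂ f (chartAt (Cm n) (p v₀) (p v₀)) : Cm n →ₗ[ℂ] Cm N)) hs
    simpa using h1
  have hmn : (n - N) + N = n := Nat.sub_add_cancel hNn
  have hI : ImmY n (n - N) (toX hp hinv) := immY_toX hp hinv hF hV hO hreg hmn
  exact ⟨n - N, Qt S V₁ hinv, inferInstance, t2_Qt hp hinv, compact_Qt hinv hcl hQ,
    connected_Qt hinv hconn, hI.cs, hI.isManifold, pb (toX hp hinv) w, act S V₁ hinv,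
    mkQ S V₁ hinv, hmn, isKahler_pb hI hw, fun s y => rfl, isGalois_mkQ hp hinv,
    fun u B hu => by
      let := hI.cs
      have := hI.isManifold
      exact along_of_phb hI.contMDiff (fun c hc => hc)
        (mkQ_isQuotientMap S V₁ hinv).continuous (fun y => rfl) hw.toIsHermitian hu⟩

end Vale.Agent.P284.H730.G
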