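import Vale.Agent.P284.H730.AlbFD
import Vale.Agent.P284.H894.W.Final

/-! # P284 (helper730): the Albanese map from the finite dimension -/

open scoped Manifold ContDiff

noncomputable section

namespace Vale.Agent.P284.H730.Alb

open Vale.Agent.P272.K Vale.Agent.P284.H894.V Vale.Agent.P284.H894.G Vale.Agent.P284.H894.W
  Vale.Agent.P284.H894

theorem alb_of_fd (n : ℕ) (X : Type) [TopologicalSpace X]
    [T2Space X] [CompactSpace X] [ConnectedSpace X]
    [ChartedSpace (Cm n) X] [IsManifold 𝓘(ℂ, Cm n) ω X]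
    (w : Chart n X → Cm n → Matrix (Fin n) (Fin n) ℂ) (hw : IsKahler w)
    (E Γ : Type) [TopologicalSpace E] [SimplyConnectedSpace E] [Group Γ] [MulAction Γ E]
    (p : E → X) (hG : IsGalois Γ p)
    (hFD : ∃ V : Submodule ℝ (E → ℝ), FiniteDimensional ℝ V ∧ ∀ u, u ∈ V ↔ ∃ B, IsPHB p w u B) :
    ∃ (G K : Subgroup Γ) (N : ℕ) (F : E → Cm N) (c : Γ → Cm N), Alb p w G K F c :=
  alb_of (Vale.Agent.P284.H446.V.s1_of exConcl v14Concl) n X w hw E Γ p hG hFD

end Vale.Agent.P284.H730.Alb
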