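import Vale.Agent.P284.H730.Dens

/-!
# P284, theorem A, block AX: the conjugation `tau (e^ψ v) = e^ψ (lapC v - |∂ψ|² v)`
-/

set_option linter.all false

open scoped Manifold ContDiff Topology Pointwise ComplexConjugate ComplexOrder
open Filter Set Metric MeasureTheory

noncomputable section

namespace Vale.Agent.P284.H730.A

open Vale.Agent.P272.K Vale.Agent.P272.K.C2 Vale.Agent.P284.H894.V Vale.Agent.P284.H639.V

variable {n : ℕ} {w : Cm n → Matrix (Fin n) (Fin n) ℂ} {ψ : Cm n → ℝ} {v : Cm n → ℂ} {z : Cm n}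

/-- `e^ψ` as a complex function -/
def ex (ψ : Cm n → ℝ) (y : Cm n) : ℂ := ((Real.exp (ψ y) : ℝ) : ℂ)

theorem ex_smooth (h : ContDiffAt ℝ ∞ ψ z) : ContDiffAt ℝ ∞ (ex ψ) z :=
  contDiffAt_ofReal (Real.contDiff_exp.contDiffAt.comp z h)

theorem fderiv_ex (h : DifferentiableAt ℝ ψ z) (x : Cm n) :
    fderiv ℝ (ex ψ) z x = ex ψ z * fderiv ℝ (fun y => (ψ y : ℂ)) z x := by
  have h1 : HasFDerivAt (ex ψ) (Complex.ofRealCLM.comp (Real.exp (ψ z) • fderiv ℝ ψ z)) z :=
    Complex.ofRealCLM.hasFDerivAt.comp z h.hasFDerivAt.exp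
  have h2 : HasFDerivAt (fun y => (ψ y : ℂ)) (Complex.ofRealCLM.comp (fderiv ℝ ψ z)) z :=
    Complex.ofRealCLM.hasFDerivAt.comp z h.hasFDerivAt
  rw [h1.fderiv, h2.fderiv]
  simp [ex]

theorem ex_diff (h : DifferentiableAt ℝ ψ z) : DifferentiableAt ℝ (ex ψ) z :=
  (Complex.ofRealCLM.hasFDerivAt.comp z h.hasFDerivAt.exp).differentiableAt

theorem ev_diff {F : Type*} [NormedAddCommGroup F] [NormedSpace ℝ F] {g : Cm n → F}
    (h : ContDiffAt ℝ ∞ g z) : ∀ᶠ y in 𝓝 z, DifferentiableAt ℝ g y := by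
  have h1 : ContDiffAt ℝ 1 g z := h.of_le (by simp)
  filter_upwards [h1.eventually (by simp)] with y hy using hy.differentiableAt (by simp)

theorem dz_ex (h : DifferentiableAt ℝ ψ z) (j : Fin n) :
    dz j (ex ψ) z = ex ψ z * dz j (fun y => (ψ y : ℂ)) z := by
  unfold dz
  rw [fderiv_ex h, fderiv_ex h]
  ring

theorem dzb_ex (h : DifferentiableAt ℝ ψ z) (j : Fin n) :
    dzb j (ex ψ) z = ex ψ z * dzb j (fun y => (ψ y : ℂ)) z := by
  unfold dzb
  rw [fderiv_ex h, fderiv_ex h]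
  ring

theorem tau_bracket (hψ : ContDiffAt ℝ ∞ ψ z) (h0 : cHess ψ z = 0) (hv : ContDiffAt ℝ ∞ v z)
    (j k : Fin n) :
    dz j (fun y => dzb k (fun y => ex ψ y * v y) y) z -
      dz j (fun y => ex ψ y * v y) z * dzb k (fun y => (ψ y : ℂ)) z -
      dz j (fun y => (ψ y : ℂ)) z * dzb k (fun y => ex ψ y * v y) z =
    ex ψ z * (dz j (dzb k v) z -
      dz j (fun y => (ψ y : ℂ)) z * dzb k (fun y => (ψ y : ℂ)) z * v z) := by
  have hE := ex_smooth hψ
  have hψc : ContDiffAt ℝ ∞ (fun y => (ψ y : ℂ)) z := contDiffAt_ofReal hψ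
  have dE : DifferentiableAt ℝ (ex ψ) z := hE.differentiableAt (by simp)
  have dv : DifferentiableAt ℝ v z := hv.differentiableAt (by simp)
  have dψ : DifferentiableAt ℝ ψ z := hψ.differentiableAt (by simp)
  have hψb : ContDiffAt ℝ ∞ (dzb k fun y => (ψ y : ℂ)) z := contDiffAt_dzb (m := ∞) k hψc (by simp)
  have hvb : ContDiffAt ℝ ∞ (dzb k v) z := contDiffAt_dzb (m := ∞) k hv (by simp)
  have dψb : DifferentiableAt ℝ (dzb k fun y => (ψ y : ℂ)) z := hψb.differentiableAt (by simp)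
  have dvb : DifferentiableAt ℝ (dzb k v) z := hvb.differentiableAt (by simp)
  have e1 : (fun y => dzb k (fun y => ex ψ y * v y) y) =ᶠ[𝓝 z]
      fun y => ex ψ y * (dzb k (fun y => (ψ y : ℂ)) y * v y + dzb k v y) := by
    filter_upwards [ev_diff hψ, ev_diff hv] with y hy hy2
    rw [C2.dzb_mul k (ex_diff hy) hy2, dzb_ex hy]
    ring
  have e2 : dz j (fun y => ex ψ y * (dzb k (fun y => (ψ y : ℂ)) y * v y + dzb k v y)) z =
      dz j (ex ψ) z * (dzb k (fun y => (ψ y : ℂ)) z * v z + dzb k v z) +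
      ex ψ z * (dz j (dzb k fun y => (ψ y : ℂ)) z * v z +
        dzb k (fun y => (ψ y : ℂ)) z * dz j v z + dz j (dzb k v) z) := by
    have hd1 : DifferentiableAt ℝ (fun y => dzb k (fun y => (ψ y : ℂ)) y * v y) z := dψb.mul dv
    have hd2 : DifferentiableAt ℝ
        (fun y => dzb k (fun y => (ψ y : ℂ)) y * v y + dzb k v y) z := hd1.add dvb
    rw [C2.dz_mul j dE hd2, C2.dz_add j hd1 dvb, C2.dz_mul j dψb dv]
  have h1 : dz j (dzb k fun y => (ψ y : ℂ)) z = 0 := by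
    have := congrFun (congrFun h0 j) k
    exact this
  rw [C2.dz_congr j e1, e2, C2.dz_mul j dE dv, C2.dzb_mul k dE dv, dz_ex dψ, dzb_ex dψ, h1]
  ring

theorem trace_real (hw : (w z).PosDef) {H : Matrix (Fin n) (Fin n) ℂ} (hH : H.IsHermitian) :
    ((((w z)⁻¹ * H).trace.re : ℝ) : ℂ) = ((w z)⁻¹ * H).trace := by
  have h1 : conj (((w z)⁻¹ * H).trace) = ((w z)⁻¹ * H).trace := by
    have h2 : (((w z)⁻¹ * H).conjTranspose).trace = conj (((w z)⁻¹ * H).trace) := by
      rw [Matrix.trace_conjTranspose]; rfl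
    rw [← h2, Matrix.conjTranspose_mul, hH.eq, hw.inv.isHermitian.eq, Matrix.trace_mul_comm]
  exact Complex.conj_eq_iff_re.1 h1

theorem cHess_herm {f : Cm n → ℝ} (hf : ContDiffAt ℝ ∞ f z) : (cHess f z).IsHermitian := by
  ext j k
  rw [Matrix.conjTranspose_apply, C2.cHess_apply, C2.cHess_apply]
  have hfc : ContDiffAt ℝ ∞ (fun y => (f y : ℂ)) z := contDiffAt_ofReal hf
  have h1 : ∀ i, (dz i fun y => (f y : ℂ)) =ᶠ[𝓝 z] fun y => conj (dzb i (fun y => (f y : ℂ)) y) := by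
    intro i
    filter_upwards [ev_diff hfc] with y hy
    have h2 := C2.dz_conj i hy
    simp only [Complex.conj_ofReal] at h2
    exact h2
  have h2 : conj (dz k (dzb j fun y => (f y : ℂ)) z) =
      dzb k (fun y => conj (dzb j (fun y => (f y : ℂ)) y)) z := by
    have hb : ContDiffAt ℝ ∞ (dzb j fun y => (f y : ℂ)) z := contDiffAt_dzb (m := ∞) j hfc (by simp)
    rw [C2.dzb_conj k (hb.differentiableAt (by simp))]
  show conj (dz k (dzb j fun y => (f y : ℂ)) z) = _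
  rw [h2, C2.dz_dzb_comm j k (hfc.of_le (WithTop.coe_le_coe.2 (by simp)))]
  exact (C2.dzb_congr k (h1 j)).symm

theorem sum_trace (w : Cm n → Matrix (Fin n) (Fin n) ℂ) (H : Matrix (Fin n) (Fin n) ℂ) :
    ∑ j, ∑ k, (w z)⁻¹ k j * H j k = ((w z)⁻¹ * H).trace := by
  rw [Matrix.trace, Finset.sum_comm]
  simp only [Matrix.diag_apply, Matrix.mul_apply]

theorem lapC_eq (hw : (w z).PosDef) (hv : ContDiffAt ℝ ∞ v z) :
    lapC w v z = ∑ j, ∑ k, (w z)⁻¹ k j * dz j (dzb k v) z := by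
  have hr := re_smooth hv
  have hi := im_smooth hv
  unfold lapC lap
  rw [trace_real hw (cHess_herm hr), trace_real hw (cHess_herm hi), ← sum_trace, ← sum_trace,
    Finset.mul_sum, ← Finset.sum_add_distrib]
  refine Finset.sum_congr rfl fun j _ => ?_
  rw [Finset.mul_sum, ← Finset.sum_add_distrib]
  refine Finset.sum_congr rfl fun k _ => ?_
  rw [C2.cHess_apply, C2.cHess_apply]
  have e : dzb k v =ᶠ[𝓝 z] fun y => dzb k (fun y => ((v y).re : ℂ)) y +
      Complex.I * dzb k (fun y => ((v y).im : ℂ)) y := by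
    filter_upwards [ev_diff hv] with y hy
    have h1 : v = fun y => ((v y).re : ℂ) + Complex.I * ((v y).im : ℂ) := by
      funext x
      rw [mul_comm]
      exact (Complex.re_add_im _).symm
    have hr' : DifferentiableAt ℝ (fun x => ((v x).re : ℂ)) y :=
      Complex.ofRealCLM.differentiableAt.comp y (Complex.reCLM.differentiableAt.comp y hy)
    have hi' : DifferentiableAt ℝ (fun x => ((v x).im : ℂ)) y :=
      Complex.ofRealCLM.differentiableAt.comp y (Complex.imCLM.differentiableAt.comp y hy)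
    conv_lhs => rw [h1]
    rw [C2.dzb_add k hr' (hi'.const_mul _), C2.dzb_const_mul k _ hi']
  have hrb : ContDiffAt ℝ ∞ (dzb k fun y => ((v y).re : ℂ)) z :=
    contDiffAt_dzb (m := ∞) k (contDiffAt_ofReal hr) (by simp)
  have hib : ContDiffAt ℝ ∞ (dzb k fun y => ((v y).im : ℂ)) z :=
    contDiffAt_dzb (m := ∞) k (contDiffAt_ofReal hi) (by simp)
  rw [C2.dz_congr j e, C2.dz_add j (hrb.differentiableAt (by simp))
    ((hib.differentiableAt (by simp)).const_mul _),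
    C2.dz_const_mul j _ (hib.differentiableAt (by simp))]
  ring

theorem gr_self_eq (hw : (w z).PosDef) (hψ : ContDiffAt ℝ ∞ ψ z) :
    ((gr w ψ ψ z : ℝ) : ℂ) = ∑ j, ∑ k, (w z)⁻¹ k j *
      (dz j (fun y => (ψ y : ℂ)) z * dzb k (fun y => (ψ y : ℂ)) z) := by
  have hψc : DifferentiableAt ℝ (fun y => (ψ y : ℂ)) z :=
    (contDiffAt_ofReal hψ).differentiableAt (by simp)
  have hb : ∀ k, dzb k (fun y => (ψ y : ℂ)) z = conj (dz k (fun y => (ψ y : ℂ)) z) := by
    intro k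
    rw [← C2.dzb_conj k hψc]
    simp only [Complex.conj_ofReal]
  have hH : (Matrix.of fun j k => dz j (fun y => (ψ y : ℂ)) z *
      dzb k (fun y => (ψ y : ℂ)) z).IsHermitian := by
    ext j k
    rw [Matrix.conjTranspose_apply, Matrix.of_apply, Matrix.of_apply, hb, hb]
    simp [mul_comm]
  have h1 := trace_real hw hH
  rw [← sum_trace] at h1
  simp only [Matrix.of_apply] at h1
  rw [← h1]
  unfold gr
  congr 2
  refine Finset.sum_congr rfl fun j _ => Finset.sum_congr rfl fun k _ => ?_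
  ring

/-- **conjugation** -/
theorem tau_conj (hw : (w z).PosDef) (hψ : ContDiffAt ℝ ∞ ψ z) (h0 : cHess ψ z = 0)
    (hv : ContDiffAt ℝ ∞ v z) :
    H409.A.tau w ψ (fun y => ((Real.exp (ψ y) : ℝ) : ℂ) * v y) z =
      ((Real.exp (ψ z) : ℝ) : ℂ) * (H409.A.lapC w v z - ((gr w ψ ψ z : ℝ) : ℂ) * v z) := by
  have h1 : H409.A.lapC w v z = lapC w v z := rfl
  rw [h1, lapC_eq hw hv, gr_self_eq hw hψ, Finset.sum_mul, ← Finset.sum_sub_distrib,
    Finset.mul_sum]
  unfold H409.A.tau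
  refine Finset.sum_congr rfl fun j _ => ?_
  rw [Finset.sum_mul, ← Finset.sum_sub_distrib, Finset.mul_sum]
  refine Finset.sum_congr rfl fun k _ => ?_
  have h2 := tau_bracket hψ h0 hv j k
  show (w z)⁻¹ k j * (dz j (fun y => dzb k (fun y => ex ψ y * v y) y) z -
      dz j (fun y => ex ψ y * v y) z * dzb k (fun y => (ψ y : ℂ)) z -
      dz j (fun y => (ψ y : ℂ)) z * dzb k (fun y => ex ψ y * v y) z) = ex ψ z * _
  rw [h2]
  ring

end Vale.Agent.P284.H730.A
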