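import Vale.Agent.P284.H359.V6
import Vale.Agent.P284.H446.V7L

/-!
# P284, theorem A, block A4, part 1: the local Friedrichs inequality with a potential
-/

set_option linter.all false

open scoped Manifold ContDiff Topology Pointwise ComplexConjugate ComplexOrder
open Filter Set Metric MeasureTheory

noncomputable section

namespace Vale.Agent.P284.H730.A

section v6
open Vale.Agent.P272.K Vale.Agent.P272.K.C2 Vale.Agent.P284.H894.V Vale.Agent.P284.H359.Fr
  Vale.Agent.P284.H359.V

/-- V6 with a potential `q` -/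
theorem v6q (n : ℕ) (c : Cm n) (R R' : ℝ) (hR : 0 < R) (hRR' : R < R')
    (w : Cm n → Matrix (Fin n) (Fin n) ℂ) (hw : KU (ball c R') w) (q : Cm n → ℝ)
    (hq : ∀ z ∈ ball c R', ContDiffAt ℝ ∞ q z) (g : Cm n → ℝ)
    (hg : MemLp g 2 (volume.restrict (ball c R)))
    (heq : ∀ F, TU (ball c R) F →
      ∫ z in ball c R, g z * (q z * F z - lap w F z) * vol w z = 0) (ζ : Cm n → ℝ)
    (hζ : TU (ball c R) ζ) :
    ∫ z in ball c R, q z * ζ z ^ 2 * g z ^ 2 * vol w z ≤
      ∫ z in ball c R, gr w ζ ζ z * g z ^ 2 * vol w z := by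
  have hsub : ball c R ⊆ ball c R' := ball_subset_ball hRR'.le
  have hwR : KU (ball c R) w := ⟨isOpen_ball, fun z hz => hw.smooth z (hsub hz),
    fun z hz => hw.pos z (hsub hz), fun z hz => hw.closed z (hsub hz)⟩
  -- the cut-off
  obtain ⟨χ, hχR⟩ : ∃ χ : ContDiffBump c, χ.rIn = R ∧ χ.rOut = (R + R') / 2 :=
    ⟨⟨R, (R + R') / 2, hR, by linarith⟩, rfl, rfl⟩
  have hχ1 : ∀ z ∈ ball c R, χ z = 1 := fun z hz => χ.one_of_mem_closedBall (by
    rw [hχR.1]; exact ball_subset_closedBall hz)
  have hχs : tsupport χ ⊆ ball c R' := by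
    rw [χ.tsupport_eq, hχR.2]
    exact closedBall_subset_ball (by linarith)
  have hcut : ∀ F : Cm n → ℝ, (∀ z ∈ ball c R', ContDiffAt ℝ ∞ F z) →
      Test (fun z => χ z * F z) := by
    intro F hF
    refine ⟨contDiff_iff_contDiffAt.2 fun z => ?_, χ.hasCompactSupport.mul_right⟩
    by_cases hz : z ∈ tsupport χ
    · exact χ.contDiffAt.mul (hF z (hχs hz))
    · have h1 : (fun z => χ z * F z) =ᶠ[𝓝 z] fun _ => (0 : ℝ) := by
        have h2 : (χ : Cm n → ℝ) =ᶠ[𝓝 z] 0 := notMem_tsupport_iff_eventuallyEq.1 hz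
        filter_upwards [h2] with y hy
        rw [hy]
        simp
      exact contDiffAt_const.congr_of_eventuallyEq h1
  obtain ⟨A, hA⟩ : ∃ A : Cm n → Fin n × Bool → Fin n × Bool → ℝ,
      ∀ x a b, A x a b = χ x * A0 w x a b := ⟨_, fun _ _ _ => rfl⟩
  have hAT : ∀ a b, Test (fun x => A x a b) := by
    intro a b
    have h1 := hcut _ (fun z hz => A0_smooth hw hz a b)
    have h2 : (fun x => A x a b) = fun x => χ x * A0 w x a b := by funext x; exact hA x a b
    rw [h2]
    exact h1
  have hAs : ∀ x a b, A x a b = A x b a := by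
    intro x a b
    rw [hA, hA]
    by_cases hx : x ∈ ball c R'
    · rw [A0_symm hw hx]
    · have h1 : χ x = 0 := image_eq_zero_of_notMem_tsupport fun h => hx (hχs h)
      rw [h1, zero_mul, zero_mul]
  have D := Dat.mk' (e := (ev : Fin n × Bool → Cm n)) norm_ev hAT hAs
  have hAR : ∀ x ∈ ball c R, ∀ a b, A x a b = A0 w x a b := by
    intro x hx a b
    rw [hA, hχ1 x hx, one_mul]
  have hb : ∀ x ∈ ball c R, ∀ j, (-∑ i, pd (ev i) (fun y => A y i j) x) = 0 := by
    intro x hx j
    have h1 : ∀ i, pd (ev i) (fun y => A y i j) x = pd (ev i) (fun y => A0 w y i j) x := by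
      intro i
      unfold pd
      have h2 : (fun y => A y i j) =ᶠ[𝓝 x] fun y => A0 w y i j := by
        filter_upwards [isOpen_ball.mem_nhds hx] with y hy
        exact hAR y hy i j
      rw [h2.fderiv_eq]
    simp only [h1]
    rw [piola_real hwR hx j, neg_zero]
  obtain ⟨m, hm, hlow⟩ := unif_ell hζ.compact.isCompact (A0 w)
    (fun i j z hz => (A0_smooth hwR (hζ.supp hz) i j).continuousAt.continuousWithinAt)
    (fun z hz v hv => A0_pos hwR (hζ.supp hz) v hv)
  have hlow' : ∀ x ∈ tsupport ζ, ∀ v : Fin n × Bool → ℝ,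
      m * ∑ i, v i ^ 2 ≤ ∑ i, ∑ j, A x i j * v i * v j := by
    intro x hx v
    have h1 := hlow x hx v
    simp only [hAR x (hζ.supp hx)]
    exact h1
  have hf : MemLp ((ball c R).indicator g) 2 (volume : Measure (Cm n)) :=
    (memLp_indicator_iff_restrict measurableSet_ball).2 hg
  have hfc : HasCompactSupport ((ball c R).indicator g) :=
    HasCompactSupport.intro (isCompact_closedBall c R) fun x hx =>
      Set.indicator_of_notMem (fun h => hx (ball_subset_closedBall h)) _
  have hr : Test (fun z => χ z * (q z * vol w z)) :=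
    hcut _ (fun z hz => (hq z hz).mul (vol_smooth hw hz))
  have heq' : ∀ F : Cm n → ℝ, Test F → tsupport F ⊆ ball c R →
      ∫ x, (ball c R).indicator g x * ((χ x * (q x * vol w x)) * F x
        - (∑ i, ∑ j, A x i j * pd (ev i) (pd (ev j) F) x)
        + ∑ j, (-∑ i, pd (ev i) (fun y => A y i j) x) * pd (ev j) F x) = 0 := by
    intro F hF hFs
    have h := heq F ⟨hF.1, hF.2, hFs⟩
    rw [← h, ← integral_indicator measurableSet_ball]
    refine integral_congr_ae (Eventually.of_forall fun x => ?_)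
    by_cases hx : x ∈ ball c R
    · simp only [Set.indicator_of_mem hx, hb x hx, zero_mul, Finset.sum_const_zero, add_zero,
        hχ1 x hx, one_mul, hAR x hx]
      rw [← lap_eq hwR hx hF.1]
      ring
    · simp only [Set.indicator_of_notMem hx, zero_mul]
  have key := local_ineq D hr.1.continuous hr.2 hm (ζ := ζ) ⟨hζ.smooth, hζ.compact⟩ hlow' hf hfc
    isOpen_ball hζ.supp heq'
  have e1 : ∫ x, ((ball c R).indicator g x * (χ x * (q x * vol w x))) *
      (ζ x ^ 2 * (ball c R).indicator g x) =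
      ∫ z in ball c R, q z * ζ z ^ 2 * g z ^ 2 * vol w z := by
    rw [← integral_indicator measurableSet_ball]
    refine integral_congr_ae (Eventually.of_forall fun x => ?_)
    by_cases hx : x ∈ ball c R
    · simp only [Set.indicator_of_mem hx, hχ1 x hx]
      ring
    · simp only [Set.indicator_of_notMem hx]
      ring
  have e2 : ∫ x, ((∑ i, ∑ j, A x i j * pd (ev i) ζ x * pd (ev j) ζ x) *
      (ball c R).indicator g x) * (ball c R).indicator g x =
      ∫ z in ball c R, gr w ζ ζ z * g z ^ 2 * vol w z := by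
    rw [← integral_indicator measurableSet_ball]
    refine integral_congr_ae (Eventually.of_forall fun x => ?_)
    by_cases hx : x ∈ ball c R
    · have hd : DifferentiableAt ℝ ζ x := hζ.smooth.differentiable (by simp) x
      simp only [Set.indicator_of_mem hx, hAR x hx]
      rw [← gr_eq hwR hx hd hd]
      ring
    · simp only [Set.indicator_of_notMem hx, mul_zero]
  rw [e1, e2] at key
  exact key

end v6

section v7
open Vale.Agent.P272.K Vale.Agent.P272.K.C2 Vale.Agent.P284.H248 Vale.Agent.P284.H894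
  Vale.Agent.P284.H894.V Vale.Agent.P284.H639.V Vale.Agent.P284.H446.V

/-- V7L with a potential -/
theorem v7q (n : ℕ) (c : Cm n) (R R' : ℝ) (hR : 0 < R) (hRR : R < R')
    (w : Cm n → Matrix (Fin n) (Fin n) ℂ) (hw : KU (ball c R') w) (q : Cm n → ℝ)
    (hq : ∀ z ∈ ball c R', ContDiffAt ℝ ∞ q z)
    (h : ℕ → Cm n → ℝ) (hsm : ∀ j, ∀ z ∈ ball c R', ContDiffAt ℝ ∞ (h j) z)
    (hcau : ∀ ε : ℝ, 0 < ε → ∃ J, ∀ j ≥ J, ∀ k ≥ J,
      ∫ z in ball c R, (h j z - h k z) ^ 2 * vol w z < ε)
    (hweak : ∀ F, TU (ball c R) F →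
      Tendsto (fun j => ∫ z in ball c R, h j z * (q z * F z - lap w F z) * vol w z) atTop (𝓝 0))
    (ζ : Cm n → ℝ) (hζ : TU (ball c R) ζ) (ε : ℝ) (hε : 0 < ε) : ∀ᶠ j in atTop,
      ∫ z in ball c R, q z * ζ z ^ 2 * h j z ^ 2 * vol w z ≤
        (∫ z in ball c R, gr w ζ ζ z * h j z ^ 2 * vol w z) + ε := by
  set μ : Measure (Cm n) := volume.restrict (ball c R) with hμ
  have hfm : IsFiniteMeasure μ :=
    ⟨by rw [hμ, Measure.restrict_apply_univ]; exact measure_ball_lt_top⟩
  have hball : ∀ {p : Cm n → Prop}, (∀ z ∈ ball c R, p z) → ∀ᵐ z ∂μ, p z := by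
    intro p hp
    rw [hμ, ae_restrict_iff' measurableSet_ball]
    exact Eventually.of_forall hp
  have hvol : ContinuousOn (vol w) (ball c R') := fun z hz =>
    (smooth_vol hw hz).continuousAt.continuousWithinAt
  have hqc : ContinuousOn q (ball c R') := fun z hz => (hq z hz).continuousAt.continuousWithinAt
  have hcont : ∀ j, ContinuousOn (h j) (ball c R') := fun j z hz =>
    (hsm j z hz).continuousAt.continuousWithinAt
  -- lower bound of the volume
  obtain ⟨m, hm0, hm⟩ : ∃ m : ℝ, 0 < m ∧ ∀ z ∈ ball c R, m ≤ vol w z := by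
    obtain ⟨z₀, hz₀, hmin⟩ := (isCompact_closedBall c R).exists_isMinOn
      (nonempty_closedBall.2 hR.le) (hvol.mono (closedBall_subset_ball hRR))
    refine ⟨vol w z₀, ?_, fun z hz => hmin (ball_subset_closedBall hz)⟩
    have := (hw.pos z₀ (closedBall_subset_ball hRR hz₀)).det_pos
    exact (Complex.pos_iff.1 this).1
  have hmem : ∀ j, MemLp (h j) 2 μ := fun j => (memLp_of_cont hRR (hcont j)).2.2
  set x : ℕ → Lp ℝ 2 μ := fun j => (hmem j).toLp (h j) with hx
  have hxae : ∀ j, (x j : Cm n → ℝ) =ᵐ[μ] h j := fun j => (hmem j).coeFn_toLp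
  have hcs : CauchySeq x := by
    rw [Metric.cauchySeq_iff]
    intro η hη
    obtain ⟨J, hJ⟩ := hcau (m * η ^ 2) (by positivity)
    refine ⟨J, fun j hj k hk => ?_⟩
    have h1 := hJ j hj k hk
    have hd : ContinuousOn (fun z => (h j z - h k z) ^ 2) (ball c R') :=
      ((hcont j).sub (hcont k)).pow 2
    have hi1 : Integrable (fun z => m * (h j z - h k z) ^ 2) μ :=
      ((memLp_of_cont hRR hd).2.2.integrable (by norm_num)).const_mul m
    have hi2 : Integrable (fun z => (h j z - h k z) ^ 2 * vol w z) μ :=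
      (memLp_of_cont hRR (hd.mul hvol)).2.2.integrable (by norm_num)
    have h2 : ∫ z, m * (h j z - h k z) ^ 2 ∂μ ≤ ∫ z, (h j z - h k z) ^ 2 * vol w z ∂μ := by
      refine integral_mono_ae hi1 hi2 (hball fun z hz => ?_)
      show m * (h j z - h k z) ^ 2 ≤ (h j z - h k z) ^ 2 * vol w z
      rw [mul_comm]
      exact mul_le_mul_of_nonneg_left (hm z hz) (sq_nonneg _)
    rw [integral_const_mul] at h2
    have h3 : ‖x j - x k‖ ^ 2 = ∫ z, (h j z - h k z) ^ 2 ∂μ := by
      rw [hx]
      simp only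
      rw [← MemLp.toLp_sub, norm_sq_toLp]
      rfl
    have h4 : ‖x j - x k‖ ^ 2 < η ^ 2 := by
      rw [h3]
      have : m * ∫ z, (h j z - h k z) ^ 2 ∂μ < m * η ^ 2 := h2.trans_lt h1
      exact lt_of_mul_lt_mul_left this hm0.le
    rw [dist_eq_norm]
    exact lt_of_pow_lt_pow_left₀ 2 hη.le h4
  obtain ⟨g, hg⟩ := cauchySeq_tendsto_of_complete hcs
  have hlin : ∀ F : Cm n → ℝ, ContinuousOn F (ball c R') →
      Tendsto (fun j => ∫ z, h j z * F z ∂μ) atTop (𝓝 (∫ z, g z * F z ∂μ)) := by
    intro F hF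
    refine (tendsto_lin hg (memLp_of_cont hRR hF).2.2).congr fun j => ?_
    refine integral_congr_ae ?_
    filter_upwards [hxae j] with z hz
    rw [hz]
  have hquad : ∀ F : Cm n → ℝ, ContinuousOn F (ball c R') →
      Tendsto (fun j => ∫ z, F z * h j z ^ 2 ∂μ) atTop (𝓝 (∫ z, F z * g z ^ 2 ∂μ)) := by
    intro F hF
    obtain ⟨⟨B, hB⟩, h2, -⟩ := memLp_of_cont hRR hF
    refine (tendsto_quad hg h2 (hball hB)).congr fun j => ?_
    refine integral_congr_ae ?_
    filter_upwards [hxae j] with z hz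
    rw [hz]
  have key := v6q n c R R' hR hRR w hw q hq g (Lp.memLp g) (fun F hF => ?_) ζ hζ
  · have c1 : ContinuousOn (fun z => q z * ζ z ^ 2 * vol w z) (ball c R') :=
      (hqc.mul (hζ.smooth.continuous.continuousOn.pow 2)).mul hvol
    have c2 : ContinuousOn (fun z => gr w ζ ζ z * vol w z) (ball c R') :=
      ContinuousOn.mul (fun z hz => (smooth_gr hw hz hζ.smooth.contDiffAt
        hζ.smooth.contDiffAt).continuousAt.continuousWithinAt) hvol
    have e1 : ∀ k : Cm n → ℝ, ∫ z in ball c R, q z * ζ z ^ 2 * k z ^ 2 * vol w z =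
        ∫ z, (q z * ζ z ^ 2 * vol w z) * k z ^ 2 ∂μ := fun k => by
      refine integral_congr_ae (Eventually.of_forall fun z => ?_)
      simp only
      ring
    have e2 : ∀ k : Cm n → ℝ, ∫ z in ball c R, gr w ζ ζ z * k z ^ 2 * vol w z =
        ∫ z, (gr w ζ ζ z * vol w z) * k z ^ 2 ∂μ := fun k => by
      refine integral_congr_ae (Eventually.of_forall fun z => ?_)
      simp only
      ring
    rw [e1, e2] at key
    have t1 := hquad _ c1
    have t2 := (hquad _ c2).add_const ε
    have hlt : ∫ z, (q z * ζ z ^ 2 * vol w z) * g z ^ 2 ∂μ <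
        (∫ z, (gr w ζ ζ z * vol w z) * g z ^ 2 ∂μ) + ε := by linarith
    filter_upwards [t1.eventually_lt t2 hlt] with j hj
    rw [e1, e2]
    exact hj.le
  · have cF : ContinuousOn (fun z => (q z * F z - lap w F z) * vol w z) (ball c R') := by
      refine ContinuousOn.mul ?_ hvol
      refine (hqc.mul hF.smooth.continuous.continuousOn).sub fun z hz => ?_
      exact (smooth_lap hw hz hF.smooth.contDiffAt).continuousAt.continuousWithinAt
    have t1 := hlin _ cF
    have e : ∀ k : Cm n → ℝ, ∫ z in ball c R, k z * (q z * F z - lap w F z) * vol w z =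
        ∫ z, k z * ((q z * F z - lap w F z) * vol w z) ∂μ := fun k => by
      refine integral_congr_ae (Eventually.of_forall fun z => ?_)
      simp only
      ring
    have t2 : Tendsto (fun j => ∫ z, h j z * ((q z * F z - lap w F z) * vol w z) ∂μ) atTop (𝓝 0) :=
      (hweak F hF).congr fun j => e (h j)
    rw [e]
    exact tendsto_nhds_unique t1 t2

end v7

end Vale.Agent.P284.H730.A
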