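import Vale.Agent.P284.H730.Dn1
import Vale.Agent.P284.H66.GDiv
import Vale.Agent.P284.H66.V4

/-!
# P284, theorem A, block A4, part 2: twisted sections on the compact base
-/

set_option linter.all false

open scoped Manifold ContDiff Topology Pointwise ComplexConjugate ComplexOrder
open Filter Set Metric MeasureTheory

noncomputable section

namespace Vale.Agent.P284.H730.A

open Vale.Agent.P272.K Vale.Agent.P272.K.C2 Vale.Agent.P284.H248 Vale.Agent.P284.H894
  Vale.Agent.P284.H894.V Vale.Agent.P284.H639.V Vale.Agent.P284.H913.V Vale.Agent.P284.H66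
  Vale.Agent.P284.H66.S7

section loc
variable {n : ℕ} {w : Cm n → Matrix (Fin n) (Fin n) ℂ} {s t : Cm n → ℂ} {z : Cm n}

/-- the Laplacian of a complex-valued function -/
def lapC (w : Cm n → Matrix (Fin n) (Fin n) ℂ) (s : Cm n → ℂ) (z : Cm n) : ℂ :=
  (lap w (fun y => (s y).re) z : ℂ) + Complex.I * (lap w (fun y => (s y).im) z : ℂ)

theorem im_smooth {F : Cm n → ℂ} (hF : ContDiffAt ℝ ∞ F z) :
    ContDiffAt ℝ ∞ (fun y => (F y).im) z :=
  Complex.imCLM.contDiff.contDiffAt.comp z hF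

theorem c2 {f : Cm n → ℝ} (hf : ContDiffAt ℝ ∞ f z) : ContDiffAt ℝ 2 f z :=
  hf.of_le (WithTop.coe_le_coe.2 (by simp))

theorem lapC_add (hs : ContDiffAt ℝ ∞ s z) (ht : ContDiffAt ℝ ∞ t z) :
    lapC w (fun y => s y + t y) z = lapC w s z + lapC w t z := by
  unfold lapC
  have e1 : (fun y => (s y + t y).re) = fun y => (s y).re + (t y).re := by
    funext y; exact Complex.add_re _ _
  have e2 : (fun y => (s y + t y).im) = fun y => (s y).im + (t y).im := by
    funext y; exact Complex.add_im _ _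
  rw [e1, e2, Asm.lap_add (c2 (re_smooth hs)) (c2 (re_smooth ht)),
    Asm.lap_add (c2 (im_smooth hs)) (c2 (im_smooth ht))]
  push_cast
  ring

theorem lapC_smul (c : ℂ) (hs : ContDiffAt ℝ ∞ s z) :
    lapC w (fun y => c * s y) z = c * lapC w s z := by
  unfold lapC
  have hr := re_smooth hs
  have hi := im_smooth hs
  have e1 : (fun y => (c * s y).re) = fun y => c.re * (s y).re + (-c.im) * (s y).im := by
    funext y; rw [Complex.mul_re]; ring
  have e2 : (fun y => (c * s y).im) = fun y => c.re * (s y).im + c.im * (s y).re := by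
    funext y; rw [Complex.mul_im]
  rw [e1, e2, Asm.lap_add (c2 (contDiffAt_const.mul hr)) (c2 (contDiffAt_const.mul hi)),
    Asm.lap_add (c2 (contDiffAt_const.mul hi)) (c2 (contDiffAt_const.mul hr)),
    Asm.lap_smul _ (c2 hr), Asm.lap_smul _ (c2 hi), Asm.lap_smul _ (c2 hr), Asm.lap_smul _ (c2 hi)]
  push_cast
  have hc : c = c.re + Complex.I * c.im := by
    rw [mul_comm]; exact (Complex.re_add_im c).symm
  conv_rhs => rw [hc]
  linear_combination (-(c.im : ℂ) * (lap w (fun y => (s y).im) z : ℂ)) * Complex.I_mul_I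

theorem lapC_congr (e : s =ᶠ[𝓝 z] t) : lapC w s z = lapC w t z := by
  unfold lapC
  have e1 : (fun y => (s y).re) =ᶠ[𝓝 z] fun y => (t y).re := by
    filter_upwards [e] with y hy; rw [hy]
  have e2 : (fun y => (s y).im) =ᶠ[𝓝 z] fun y => (t y).im := by
    filter_upwards [e] with y hy; rw [hy]
  rw [lap_congr e1, lap_congr e2]

theorem lapC_ofReal (F : Cm n → ℝ) : lapC w (fun y => (F y : ℂ)) z = lap w F z := by
  unfold lapC
  have e1 : (fun y => ((F y : ℂ)).re) = F := by funext y; exact Complex.ofReal_re _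
  have e2 : (fun y => ((F y : ℂ)).im) = fun _ => (0 : ℝ) := by
    funext y; exact Complex.ofReal_im _
  rw [e1, e2, lap_zero]
  simp

theorem lapC_zero : lapC w (fun _ => (0 : ℂ)) z = 0 := by
  have := lapC_ofReal (w := w) (z := z) (fun _ => (0 : ℝ))
  simp only [Complex.ofReal_zero] at this
  rw [this, lap_zero, Complex.ofReal_zero]

theorem smooth_lapC {U : Set (Cm n)} (hw : KU U w) (hz : z ∈ U) (hs : ContDiffAt ℝ ∞ s z) :
    ContDiffAt ℝ ∞ (lapC w s) z :=
  (contDiffAt_ofReal (smooth_lap hw hz (re_smooth hs))).add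
    (contDiffAt_const.mul (contDiffAt_ofReal (smooth_lap hw hz (im_smooth hs))))

end loc

section glob
variable {n : ℕ} {Γ : Type} [Group Γ] {C : Coc n Γ}

/-- invariance of the Laplacian -/
theorem lap_trans (K : KM C) {f f' : Cm n → ℝ} {a b : C.I} {z : Cm n} (hz : z ∈ C.O a b)
    (hf' : ContDiffAt ℝ ∞ f' (C.T a b z)) (e : ∀ᶠ y in 𝓝 z, f y = f' (C.T a b y)) :
    lap (K.w a) f z = lap (K.w b) f' (C.T a b z) ∧
      gr (K.w a) f f z = gr (K.w b) f' f' (C.T a b z) := by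
  obtain ⟨h1, h2, h3, -⟩ := H730.V.vpStmt.trans (K.w a) (K.w b) f f f' f' (C.T a b) z
    (T_ev C hz) ((K.ku a).pos z (O_sub_Ω C hz)) ((K.ku b).pos _ (T_mem_Ω C hz))
    (K.change a b z hz) hf' hf' e e
  exact ⟨h1, h2⟩

theorem lapC_trans (K : KM C) {f f' : Cm n → ℂ} {a b : C.I} {z : Cm n} (hz : z ∈ C.O a b)
    (hf' : ContDiffAt ℝ ∞ f' (C.T a b z)) (e : ∀ᶠ y in 𝓝 z, f y = f' (C.T a b y)) :
    lapC (K.w a) f z = lapC (K.w b) f' (C.T a b z) := by
  unfold lapC
  rw [(lap_trans K hz (re_smooth hf') (by filter_upwards [e] with y hy; rw [hy])).1,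
    (lap_trans K hz (im_smooth hf') (by filter_upwards [e] with y hy; rw [hy])).1]

/-- smooth sections of the flat bundle of the character `σ` -/
structure UT (C : Coc n Γ) (σ : Γ →* ℂ) (s : Γ → C.I → Cm n → ℂ) : Prop where
  smooth : ∀ γ a, ∀ z ∈ C.Ω a, ContDiffAt ℝ ∞ (s γ a) z
  compat : ∀ γ a b, ∀ z ∈ C.O a b, s γ a z = s (γ * C.κ a b z) b (C.T a b z)
  equiv : ∀ g γ a, ∀ z ∈ C.Ω a, s (g * γ) a z = σ g * s γ a z

/-- potential on the base -/
structure Pot (C : Coc n Γ) (q : C.I → Cm n → ℝ) : Prop where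
  smooth : ∀ a, ∀ z ∈ C.Ω a, ContDiffAt ℝ ∞ (q a) z
  compat : ∀ a b, ∀ z ∈ C.O a b, q a z = q b (C.T a b z)

variable {σ : Γ →* ℂ}

/-- the space of sections -/
def utM (C : Coc n Γ) (σ : Γ →* ℂ) : Submodule ℝ (Γ → C.I → Cm n → ℂ) where
  carrier := {s | UT C σ s}
  add_mem' := by
    intro f g hf hg
    refine ⟨fun γ a z hz => (hf.smooth γ a z hz).add (hg.smooth γ a z hz),
      fun γ a b z hz => ?_, fun h γ a z hz => ?_⟩
    · show f γ a z + g γ a z = _
      rw [hf.compat γ a b z hz, hg.compat γ a b z hz]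
      rfl
    · show f _ a z + g _ a z = σ h * (f γ a z + g γ a z)
      rw [hf.equiv h γ a z hz, hg.equiv h γ a z hz, mul_add]
  zero_mem' := by
    refine ⟨fun γ a z _ => contDiffAt_const, fun _ _ _ _ _ => rfl, fun h γ a z _ => ?_⟩
    show (0 : ℂ) = σ h * 0
    rw [mul_zero]
  smul_mem' := by
    intro c f hf
    refine ⟨fun γ a z hz => (hf.smooth γ a z hz).const_smul c,
      fun γ a b z hz => ?_, fun h γ a z hz => ?_⟩
    · show c • f γ a z = _
      rw [hf.compat γ a b z hz]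
      rfl
    · show c • f _ a z = σ h * (c • f γ a z)
      rw [hf.equiv h γ a z hz, mul_smul_comm]

theorem UT.ev {s : Γ → C.I → Cm n → ℂ} (hs : UT C σ s) (γ : Γ) {a b : C.I} {z : Cm n}
    (hz : z ∈ C.O a b) : ∀ᶠ y in 𝓝 z, s γ a y = s (γ * C.κ a b z) b (C.T a b y) := by
  filter_upwards [(C.O_open a b).mem_nhds hz, C.κ_loc a b z hz] with y hy hk
  rw [hs.compat γ a b y hy, hk]

/-- relation of the values in the pieces with `γ = 1` -/
theorem UT.one {s : Γ → C.I → Cm n → ℂ} (hs : UT C σ s) {a b : C.I} {z : Cm n}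
    (hz : z ∈ C.O a b) : s 1 a z = σ (C.κ a b z) * s 1 b (C.T a b z) := by
  have h1 := hs.equiv (C.κ a b z) 1 b (C.T a b z) (T_mem_Ω C hz)
  rw [hs.compat 1 a b z hz, one_mul, ← h1, mul_one]

/-- the operator `q - Δ` -/
def opT (K : KM C) (q : C.I → Cm n → ℝ) (s : Γ → C.I → Cm n → ℂ) (γ : Γ) (a : C.I) :
    Cm n → ℂ :=
  (C.Ω a).indicator fun z => (q a z : ℂ) * s γ a z - lapC (K.w a) (s γ a) z

theorem opT_mem (K : KM C) (q : C.I → Cm n → ℝ) (s : Γ → C.I → Cm n → ℂ) (γ : Γ) {a : C.I}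
    {z : Cm n} (hz : z ∈ C.Ω a) :
    opT K q s γ a z = (q a z : ℂ) * s γ a z - lapC (K.w a) (s γ a) z := indicator_of_mem hz _

theorem opT_ut (K : KM C) {q : C.I → Cm n → ℝ} (hq : Pot C q) {s : Γ → C.I → Cm n → ℂ}
    (hs : UT C σ s) : UT C σ (opT K q s) where
  smooth γ a z hz := by
    have h1 : ContDiffAt ℝ ∞ (fun z => (q a z : ℂ) * s γ a z - lapC (K.w a) (s γ a) z) z :=
      ((contDiffAt_ofReal (hq.smooth a z hz)).mul (hs.smooth γ a z hz)).sub
        (smooth_lapC (K.ku a) hz (hs.smooth γ a z hz))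
    refine h1.congr_of_eventuallyEq ?_
    filter_upwards [(isOpen_Ω C a).mem_nhds hz] with y hy using opT_mem K q s γ hy
  compat γ a b z hz := by
    rw [opT_mem K q s _ (O_sub_Ω C hz), opT_mem K q s _ (T_mem_Ω C hz), hq.compat a b z hz,
      hs.compat γ a b z hz, lapC_trans K hz (hs.smooth _ b _ (T_mem_Ω C hz)) (hs.ev γ hz)]
  equiv g γ a z hz := by
    rw [opT_mem K q s _ hz, opT_mem K q s _ hz, hs.equiv g γ a z hz]
    have e : s (g * γ) a =ᶠ[𝓝 z] fun y => σ g * s γ a y := by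
      filter_upwards [(isOpen_Ω C a).mem_nhds hz] with y hy using hs.equiv g γ a y hy
    rw [lapC_congr e, lapC_smul _ (hs.smooth γ a z hz)]
    ring

/-- the operator as a linear map -/
def opL (K : KM C) {q : C.I → Cm n → ℝ} (hq : Pot C q) : utM C σ →ₗ[ℝ] utM C σ where
  toFun s := ⟨opT K q s, opT_ut K hq s.2⟩
  map_add' f g := by
    refine Subtype.ext ?_
    funext γ a z
    show opT K q _ γ a z = opT K q _ γ a z + opT K q _ γ a z
    by_cases hz : z ∈ C.Ω a
    · rw [opT_mem K q _ γ hz, opT_mem K q _ γ hz, opT_mem K q _ γ hz]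
      have h1 := lapC_add (w := K.w a) (f.2.smooth γ a z hz) (g.2.smooth γ a z hz)
      have h2 : ((f + g : utM C σ) : Γ → C.I → Cm n → ℂ) γ a = fun y =>
        (f : Γ → C.I → Cm n → ℂ) γ a y + (g : Γ → C.I → Cm n → ℂ) γ a y := rfl
      rw [h2, h1]
      ring
    · simp only [opT, indicator_of_notMem hz, add_zero]
  map_smul' c f := by
    refine Subtype.ext ?_
    funext γ a z
    show opT K q _ γ a z = c • opT K q _ γ a z
    by_cases hz : z ∈ C.Ω a
    · rw [opT_mem K q _ γ hz, opT_mem K q _ γ hz]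
      have h1 := lapC_smul (w := K.w a) (c : ℂ) (f.2.smooth γ a z hz)
      have h2 : ((c • f : utM C σ) : Γ → C.I → Cm n → ℂ) γ a = fun y =>
        (c : ℂ) * (f : Γ → C.I → Cm n → ℂ) γ a y := rfl
      rw [h2, h1, Complex.real_smul]
      ring
    · simp only [opT, indicator_of_notMem hz, smul_zero]

theorem opL_apply (K : KM C) {q : C.I → Cm n → ℝ} (hq : Pot C q) (s : utM C σ) (γ : Γ) {a : C.I}
    {z : Cm n} (hz : z ∈ C.Ω a) : (opL K hq s : Γ → C.I → Cm n → ℂ) γ a z =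
      (q a z : ℂ) * (s : Γ → C.I → Cm n → ℂ) γ a z -
        lapC (K.w a) ((s : Γ → C.I → Cm n → ℂ) γ a) z := opT_mem K q _ γ hz

/-- `Re (f conj h)` is a function on the base -/
theorem BD_re (hσ : ∀ g, ‖σ g‖ = 1) {f h : Γ → C.I → Cm n → ℂ} (hf : UT C σ f) (hh : UT C σ h) :
    BD C (fun a z => (f 1 a z * conj (h 1 a z)).re) where
  cont a z hz := by
    refine ContinuousAt.continuousWithinAt ?_
    exact (re_smooth ((hf.smooth 1 a z hz).mul
      (Complex.conjCLE.contDiff.contDiffAt.comp z (hh.smooth 1 a z hz)))).continuousAt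
  compat a b z hz _ _ := by
    rw [hf.one hz, hh.one hz, map_mul]
    have h1 : σ (C.κ a b z) * f 1 b (C.T a b z) *
        (conj (σ (C.κ a b z)) * conj (h 1 b (C.T a b z))) =
        (σ (C.κ a b z) * conj (σ (C.κ a b z))) * (f 1 b (C.T a b z) *
          conj (h 1 b (C.T a b z))) := by ring
    rw [h1, Complex.mul_conj, Complex.normSq_eq_norm_sq, hσ, one_pow, Complex.ofReal_one, one_mul]

theorem BD_sq (hσ : ∀ g, ‖σ g‖ = 1) {f : Γ → C.I → Cm n → ℂ} (hf : UT C σ f) :
    BD C (fun a z => ‖f 1 a z‖ ^ 2) := by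
  have h1 := BD_re hσ hf hf
  have h2 : (fun (a : C.I) (z : Cm n) => (f 1 a z * conj (f 1 a z)).re) =
      fun a z => ‖f 1 a z‖ ^ 2 := by
    funext a z
    rw [Complex.mul_conj, Complex.ofReal_re, Complex.normSq_eq_norm_sq]
  rw [← h2]
  exact h1

theorem BD_mul {F G : C.I → Cm n → ℝ} (hF : BD C F) (hG : BD C G) :
    BD C (fun a z => F a z * G a z) where
  cont a := (hF.cont a).mul (hG.cont a)
  compat a b z hz h1 h2 := by rw [hF.compat a b z hz h1 h2, hG.compat a b z hz h1 h2]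

theorem BD_add {F G : C.I → Cm n → ℝ} (hF : BD C F) (hG : BD C G) :
    BD C (fun a z => F a z + G a z) where
  cont a := (hF.cont a).add (hG.cont a)
  compat a b z hz h1 h2 := by rw [hF.compat a b z hz h1 h2, hG.compat a b z hz h1 h2]

theorem BD_smul {F : C.I → Cm n → ℝ} (hF : BD C F) (c : ℝ) :
    BD C (fun a z => c * F a z) where
  cont a := continuousOn_const.mul (hF.cont a)
  compat a b z hz h1 h2 := by rw [hF.compat a b z hz h1 h2]

theorem BInt_add (P : PU C) (K : KM C) {F G : C.I → Cm n → ℝ} (hF : BD C F) (hG : BD C G) :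
    BInt P K (fun a z => F a z + G a z) = BInt P K F + BInt P K G := by
  have := BInt_sum P K (Finset.univ : Finset Bool) (F := fun i => if i then F else G)
    (fun i _ => by cases i <;> simpa)
  simpa [Fintype.sum_bool] using this

theorem BInt_nonneg (P : PU C) (K : KM C) {F : C.I → Cm n → ℝ} (h : ∀ a, ∀ z ∈ C.V a, 0 ≤ F a z) :
    0 ≤ BInt P K F := by
  unfold BInt
  refine Finset.sum_nonneg fun a _ => setIntegral_nonneg measurableSet_ball fun z hz => ?_
  exact mul_nonneg (mul_nonneg (P.nonneg a a z) (h a z hz)) (vol_nn K (V_sub_Ω C a hz))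

theorem BInt_mono (P : PU C) (K : KM C) {F G : C.I → Cm n → ℝ} (hF : BD C F) (hG : BD C G)
    (h : ∀ a, ∀ z ∈ C.V a, F a z ≤ G a z) : BInt P K F ≤ BInt P K G := by
  unfold BInt
  refine Finset.sum_le_sum fun a _ => setIntegral_mono_on (hF.int_chi P K a a) (hG.int_chi P K a a)
    measurableSet_ball fun z hz => ?_
  exact mul_le_mul_of_nonneg_right (mul_le_mul_of_nonneg_left (h a z hz) (P.nonneg a a z))
    (vol_nn K (V_sub_Ω C a hz))

/-- the inner product -/
def ipU (hσ : ∀ g, ‖σ g‖ = 1) (P : PU C) (K : KM C) : utM C σ →ₗ[ℝ] utM C σ →ₗ[ℝ] ℝ :=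
  LinearMap.mk₂ ℝ (fun f h => BInt P K fun a z => ((f : Γ → C.I → Cm n → ℂ) 1 a z *
      conj ((h : Γ → C.I → Cm n → ℂ) 1 a z)).re)
    (by
      intro f g h
      rw [← BInt_add P K (BD_re hσ f.2 h.2) (BD_re hσ g.2 h.2)]
      refine BInt_congr P K fun a z _ => ?_
      show (((f : Γ → C.I → Cm n → ℂ) 1 a z + (g : Γ → C.I → Cm n → ℂ) 1 a z) * _).re = _
      rw [add_mul, Complex.add_re])
    (by
      intro c f h
      rw [smul_eq_mul, ← BInt_smul]
      refine BInt_congr P K fun a z _ => ?_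
      show ((c • (f : Γ → C.I → Cm n → ℂ) 1 a z) * _).re = _
      rw [smul_mul_assoc, Complex.smul_re, smul_eq_mul])
    (by
      intro f g h
      rw [← BInt_add P K (BD_re hσ f.2 g.2) (BD_re hσ f.2 h.2)]
      refine BInt_congr P K fun a z _ => ?_
      show ((f : Γ → C.I → Cm n → ℂ) 1 a z * conj ((g : Γ → C.I → Cm n → ℂ) 1 a z +
        (h : Γ → C.I → Cm n → ℂ) 1 a z)).re = _
      rw [map_add, mul_add, Complex.add_re])
    (by
      intro c f h
      rw [smul_eq_mul, ← BInt_smul]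
      refine BInt_congr P K fun a z _ => ?_
      show ((f : Γ → C.I → Cm n → ℂ) 1 a z * conj (c • (h : Γ → C.I → Cm n → ℂ) 1 a z)).re = _
      rw [Complex.real_smul, map_mul, Complex.conj_ofReal, mul_left_comm, Complex.re_ofReal_mul])

theorem ipU_apply (hσ : ∀ g, ‖σ g‖ = 1) (P : PU C) (K : KM C) (f h : utM C σ) :
    ipU hσ P K f h = BInt P K fun a z => ((f : Γ → C.I → Cm n → ℂ) 1 a z *
      conj ((h : Γ → C.I → Cm n → ℂ) 1 a z)).re := rfl

theorem ipU_self (hσ : ∀ g, ‖σ g‖ = 1) (P : PU C) (K : KM C) (f : utM C σ) :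
    ipU hσ P K f f = BInt P K fun a z => ‖(f : Γ → C.I → Cm n → ℂ) 1 a z‖ ^ 2 := by
  rw [ipU_apply]
  refine BInt_congr P K fun a z _ => ?_
  rw [Complex.mul_conj, Complex.ofReal_re, Complex.normSq_eq_norm_sq]

theorem ipU_symm (hσ : ∀ g, ‖σ g‖ = 1) (P : PU C) (K : KM C) (f h : utM C σ) :
    ipU hσ P K f h = ipU hσ P K h f := by
  rw [ipU_apply, ipU_apply]
  refine BInt_congr P K fun a z _ => ?_
  simp only [Complex.mul_re, Complex.conj_re, Complex.conj_im]
  ring

theorem ipU_nonneg (hσ : ∀ g, ‖σ g‖ = 1) (P : PU C) (K : KM C) (f : utM C σ) :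
    0 ≤ ipU hσ P K f f := by
  rw [ipU_self]
  exact BInt_nonneg P K fun a z _ => sq_nonneg _

/-! ### Sections supported in one piece -/

open Classical in
/-- the function `c F` on the ball number `b`, extended by `0` -/
def ext (C : Coc n Γ) (σ : Γ →* ℂ) (b : C.I) (c : ℂ) (F : Cm n → ℝ) (γ : Γ) (a : C.I)
    (z : Cm n) : ℂ :=
  if z ∈ C.O a b then σ (γ * C.κ a b z) * (c * (F (C.T a b z) : ℂ)) else 0

theorem ext_mem (b : C.I) (c : ℂ) (F : Cm n → ℝ) (γ : Γ) {a : C.I} {z : Cm n}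
    (hz : z ∈ C.O a b) : ext C σ b c F γ a z = σ (γ * C.κ a b z) * (c * (F (C.T a b z) : ℂ)) :=
  if_pos hz

theorem ext_notMem (b : C.I) (c : ℂ) (F : Cm n → ℝ) (γ : Γ) {a : C.I} {z : Cm n}
    (hz : z ∉ C.O a b) : ext C σ b c F γ a z = 0 := if_neg hz

theorem ext_ev0 {b : C.I} (c : ℂ) {F : Cm n → ℝ} (hF : TU (C.V b) F) (γ : Γ) {a : C.I} {z : Cm n}
    (hz : z ∈ C.Ω a) (h : ¬ (z ∈ C.O a b ∧ C.T a b z ∈ tsupport F)) :
    ext C σ b c F γ a =ᶠ[𝓝 z] fun _ => 0 := by
  have hsub : tsupport F ⊆ ball (C.c b) (4 * C.r b) := hF.supp.trans (V_sub_Ω C b)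
  filter_upwards [C.closed a b (tsupport F) hF.compact hsub z hz h] with y hy
  by_cases hy2 : y ∈ C.O a b
  · have h1 : F (C.T a b y) = 0 := by
      by_contra h0
      exact hy ⟨hy2, subset_tsupport F h0⟩
    rw [ext_mem b c F γ hy2, h1]
    simp
  · exact ext_notMem b c F γ hy2

theorem ext_ut {b : C.I} (c : ℂ) {F : Cm n → ℝ} (hF : TU (C.V b) F) : UT C σ (ext C σ b c F) where
  smooth γ a z hz := by
    by_cases h : z ∈ C.O a b ∧ C.T a b z ∈ tsupport F
    · have e : ext C σ b c F γ a =ᶠ[𝓝 z]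
          fun y => σ (γ * C.κ a b z) * (c * (F (C.T a b y) : ℂ)) := by
        filter_upwards [(C.O_open a b).mem_nhds h.1, C.κ_loc a b z h.1] with y hy hk
        rw [ext_mem b c F γ hy, hk]
      refine ContDiffAt.congr_of_eventuallyEq ?_ e
      have h1 : ContDiffAt ℝ ∞ (fun y => F (C.T a b y)) z :=
        hF.smooth.contDiffAt.comp z (C.T_smooth h.1)
      exact contDiffAt_const.mul (contDiffAt_const.mul (contDiffAt_ofReal h1))
    · exact contDiffAt_const.congr_of_eventuallyEq (ext_ev0 c hF γ hz h)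
  compat γ a d z hz := by
    by_cases hb : z ∈ C.O a b
    · have hd : C.T a d z ∈ C.O d b := C.O_trans hz hb
      rw [ext_mem b c F γ hb, ext_mem b c F _ hd, C.trans_κ a d b z hz hd,
        C.trans_T a d b z hz hd, mul_assoc γ]
    · have hd : C.T a d z ∉ C.O d b := fun h => hb (C.trans_mem a d b z hz h)
      rw [ext_notMem b c F γ hb, ext_notMem b c F _ hd]
  equiv g γ a z hz := by
    by_cases hb : z ∈ C.O a b
    · rw [ext_mem b c F _ hb, ext_mem b c F _ hb, mul_assoc g, map_mul, mul_assoc]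
    · rw [ext_notMem b c F _ hb, ext_notMem b c F _ hb, mul_zero]

theorem ext_self (b : C.I) (c : ℂ) (F : Cm n → ℝ) {z : Cm n} (hz : z ∈ C.Ω b) :
    ext C σ b c F 1 b z = c * (F z : ℂ) := by
  have hO := mem_O_self C hz
  rw [ext_mem b c F 1 hO, C.κ_self b z hO, C.T_self b z hO, mul_one, map_one, one_mul]

end glob

end Vale.Agent.P284.H730.A
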