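import Vale.Agent.P284.H730.Dn2

/-!
# P284, theorem A, block A4, part 3: the range of `q - Δ` is dense for large `q` on twisted sections on the
compact base
-/

set_option linter.all false

open scoped Manifold ContDiff Topology Pointwise ComplexConjugate ComplexOrder
open Filter Set Metric MeasureTheory

noncomputable section

namespace Vale.Agent.P284.H730.A

open Vale.Agent.P272.K Vale.Agent.P272.K.C2 Vale.Agent.P284.H248 Vale.Agent.P284.H894
  Vale.Agent.P284.H894.V Vale.Agent.P284.H639.V Vale.Agent.P284.H913.V Vale.Agent.P284.H66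
  Vale.Agent.P284.H66.S7

section glob
variable {n : ℕ} {Γ : Type} [Group Γ] {C : Coc n Γ} {σ : Γ →* ℂ}

/-- the weak equation on the ball number `b` -/
theorem weakU (hσ : ∀ g, ‖σ g‖ = 1) (P : PU C) (K : KM C) {q : C.I → Cm n → ℝ} (hq : Pot C q)
    {h : ℕ → utM C σ}
    (hh : ∀ u, Tendsto (fun j => ipU hσ P K (h j) (opL K hq u)) atTop (𝓝 0))
    (b : C.I) (c : ℂ) {F : Cm n → ℝ} (hF : TU (C.V b) F) :
    Tendsto (fun j => ∫ z in C.V b, ((h j : Γ → C.I → Cm n → ℂ) 1 b z * conj c).re *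
      (q b z * F z - lap (K.w b) F z) * vol (K.w b) z) atTop (𝓝 0) := by
  set u : utM C σ := ⟨ext C σ b c F, ext_ut c hF⟩ with hu
  refine (hh u).congr fun j => ?_
  rw [ipU_apply, (BD_re hσ (h j).2 (opL K hq u).2).piece P K b ?_]
  · refine setIntegral_congr_fun measurableSet_ball fun z hz => ?_
    have hz' := V_sub_Ω C b hz
    have e : ext C σ b c F 1 b =ᶠ[𝓝 z] fun y => c * (F y : ℂ) := by
      filter_upwards [(isOpen_Ω C b).mem_nhds hz'] with y hy using ext_self b c F hy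
    have h1 : (opL K hq u : Γ → C.I → Cm n → ℂ) 1 b z =
        c * ((q b z * F z - lap (K.w b) F z : ℝ) : ℂ) := by
      rw [opL_apply K hq u 1 hz']
      show (q b z : ℂ) * ext C σ b c F 1 b z - lapC (K.w b) (ext C σ b c F 1 b) z = _
      rw [lapC_congr e, lapC_smul c (contDiffAt_ofReal hF.smooth.contDiffAt), lapC_ofReal,
        ext_self b c F hz']
      push_cast
      ring
    simp only [h1, map_mul, Complex.conj_ofReal]
    rw [← mul_assoc, Complex.re_mul_ofReal]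
  · intro a z hz hne
    by_contra hn
    apply hne
    have hz' := V_sub_Ω C a hz
    have hn' : ¬ (z ∈ C.O a b ∧ C.T a b z ∈ tsupport F) := fun h => hn ⟨h.1, hF.supp h.2⟩
    have e := ext_ev0 (σ := σ) c hF 1 hz' hn'
    have h1 : (opL K hq u : Γ → C.I → Cm n → ℂ) 1 a z = 0 := by
      rw [opL_apply K hq u 1 hz']
      show (q a z : ℂ) * ext C σ b c F 1 a z - lapC (K.w a) (ext C σ b c F 1 a) z = _
      rw [lapC_congr e, lapC_zero, e.self_of_nhds]
      simp
    rw [h1]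
    simp

/-- the cut-off function of the ball number `b` -/
def zeta (P : PU C) (b : C.I) : Cm n → ℝ := (C.Ω b).indicator (P.χ b b)

theorem zeta_supp (P : PU C) (b : C.I) {z : Cm n} (h : zeta P b z ≠ 0) : z ∈ P.K b := by
  by_cases hz : z ∈ C.Ω b
  · rw [zeta, indicator_of_mem hz] at h
    have h3 := (P.supp b b z hz h).2
    rwa [C.T_self b z (mem_O_self C hz)] at h3
  · rw [zeta, indicator_of_notMem hz] at h
    exact absurd rfl h

theorem zeta_ev (P : PU C) (b : C.I) {z : Cm n} (hz : z ∈ C.Ω b) :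
    zeta P b =ᶠ[𝓝 z] P.χ b b := by
  filter_upwards [(isOpen_Ω C b).mem_nhds hz] with y hy
  exact indicator_of_mem hy _

theorem TU_zeta (P : PU C) (b : C.I) : TU (C.V b) (zeta P b) := by
  have hs : tsupport (zeta P b) ⊆ P.K b :=
    closure_minimal (fun z hz => zeta_supp P b hz) (P.compactK b).isClosed
  refine ⟨?_, (P.compactK b).of_isClosed_subset (isClosed_tsupport _) hs, hs.trans (P.K_sub b)⟩
  rw [contDiff_iff_contDiffAt]
  intro z
  by_cases hz : z ∈ P.K b
  · have hz' := V_sub_Ω C b (P.K_sub b hz)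
    exact (P.smooth b b z hz').congr_of_eventuallyEq (zeta_ev P b hz')
  · have : zeta P b =ᶠ[𝓝 z] fun _ => 0 := by
      filter_upwards [(P.compactK b).isClosed.isOpen_compl.mem_nhds hz] with y hy
      by_contra h0
      exact hy (zeta_supp P b h0)
    exact contDiffAt_const.congr_of_eventuallyEq this

theorem BD_pot {q : C.I → Cm n → ℝ} (hq : Pot C q) : BD C q where
  cont a z hz := (hq.smooth a z hz).continuousAt.continuousWithinAt
  compat a b z hz _ _ := hq.compat a b z hz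

theorem BD_chi (P : PU C) (b : C.I) : BD C (P.χ b) where
  cont a := chi_cont P b a
  compat a d z hz _ _ := P.compat b a d z hz

theorem BD_gr_chi (P : PU C) (K : KM C) (b : C.I) :
    BD C (fun a z => gr (K.w a) (P.χ b a) (P.χ b a) z) where
  cont a z hz := (smooth_gr (K.ku a) hz (P.smooth b a z hz)
    (P.smooth b a z hz)).continuousAt.continuousWithinAt
  compat a d z hz _ _ := (lap_trans K hz (P.smooth b d _ (T_mem_Ω C hz)) (by
    filter_upwards [(C.O_open a d).mem_nhds hz] with y hy using P.compat b a d y hy)).2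

/-- the local inequality for the sections -/
theorem locU (hσ : ∀ g, ‖σ g‖ = 1) (P : PU C) (K : KM C) {q : C.I → Cm n → ℝ} (hq : Pot C q)
    {h : ℕ → utM C σ}
    (hcau : ∀ j k : ℕ, ipU hσ P K (h j - h k) (h j - h k) ≤
      2 / ((j : ℝ) + 1) + 2 / ((k : ℝ) + 1))
    (hh : ∀ u, Tendsto (fun j => ipU hσ P K (h j) (opL K hq u)) atTop (𝓝 0))
    (b : C.I) {ε : ℝ} (hε : 0 < ε) : ∀ᶠ j in atTop,
      BInt P K (fun a z => q a z * P.χ b a z ^ 2 * ‖(h j : Γ → C.I → Cm n → ℂ) 1 a z‖ ^ 2) ≤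
        BInt P K (fun a z => gr (K.w a) (P.χ b a) (P.χ b a) z *
          ‖(h j : Γ → C.I → Cm n → ℂ) 1 a z‖ ^ 2) + ε := by
  have hr := C.r_pos b
  have hsq : ∀ f : utM C σ, BD C (fun a z => ‖(f : Γ → C.I → Cm n → ℂ) 1 a z‖ ^ 2) := fun f =>
    BD_sq hσ f.2
  have key : ∀ c : ℂ, ‖c‖ = 1 → ∀ᶠ j in atTop,
      ∫ z in C.V b, q b z * zeta P b z ^ 2 *
        ((h j : Γ → C.I → Cm n → ℂ) 1 b z * conj c).re ^ 2 * vol (K.w b) z ≤
      (∫ z in C.V b, gr (K.w b) (zeta P b) (zeta P b) z *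
        ((h j : Γ → C.I → Cm n → ℂ) 1 b z * conj c).re ^ 2 * vol (K.w b) z) + ε / 2 := by
    intro c hc
    refine v7q n (C.c b) (3 * C.r b) (4 * C.r b) (by linarith) (by linarith) (K.w b) (K.ku b) (q b)
      (hq.smooth b) (fun j z => ((h j : Γ → C.I → Cm n → ℂ) 1 b z * conj c).re)
      (fun j z hz => re_smooth (((h j).2.smooth 1 b z hz).mul contDiffAt_const))
      (fun η hη => ?_) (fun F hF => weakU hσ P K hq hh b c hF) (zeta P b) (TU_zeta P b) _
      (by positivity)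
    obtain ⟨J, hJ⟩ := exists_nat_gt (4 / η)
    refine ⟨J, fun j hj k hk => ?_⟩
    have h1 : ∫ z in C.V b, (((h j : Γ → C.I → Cm n → ℂ) 1 b z * conj c).re -
        ((h k : Γ → C.I → Cm n → ℂ) 1 b z * conj c).re) ^ 2 * vol (K.w b) z ≤
        ∫ z in C.V b, ‖((h j - h k : utM C σ) : Γ → C.I → Cm n → ℂ) 1 b z‖ ^ 2 *
          vol (K.w b) z := by
      have hc1 : ContinuousOn (fun z => (((h j : Γ → C.I → Cm n → ℂ) 1 b z * conj c).re -
          ((h k : Γ → C.I → Cm n → ℂ) 1 b z * conj c).re) ^ 2 * vol (K.w b) z) (C.Ω b) := by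
        intro z hz
        refine ContinuousAt.continuousWithinAt ?_
        exact (((re_smooth (((h j).2.smooth 1 b z hz).mul contDiffAt_const)).continuousAt.sub
          (re_smooth (((h k).2.smooth 1 b z hz).mul contDiffAt_const)).continuousAt).pow 2).mul
          (smooth_vol (K.ku b) hz).continuousAt
      refine setIntegral_mono_on (intV hc1) ((hsq (h j - h k)).int_vol K b) measurableSet_ball
        fun z hz => ?_
      refine mul_le_mul_of_nonneg_right ?_ (vol_nn K (V_sub_Ω C b hz))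
      rw [← Complex.sub_re, ← sub_mul]
      have h2 : |(((h j : Γ → C.I → Cm n → ℂ) 1 b z - (h k : Γ → C.I → Cm n → ℂ) 1 b z) *
          conj c).re| ≤ ‖((h j - h k : utM C σ) : Γ → C.I → Cm n → ℂ) 1 b z‖ := by
        refine (Complex.abs_re_le_norm _).trans (le_of_eq ?_)
        rw [norm_mul, RCLike.norm_conj, hc, mul_one]
        rfl
      exact sq_le_sq' (by linarith [neg_abs_le ((((h j : Γ → C.I → Cm n → ℂ) 1 b z -
        (h k : Γ → C.I → Cm n → ℂ) 1 b z) * conj c).re)]) ((le_abs_self _).trans h2)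
    have h2 := h1.trans ((hsq (h j - h k)).le P K (fun a z _ => sq_nonneg _) b)
    rw [← ipU_self hσ] at h2
    refine (h2.trans (hcau j k)).trans_lt ?_
    have hJ0 : (0 : ℝ) < (J : ℝ) + 1 := by positivity
    have h4 : ∀ i ≥ J, (2 : ℝ) / ((i : ℝ) + 1) ≤ 2 / ((J : ℝ) + 1) := fun i hi => by
      have : (J : ℝ) ≤ i := by exact_mod_cast hi
      gcongr
    have h3 : (2 : ℝ) / ((J : ℝ) + 1) + 2 / ((J : ℝ) + 1) < η := by
      rw [← add_div, div_lt_iff₀ hJ0]
      rw [div_lt_iff₀ hη] at hJ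
      nlinarith
    linarith [h4 j hj, h4 k hk]
  filter_upwards [key 1 (by simp), key Complex.I (by simp)] with j h1 h2
  have F1 : BD C (fun a z => q a z * P.χ b a z ^ 2 * ‖(h j : Γ → C.I → Cm n → ℂ) 1 a z‖ ^ 2) := by
    have h3 := BD_mul (BD_mul (BD_pot hq) (BD_mul (BD_chi P b) (BD_chi P b))) (hsq (h j))
    simpa only [sq] using h3
  have F2 := BD_mul (BD_gr_chi P K b) (hsq (h j))
  rw [F1.piece P K b ?_, F2.piece P K b ?_]
  · -- decomposition
    have hnorm : ∀ x : ℂ, ‖x‖ ^ 2 = (x * conj (1 : ℂ)).re ^ 2 + (x * conj Complex.I).re ^ 2 := by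
      intro x
      rw [← Complex.normSq_eq_norm_sq, Complex.normSq_apply]
      simp
      ring
    have hcre : ∀ c : ℂ, ContinuousOn (fun z =>
        ((h j : Γ → C.I → Cm n → ℂ) 1 b z * conj c).re ^ 2) (C.Ω b) := fun c z hz =>
      ((re_smooth (((h j).2.smooth 1 b z hz).mul contDiffAt_const)).continuousAt.pow
        2).continuousWithinAt
    have hcz : ContinuousOn (fun z => q b z * zeta P b z ^ 2) (C.Ω b) :=
      ((BD_pot hq).cont b).mul ((TU_zeta P b).smooth.continuous.continuousOn.pow 2)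
    have hcg : ContinuousOn (fun z => gr (K.w b) (zeta P b) (zeta P b) z) (C.Ω b) := fun z hz =>
      (smooth_gr (K.ku b) hz (TU_zeta P b).smooth.contDiffAt
        (TU_zeta P b).smooth.contDiffAt).continuousAt.continuousWithinAt
    have i1 : ∀ c : ℂ, IntegrableOn (fun z => q b z * zeta P b z ^ 2 *
        ((h j : Γ → C.I → Cm n → ℂ) 1 b z * conj c).re ^ 2 * vol (K.w b) z) (C.V b) := fun c =>
      intV ((hcz.mul (hcre c)).mul (vol_cont K b))
    have i2 : ∀ c : ℂ, IntegrableOn (fun z => gr (K.w b) (zeta P b) (zeta P b) z *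
        ((h j : Γ → C.I → Cm n → ℂ) 1 b z * conj c).re ^ 2 * vol (K.w b) z) (C.V b) := fun c =>
      intV ((hcg.mul (hcre c)).mul (vol_cont K b))
    have e1 : ∫ z in C.V b, q b z * P.χ b b z ^ 2 *
        ‖(h j : Γ → C.I → Cm n → ℂ) 1 b z‖ ^ 2 * vol (K.w b) z =
        (∫ z in C.V b, q b z * zeta P b z ^ 2 *
          ((h j : Γ → C.I → Cm n → ℂ) 1 b z * conj (1 : ℂ)).re ^ 2 * vol (K.w b) z) +
        ∫ z in C.V b, q b z * zeta P b z ^ 2 *
          ((h j : Γ → C.I → Cm n → ℂ) 1 b z * conj Complex.I).re ^ 2 * vol (K.w b) z := by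
      rw [← integral_add (i1 1) (i1 Complex.I)]
      refine setIntegral_congr_fun measurableSet_ball fun z hz => ?_
      have hz2 : zeta P b z = P.χ b b z := indicator_of_mem (V_sub_Ω C b hz) _
      simp only [hnorm, hz2]
      ring
    have e2 : ∫ z in C.V b, gr (K.w b) (P.χ b b) (P.χ b b) z *
        ‖(h j : Γ → C.I → Cm n → ℂ) 1 b z‖ ^ 2 * vol (K.w b) z =
        (∫ z in C.V b, gr (K.w b) (zeta P b) (zeta P b) z *
          ((h j : Γ → C.I → Cm n → ℂ) 1 b z * conj (1 : ℂ)).re ^ 2 * vol (K.w b) z) +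
        ∫ z in C.V b, gr (K.w b) (zeta P b) (zeta P b) z *
          ((h j : Γ → C.I → Cm n → ℂ) 1 b z * conj Complex.I).re ^ 2 * vol (K.w b) z := by
      rw [← integral_add (i2 1) (i2 Complex.I)]
      refine setIntegral_congr_fun measurableSet_ball fun z hz => ?_
      have hz2 := gr_congr (w := K.w b) (zeta_ev P b (V_sub_Ω C b hz))
        (zeta_ev P b (V_sub_Ω C b hz))
      simp only [hnorm, hz2]
      ring
    rw [e1, e2]
    linarith
  · intro a z hz hne
    by_contra hn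
    apply hne
    have hn' : ¬ (z ∈ C.O a b ∧ C.T a b z ∈ P.K b) := fun h => hn ⟨h.1, P.K_sub b h.2⟩
    have e := chi_ev P b (V_sub_Ω C a hz) hn'
    rw [gr_eq_zero e, zero_mul]
  · intro a z hz hne
    by_contra hn
    apply hne
    have hn' : ¬ (z ∈ C.O a b ∧ C.T a b z ∈ P.K b) := fun h => hn ⟨h.1, P.K_sub b h.2⟩
    have e := chi_ev P b (V_sub_Ω C a hz) hn'
    rw [e.self_of_nhds]
    ring

/-- **A4**: the range of `q - Δ` is dense if `q` is large. -/
theorem dense_range (σ : Γ →* ℂ) (hσ : ∀ g, ‖σ g‖ = 1) (P : PU C) (K : KM C) : ∃ l₀ : ℝ, 0 < l₀ ∧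
    ∀ (q : C.I → Cm n → ℝ) (hq : Pot C q), (∀ a, ∀ z ∈ C.Ω a, l₀ ≤ q a z) →
      ∀ (f : utM C σ) (δ : ℝ), 0 < δ → ∃ v : utM C σ,
        ipU hσ P K (f - opL K hq v) (f - opL K hq v) < δ := by
  obtain ⟨B, hB0, hB⟩ := H446.V.exists_gr_χ P K
  set I : ℝ := ((Fintype.card C.I : ℕ) : ℝ) with hI
  have hI1 : (1 : ℝ) ≤ I := by
    rw [hI]
    exact Nat.one_le_cast.2 Fintype.card_pos
  refine ⟨I ^ 2 * B + I, by positivity, fun q hq hql f δ hδ => ?_⟩
  set l : ℝ := I ^ 2 * B + I with hl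
  have hl0 : 0 < l := by positivity
  obtain ⟨v, hcau, hort⟩ := H446.V.min_seq (ipU hσ P K) (ipU_symm hσ P K) (ipU_nonneg hσ P K)
    (opL K hq) f
  set h : ℕ → utM C σ := fun j => f - opL K hq (v j) with hh
  have hsq : ∀ f : utM C σ, BD C (fun a z => ‖(f : Γ → C.I → Cm n → ℂ) 1 a z‖ ^ 2) := fun f =>
    BD_sq hσ f.2
  set ε : ℝ := δ / (2 * I) with hε
  have hε0 : 0 < ε := by positivity
  have hev : ∀ᶠ j in atTop, ∀ b : C.I,
      BInt P K (fun a z => q a z * P.χ b a z ^ 2 * ‖(h j : Γ → C.I → Cm n → ℂ) 1 a z‖ ^ 2) ≤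
        BInt P K (fun a z => gr (K.w a) (P.χ b a) (P.χ b a) z *
          ‖(h j : Γ → C.I → Cm n → ℂ) 1 a z‖ ^ 2) + ε := by
    rw [eventually_all]
    intro b
    exact locU hσ P K hq hcau hort b hε0
  obtain ⟨j, hj⟩ := hev.exists
  set X : ℝ := BInt P K (fun a z => ‖(h j : Γ → C.I → Cm n → ℂ) 1 a z‖ ^ 2) with hX
  have hX0 : 0 ≤ X := BInt_nonneg P K fun a z _ => sq_nonneg _
  -- right-hand side
  have hR : ∀ b : C.I, BInt P K (fun a z => gr (K.w a) (P.χ b a) (P.χ b a) z *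
      ‖(h j : Γ → C.I → Cm n → ℂ) 1 a z‖ ^ 2) ≤ B * X := by
    intro b
    rw [hX, ← BInt_smul]
    refine BInt_mono P K (BD_mul (BD_gr_chi P K b) (hsq (h j))) (BD_smul (hsq (h j)) B)
      fun a z hz => ?_
    exact mul_le_mul_of_nonneg_right ((le_abs_self _).trans (hB a b b z hz)) (sq_nonneg _)
  -- left-hand side
  have hχ2 : ∀ b : C.I, BD C (fun a z => P.χ b a z ^ 2 *
      ‖(h j : Γ → C.I → Cm n → ℂ) 1 a z‖ ^ 2) := by
    intro b
    have h3 := BD_mul (BD_mul (BD_chi P b) (BD_chi P b)) (hsq (h j))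
    simpa only [sq] using h3
  have hL : ∀ b : C.I, l * BInt P K (fun a z => P.χ b a z ^ 2 *
      ‖(h j : Γ → C.I → Cm n → ℂ) 1 a z‖ ^ 2) ≤
      BInt P K (fun a z => q a z * P.χ b a z ^ 2 *
        ‖(h j : Γ → C.I → Cm n → ℂ) 1 a z‖ ^ 2) := by
    intro b
    rw [← BInt_smul]
    have F1 : BD C (fun a z => q a z * P.χ b a z ^ 2 *
        ‖(h j : Γ → C.I → Cm n → ℂ) 1 a z‖ ^ 2) := by
      have h3 := BD_mul (BD_pot hq) (hχ2 b)
      simpa only [mul_assoc] using h3
    refine BInt_mono P K (BD_smul (hχ2 b) l) F1 fun a z hz => ?_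
    rw [mul_assoc]
    exact mul_le_mul_of_nonneg_right (hql a z (V_sub_Ω C a hz)) (by positivity)
  have hS : X ≤ I * ∑ b, BInt P K (fun a z => P.χ b a z ^ 2 *
      ‖(h j : Γ → C.I → Cm n → ℂ) 1 a z‖ ^ 2) := by
    rw [← BInt_sum P K Finset.univ fun b _ => hχ2 b, ← BInt_smul]
    have F3 : BD C (fun a z => ∑ b, P.χ b a z ^ 2 *
        ‖(h j : Γ → C.I → Cm n → ℂ) 1 a z‖ ^ 2) :=
      ⟨fun a => continuousOn_finsetSum _ fun b _ => (hχ2 b).cont a, fun a d z hz h1 h2 =>
        Finset.sum_congr rfl fun b _ => (hχ2 b).compat a d z hz h1 h2⟩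
    refine BInt_mono P K (hsq (h j)) (BD_smul F3 I) fun a z hz => ?_
    have h1 : (1 : ℝ) ≤ I * ∑ b, P.χ b a z ^ 2 := by
      have h2 := sq_sum_le_card_mul_sum_sq (s := (Finset.univ : Finset C.I))
        (f := fun b => P.χ b a z)
      rw [P.sum_one a z (V_sub_Ω C a hz), one_pow, Finset.card_univ] at h2
      exact h2
    rw [← Finset.sum_mul, ← mul_assoc]
    exact le_mul_of_one_le_left (sq_nonneg _) h1
  refine ⟨v j, ?_⟩
  have hfin : ipU hσ P K (f - opL K hq (v j)) (f - opL K hq (v j)) = X := ipU_self hσ P K _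
  rw [hfin]
  have h1 : l * X ≤ I * (I * (B * X + ε)) := by
    calc l * X ≤ l * (I * ∑ b, BInt P K (fun a z => P.χ b a z ^ 2 *
          ‖(h j : Γ → C.I → Cm n → ℂ) 1 a z‖ ^ 2)) := mul_le_mul_of_nonneg_left hS hl0.le
      _ = I * ∑ b, l * BInt P K (fun a z => P.χ b a z ^ 2 *
          ‖(h j : Γ → C.I → Cm n → ℂ) 1 a z‖ ^ 2) := by rw [← Finset.mul_sum]; ring
      _ ≤ I * ∑ _b : C.I, (B * X + ε) := by
          refine mul_le_mul_of_nonneg_left ?_ (by linarith)
          refine Finset.sum_le_sum fun b _ => ?_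
          exact ((hL b).trans (hj b)).trans (by linarith [hR b])
      _ = _ := by rw [Finset.sum_const, Finset.card_univ, nsmul_eq_mul]
  have h2 : I * X ≤ I * (I * ε) := by
    rw [hl] at h1
    nlinarith
  have h3 : X ≤ I * ε := le_of_mul_le_mul_left h2 (by linarith)
  have h4 : I * ε = δ / 2 := by
    rw [hε]
    field_simp
  linarith

end glob

end Vale.Agent.P284.H730.A
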