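import Vale.Agent.P284.H730.S5G4
import Vale.Agent.P284.H5.V16C
import Mathlib.Analysis.Calculus.InverseFunctionTheorem.FDeriv

/-!
# P284, theorem W: identity theorem for pluriharmonic functions along a regular connected piece `V₁` of a
fibre
-/

open scoped Manifold ContDiff Topology Pointwise ComplexConjugate ComplexOrder Matrix
open Filter Set Metric

noncomputable section

namespace Vale.Agent.P284.H730.G

open Vale.Agent.P272.K Vale.Agent.P284.H894.G Vale.Agent.P284.H894.W Vale.Agent.P284.H894.V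

section
variable {n m N : ℕ} {X : Type} [TopologicalSpace X] [ChartedSpace (Cm n) X]
  {E : Type} [TopologicalSpace E] {p : E → X} {V₁ : Set E}

/-- the charts of `V₁` -/
theorem immY_val [IsManifold 𝓘(ℂ, Cm n) ω X] (hp : IsCoveringMap p)
    {w : Chart n X → Cm n → Matrix (Fin n) (Fin n) ℂ} {F : E → Cm N}
    (hF : ∃ B, HolB p w F B) {y₀ : Cm N} (hV : ∀ y ∈ V₁, F y = y₀)
    (hO : ∃ O : Set E, IsOpen O ∧ V₁ = F ⁻¹' {y₀} ∩ O) (hreg : ∀ y ∈ V₁, Reg (n := n) p F y)
    (hmn : m + N = n) : ImmY n m (fun y : V₁ => p y) := by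
  refine ⟨hp.continuous.comp continuous_subtype_val, fun y => ?_⟩
  obtain ⟨B, hB⟩ := hF
  obtain ⟨O, hO, hVO⟩ := hO
  obtain ⟨ϕ, hy, hϕ⟩ := hp.isLocalHomeomorph (y : E)
  set e := chartAt (Cm n) (p y) with he
  have hAt : At e (p y) := ⟨chart_mem_atlas _ _, mem_chart_source _ _⟩
  obtain ⟨f, hf1, hf2, -⟩ := hB y e hAt
  have hs := hreg y y.2 e f hAt hf1
  obtain ⟨L, Θ, hz, hΘ, hΘs⟩ := exists_theta hmn hf2 hs
  obtain ⟨A, hA, hAo, hyA⟩ := _root_.mem_nhds_iff.1 hf1
  have hyO : (y : E) ∈ O := (hVO.le y.2).2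
  have hAO : IsOpen (A ∩ O) := hAo.inter hO
  set ψ := (ϕ ≫ₕ e).restrOpen (A ∩ O) hAO with hψ
  set Ψ := ψ ≫ₕ Θ with hΨ
  have hψs : ∀ x, x ∈ ψ.source ↔ (x ∈ ϕ.source ∧ p x ∈ e.source) ∧ x ∈ A ∧ x ∈ O := by
    intro x
    rw [hψ, OpenPartialHomeomorph.restrOpen_source, OpenPartialHomeomorph.trans_source]
    rw [hϕ]
    rfl
  have hψa : ∀ x, ψ x = e (p x) := by
    intro x
    rw [hϕ]
    rfl
  have hΨs : ∀ x, x ∈ Ψ.source ↔ x ∈ ψ.source ∧ e (p x) ∈ Θ.source := by
    intro x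
    rw [hΨ, OpenPartialHomeomorph.trans_source]
    constructor
    · rintro ⟨h1, h2⟩
      exact ⟨h1, by rw [← hψa]; exact h2⟩
    · rintro ⟨h1, h2⟩
      exact ⟨h1, by rw [Set.mem_preimage, hψa]; exact h2⟩
  have hΨa : ∀ x, Ψ x = (f (e (p x)), L (e (p x))) := by
    intro x
    change Θ (ψ x) = _
    rw [hψa, hΘ]
  have hVs : ∀ x ∈ Ψ.source, x ∈ V₁ ↔ (Ψ x).1 = y₀ := by
    intro x hx
    have h1 := (hψs x).1 ((hΨs x).1 hx).1
    have h2 : F x = f (e (p x)) := hA h1.2.1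
    rw [hΨa]
    change _ ↔ f (e (p x)) = y₀
    rw [← h2]
    constructor
    · exact hV x
    · intro h3
      rw [hVO]
      exact ⟨h3, h1.2.2⟩
  set cV := slice Ψ V₁ y₀ y hVs with hcV
  have hyΨ : (y : E) ∈ Ψ.source := (hΨs _).2 ⟨(hψs _).2 ⟨⟨hy, hAt.2⟩, hyA, hyO⟩, hz⟩
  refine ⟨cV, hyΨ, ?_⟩
  have hkey2 : ∀ z, (y₀, z) ∈ Ψ.target → (y₀, z) ∈ Θ.target ∧ Θ.symm (y₀, z) ∈ e.target ∧
      p (Ψ.symm (y₀, z)) = e.symm (Θ.symm (y₀, z)) := by
    intro z hz
    have h1 : (y₀, z) ∈ Θ.target ∧ Θ.symm (y₀, z) ∈ ψ.target := by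
      rw [hΨ, OpenPartialHomeomorph.trans_target] at hz
      exact hz
    have h2 : Θ.symm (y₀, z) ∈ (ϕ ≫ₕ e).target := h1.2.1
    rw [OpenPartialHomeomorph.trans_target] at h2
    refine ⟨h1.1, h2.1, ?_⟩
    change p (ϕ.symm (e.symm (Θ.symm (y₀, z)))) = _
    rw [hϕ]
    exact ϕ.right_inv h2.2
  refine imm_of_local (hp.continuous.comp continuous_subtype_val) hAt.1
    (fun z => Θ.symm (y₀, z)) L ?_ ?_ ?_ ?_
  · intro z hz
    have h1 : (y₀, z) ∈ Ψ.target := hz
    have h3 : (cV.symm z : E) = Ψ.symm (y₀, z) := slice_symm Ψ V₁ y₀ y hVs h1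
    change p (cV.symm z : E) = _
    rw [h3]
    exact (hkey2 z h1).2.2
  · intro z hz
    exact (hkey2 z hz).2.1
  · intro z hz
    have h1 := hΘs _ (hkey2 z hz).1
    exact DifferentiableAt.comp (g := Θ.symm) z h1 (by fun_prop)
  · intro z hz
    have h1 := Θ.right_inv (hkey2 z hz).1
    rw [hΘ] at h1
    exact congrArg Prod.snd h1

/-- expression in a chart of `Y` of a continuous map to `Y` which is holomorphic as a map to `X` -/
lemma tau_omega {Y : Type} [TopologicalSpace Y] {ι : Y → X} (hι : Continuous ι)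
    {c : OpenPartialHomeomorph Y (Cm m)} (hc : Imm n ι c) {k : ℕ} {γ : Cm k → Y} {s₀ : Cm k}
    (hγ : ContinuousAt γ s₀) (hs : γ s₀ ∈ c.source)
    (hd : ∀ᶠ s in 𝓝 s₀, ∀ e : Chart n X, At e (ι (γ s)) →
      DifferentiableAt ℂ (fun s => e (ι (γ s))) s) :
    ContDiffAt ℂ ω (fun s => c (γ s)) s₀ ∧ ∀ e : Chart n X, At e (ι (γ s₀)) →
      fderiv ℂ (fun s => e (ι (γ s))) s₀ =
        (fderiv ℂ (fun z => e (ι (c.symm z))) (c (γ s₀))).comp
          (fderiv ℂ (fun s => c (γ s)) s₀) := by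
  have hsrc : ∀ᶠ s in 𝓝 s₀, γ s ∈ c.source := hγ.eventually (c.open_source.mem_nhds hs)
  have hτc : ContinuousAt (fun s => c (γ s)) s₀ := ContinuousAt.comp (c.continuousAt hs) hγ
  have hloc : ∀ e : Chart n X,
      (fun s => e (ι (γ s))) =ᶠ[𝓝 s₀] fun s => e (ι (c.symm (c (γ s)))) := by
    intro e
    filter_upwards [hsrc] with s hs
    rw [c.left_inv hs]
  have hinv : c.symm (c (γ s₀)) = γ s₀ := c.left_inv hs
  have ht : c (γ s₀) ∈ c.target := c.map_source hs
  have h0 : ContDiffAt ℂ ω (fun s => c (γ s)) s₀ := by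
    set e := chartAt (Cm n) (ι (γ s₀)) with he
    have hAte : At e (ι (γ s₀)) := ⟨chart_mem_atlas _ _, mem_chart_source _ _⟩
    have h2 : At e (ι (c.symm (c (γ s₀)))) := by rw [hinv]; exact hAte
    refine contDiffAt_of_comp (g' := fun z => e (ι (c.symm z))) (g := fun s => e (ι (γ s)))
      (hc.omega hι ht h2) (hc _ ht e h2).2 ?_ hτc (hloc e)
    have h4 : ∀ᶠ s in 𝓝 s₀, DifferentiableAt ℂ (fun s => e (ι (γ s))) s := by
      have h5 : ContinuousAt (fun s => ι (γ s)) s₀ := hι.continuousAt.comp hγ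
      filter_upwards [hd, h5.eventually (e.open_source.mem_nhds hAte.2)] with s hs hs2
      exact hs e ⟨hAte.1, hs2⟩
    obtain ⟨U, hU, hUo, hz⟩ := _root_.mem_nhds_iff.1 h4
    have hd : DifferentiableOn ℂ (fun s => e (ι (γ s))) U := fun z hz =>
      (hU hz : DifferentiableAt ℂ _ z).differentiableWithinAt
    exact (Vale.Agent.P268.analyticAt_of_differentiableOn hUo hd hz).contDiffAt
  refine ⟨h0, fun e he => ?_⟩
  rw [(hloc e).fderiv_eq]
  have h2 : At e (ι (c.symm (c (γ s₀)))) := by rw [hinv]; exact he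
  have h3 := (hc _ ht e h2).1.hasFDerivAt.comp s₀ (h0.differentiableAt (by simp)).hasFDerivAt
  exact h3.fderiv

open Classical in
/-- a pluriharmonic function along `V₁` is pluriharmonic in the charts of `V₁` -/
lemma along_chart {w : Chart n X → Cm n → Matrix (Fin n) (Fin n) ℂ}
    {u : V₁ → ℝ} {B : ℝ} (hu : Along p w V₁ u B) {c : OpenPartialHomeomorph V₁ (Cm m)}
    (hc : Imm n (fun y : V₁ => p y) c) {z : Cm m} (hz : z ∈ c.target) :
    ContDiffAt ℝ ∞ (fun z => u (c.symm z)) z ∧ cHess (fun z => u (c.symm z)) z = 0 := by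
  have h1 : ∀ᶠ s in 𝓝 z, (c.symm s : E) ∈ V₁ ∧ HolTo (n := n) p (fun s => (c.symm s : E)) s := by
    filter_upwards [c.open_target.mem_nhds hz] with s hs
    exact ⟨(c.symm s).2, continuous_subtype_val.continuousAt.comp (c.continuousAt_symm hs),
      fun e he => (hc s hs e he).1⟩
  have h2 := (hu m (fun s => (c.symm s : E)) z h1).1.self_of_nhds
  have h3 : (fun s => if h : (c.symm s : E) ∈ V₁ then u ⟨(c.symm s : E), h⟩ else 0) =
      fun s => u (c.symm s) := by
    funext s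
    rw [dif_pos (c.symm s).2]
  rw [h3] at h2
  exact h2

/-- Identity theorem along `V₁`: the function `u` is constant if it is constant near a point. -/
theorem along_const_of_eventually
    {w : Chart n X → Cm n → Matrix (Fin n) (Fin n) ℂ} (hI : ImmY n m (fun y : V₁ => p y))
    (hconn : IsPreconnected V₁) {u : V₁ → ℝ} {B : ℝ} (hu : Along p w V₁ u B) {y₁ : V₁} {a : ℝ}
    (ha : ∀ᶠ y in 𝓝 y₁, u y = a) (y : V₁) : u y = a := by
  have : PreconnectedSpace V₁ := isPreconnected_iff_preconnectedSpace.1 hconn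
  set S : Set V₁ := {y | ∀ᶠ y' in 𝓝 y, u y' = a} with hS
  have hopen : IsOpen S := isOpen_setOfPred_eventually_nhds
  have hclosed : IsClosed S := by
    rw [← closure_subset_iff_isClosed]
    intro y hy
    rw [mem_closure_iff_nhds] at hy
    obtain ⟨c, hyc, hc⟩ := hI.ch y
    obtain ⟨r, hr, hball⟩ := Metric.isOpen_iff.1 c.open_target (c y) (c.map_source hyc)
    have hN1 : ∀ᶠ y' in 𝓝 y, c y' ∈ ball (c y) r :=
      (c.continuousAt hyc).eventually (ball_mem_nhds _ hr)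
    have hN2 : ∀ᶠ y' in 𝓝 y, y' ∈ c.source := c.open_source.mem_nhds hyc
    obtain ⟨y₁, ⟨h1, h2⟩, h4⟩ := hy _ (hN1.and hN2)
    have h5 : ∀ᶠ z in 𝓝 (c y₁), u (c.symm z) = a := by
      have h6 : ContinuousAt c.symm (c y₁) := c.continuousAt_symm (c.map_source h2)
      have h7 : Tendsto c.symm (𝓝 (c y₁)) (𝓝 y₁) := by
        have := h6.tendsto
        rwa [c.left_inv h2] at this
      exact h7.eventually h4
    have h6 := Vale.Agent.P284.H5.V.eq_const_on_ball (g := fun z => u (c.symm z))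
      (fun z hz => along_chart hu hc (hball hz)) h1 h5
    show ∀ᶠ y' in 𝓝 y, u y' = a
    filter_upwards [hN1, hN2] with y' ha hb
    have h8 := h6 _ ha
    rwa [c.left_inv hb] at h8
  have huniv := IsClopen.eq_univ ⟨hclosed, hopen⟩ ⟨y₁, ha⟩
  have h7 : y ∈ S := by rw [huniv]; trivial
  have h8 : ∀ᶠ y' in 𝓝 y, u y' = a := h7
  exact h8.self_of_nhds

open Classical in
/-- The final step: if the derivative of `u ∘ g` vanishes for a local parametrization `g` of `V₁`, then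
`u` is constant. -/
theorem along_const (hp : Continuous p)
    {w : Chart n X → Cm n → Matrix (Fin n) (Fin n) ℂ} (hI : ImmY n m (fun y : V₁ => p y))
    (hconn : IsPreconnected V₁) {u : V₁ → ℝ} {B : ℝ} (hu : Along p w V₁ u B)
    {g : Cm m → E} {t : Cm m} (hg : ∀ᶠ s in 𝓝 t, g s ∈ V₁ ∧ HolTo (n := n) p g s)
    (hinj : ∃ e : Chart n X, At e (p (g t)) ∧
      Function.Injective (fderiv ℂ (fun s => e (p (g s))) t))
    (hz : ∀ᶠ s in 𝓝 t,
      fderiv ℝ (fun s => if h : g s ∈ V₁ then u ⟨g s, h⟩ else 0) s = 0) (y y' : V₁) :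
    u y = u y' := by
  set y₁ : V₁ := ⟨g t, hg.self_of_nhds.1⟩ with hy₁
  obtain ⟨c, hyc, hc⟩ := hI.ch y₁
  set γ : Cm m → V₁ := fun s => if h : g s ∈ V₁ then ⟨g s, h⟩ else y₁ with hγ
  have hγ0 : γ t = y₁ := by
    rw [hγ]
    exact dif_pos hg.self_of_nhds.1
  have hγv : ∀ᶠ s in 𝓝 t, (γ s : E) = g s := by
    filter_upwards [hg] with s hs
    simp only [hγ, dif_pos hs.1]
  have hγc : ContinuousAt γ t := by
    rw [Topology.IsInducing.subtypeVal.continuousAt_iff]
    refine ContinuousAt.congr hg.self_of_nhds.2.1 ?_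
    filter_upwards [hγv] with s hs
    exact hs.symm
  have hd : ∀ᶠ s in 𝓝 t, ∀ e : Chart n X, At e (p (γ s)) →
      DifferentiableAt ℂ (fun s => e (p (γ s))) s := by
    filter_upwards [hg, hγv.eventually_nhds] with s hs hs2 e he
    have h1 : (fun s => e (p (γ s))) =ᶠ[𝓝 s] fun s => e (p (g s)) := by
      filter_upwards [hs2] with x hx
      rw [hx]
    rw [hs2.self_of_nhds] at he
    exact (hs.2.2 e he).congr_of_eventuallyEq h1
  obtain ⟨hτ, hD⟩ := tau_omega (ι := fun y : V₁ => p y)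
    (hp.comp continuous_subtype_val) hc hγc (by rw [hγ0]; exact hyc) hd
  -- the derivative of `τ` is invertible
  have hinj2 : Function.Injective (fderiv ℂ (fun s => c (γ s)) t) := by
    obtain ⟨e, he, hinj⟩ := hinj
    have h1 := hD e (by rw [hγ0]; exact he)
    have h2 : (fun s => e (p (γ s))) =ᶠ[𝓝 t] fun s => e (p (g s)) := by
      filter_upwards [hγv] with x hx
      rw [hx]
    rw [h2.fderiv_eq] at h1
    rw [h1] at hinj
    exact Function.Injective.of_comp (f := fderiv ℂ (fun z => e (p (c.symm z))) (c (γ t))) hinj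
  have hsurj : Function.Surjective (fderiv ℂ (fun s => c (γ s)) t) :=
    (LinearMap.injective_iff_surjective
      (f := (fderiv ℂ (fun s => c (γ s)) t : Cm m →ₗ[ℂ] Cm m))).1 hinj2
  have hmap : map (fun s => c (γ s)) (𝓝 t) = 𝓝 (c (γ t)) :=
    (hτ.hasStrictFDerivAt (by simp)).map_nhds_eq_of_surj (LinearMap.range_eq_top.2 hsurj)
  -- `u ∘ γ` is constant near `t`
  have hU : (fun s => if h : g s ∈ V₁ then u ⟨g s, h⟩ else 0) =ᶠ[𝓝 t] fun s => u (γ s) := by
    filter_upwards [hg] with s hs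
    have h3 : γ s = ⟨g s, hs.1⟩ := dif_pos hs.1
    rw [dif_pos hs.1, ← h3]
  have hc1 : ∀ᶠ s in 𝓝 t, u (γ s) = u (γ t) := by
    obtain ⟨r, hr, hball⟩ := Metric.eventually_nhds_iff_ball.1
      (hz.and ((hu m g t hg).1.and hU.eventually_nhds))
    have h1 : ∀ s ∈ ball t r, (if h : g s ∈ V₁ then u ⟨g s, h⟩ else 0) =
        if h : g t ∈ V₁ then u ⟨g t, h⟩ else 0 := by
      intro s hs
      exact isOpen_ball.is_const_of_fderiv_eq_zero (𝕜 := ℝ)
        (f := fun s => if h : g s ∈ V₁ then u ⟨g s, h⟩ else 0)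
        (convex_ball t r).isPreconnected
        (fun y hy => ((hball y hy).2.1.1.differentiableAt (by simp)).differentiableWithinAt)
        (fun y hy => (hball y hy).1) hs (mem_ball_self hr)
    filter_upwards [ball_mem_nhds t hr] with s hs
    have h2 := (hball s hs).2.2.self_of_nhds
    have h3 := hU.self_of_nhds
    simp only at h2 h3
    rw [← h2, ← h3]
    exact h1 s hs
  have hc2 : ∀ᶠ z in 𝓝 (c y₁), u (c.symm z) = u (γ t) := by
    rw [← hγ0, ← hmap, eventually_map]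
    have hsrc : ∀ᶠ s in 𝓝 t, γ s ∈ c.source :=
      hγc.eventually (c.open_source.mem_nhds (by rw [hγ0]; exact hyc))
    filter_upwards [hc1, hsrc] with s hs hs2
    rw [c.left_inv hs2, hs]
  have hc3 : ∀ᶠ y in 𝓝 y₁, u y = u (γ t) := by
    filter_upwards [(c.continuousAt hyc).eventually hc2, c.open_source.mem_nhds hyc] with y h1 h2
    rwa [c.left_inv h2] at h1
  rw [along_const_of_eventually hI hconn hu hc3 y,
    along_const_of_eventually hI hconn hu hc3 y']

/-- the connected components of a regular fibre are open in the fibre -/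
theorem comp_open [IsManifold 𝓘(ℂ, Cm n) ω X] (hp : IsCoveringMap p)
    {w : Chart n X → Cm n → Matrix (Fin n) (Fin n) ℂ} {F : E → Cm N}
    (hF : ∃ B, HolB p w F B) {x : E} (hreg : ∀ y, F y = F x → Reg (n := n) p F y)
    (hmn : m + N = n) :
    ∃ O : Set E, IsOpen O ∧ connectedComponentIn (F ⁻¹' {F x}) x = F ⁻¹' {F x} ∩ O := by
  have hI : ImmY n m (fun y : (F ⁻¹' {F x} : Set E) => p y) :=
    immY_val hp hF (fun y hy => hy) ⟨univ, isOpen_univ, (inter_univ _).symm⟩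
      (fun y hy => hreg y hy) hmn
  let := hI.cs
  have : LocallyConnectedSpace (F ⁻¹' {F x} : Set E) :=
    ChartedSpace.locallyConnectedSpace (Cm m) _
  have hx : x ∈ F ⁻¹' {F x} := rfl
  have h1 : IsOpen (connectedComponent (⟨x, hx⟩ : (F ⁻¹' {F x} : Set E))) :=
    isOpen_connectedComponent
  obtain ⟨O, hO, hOe⟩ := isOpen_induced_iff.1 h1
  refine ⟨O, hO, ?_⟩
  rw [connectedComponentIn_eq_image hx, ← hOe, Subtype.image_preimage_coe, inter_comm]
  try rw [inter_comm]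

end

end Vale.Agent.P284.H730.G
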