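import Vale.Agent.P284.H894.G.Defs
import Mathlib.GroupTheory.Finiteness
import Mathlib.Analysis.SpecialFunctions.Log.Basic
import Mathlib.Order.Filter.AtTopBot.Archimedean

/-!
# P284 (helper730): Milnor's lemma: in a group of subexponential growth, kernels of homomorphisms of
finitely generated subgroups to `ℤ` are finitely generated
-/

open scoped Pointwise
open Set

noncomputable section

namespace Vale.Agent.P284.H730.Mil

open Vale.Agent.P284.H894.G

section
variable {Γ : Type*} [Group Γ]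

/-- the conjugates `t^i g t^{-i}`, `i < m` -/
def cj (t g : Γ) (m : ℕ) : Set Γ := {x | ∃ i < m, x = t ^ i * g * (t ^ i)⁻¹}

theorem cj_mono (t g : Γ) {m k : ℕ} (h : m ≤ k) : cj t g m ⊆ cj t g k := by
  rintro x ⟨i, hi, rfl⟩
  exact ⟨i, hi.trans_le h, rfl⟩

theorem cj_finite (t g : Γ) (m : ℕ) : (cj t g m).Finite := by
  refine ((Set.finite_lt_nat m).image fun i => t ^ i * g * (t ^ i)⁻¹).subset ?_
  rintro x ⟨i, hi, rfl⟩
  exact ⟨i, hi, rfl⟩

/-- products of the conjugates -/
def pr (t g : Γ) : ℕ → (ℕ → Bool) → Γ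
  | 0, _ => 1
  | m + 1, e => pr t g m e * (t ^ m * (if e m then g else 1) * (t ^ m)⁻¹)

theorem pr_mem (t g : Γ) (m : ℕ) (e : ℕ → Bool) : pr t g m e ∈ Subgroup.closure (cj t g m) := by
  induction m with
  | zero => exact one_mem _
  | succ m ih =>
    rw [pr]
    refine mul_mem (Subgroup.closure_mono (cj_mono t g m.le_succ) ih) ?_
    split_ifs
    · exact Subgroup.subset_closure ⟨m, m.lt_succ_self, rfl⟩
    · rw [mul_one, mul_inv_cancel]; exact one_mem _

theorem pr_inj {t g : Γ} (h : ∀ m, t ^ m * g * (t ^ m)⁻¹ ∉ Subgroup.closure (cj t g m)) (m : ℕ)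
    (e e' : ℕ → Bool) (he : pr t g m e = pr t g m e') : ∀ i < m, e i = e' i := by
  induction m with
  | zero => intro i hi; omega
  | succ m ih =>
    rw [pr, pr] at he
    have key : ∀ a a' : ℕ → Bool, a m = true → a' m = false →
        pr t g m a * (t ^ m * g * (t ^ m)⁻¹) ≠ pr t g m a' * (t ^ m * 1 * (t ^ m)⁻¹) := by
      intro a a' _ _ heq
      apply h m
      rw [mul_one, mul_inv_cancel, mul_one] at heq
      have h1 : t ^ m * g * (t ^ m)⁻¹ = (pr t g m a)⁻¹ * pr t g m a' := by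
        rw [← heq]; group
      rw [h1]
      exact mul_mem (inv_mem (pr_mem t g m a)) (pr_mem t g m a')
    have hm : e m = e' m := by
      cases h1 : e m <;> cases h2 : e' m
      · rfl
      · exfalso
        rw [h1, h2] at he
        simp only [Bool.false_eq_true, if_false, if_true] at he
        exact key e' e h2 h1 he.symm
      · exfalso
        rw [h1, h2] at he
        simp only [Bool.false_eq_true, if_false, if_true] at he
        exact key e e' h1 h2 he
      · rfl
    rw [hm] at he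
    have h3 := mul_right_cancel he
    intro i hi
    rcases Nat.lt_succ_iff_lt_or_eq.1 hi with h4 | h4
    · exact ih h3 i h4
    · rw [h4]; exact hm

theorem pr_pow (t g : Γ) (m : ℕ) (e : ℕ → Bool) : pr t g m e * t ^ m ∈ ({t, g * t} : Set Γ) ^ m := by
  induction m with
  | zero => simp [pr]
  | succ m ih =>
    have h1 : pr t g (m + 1) e * t ^ (m + 1) =
        (pr t g m e * t ^ m) * ((if e m then g else 1) * t) := by
      rw [pr, pow_succ]; group
    rw [h1, pow_succ]
    refine Set.mul_mem_mul ih ?_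
    split_ifs
    · exact Or.inr rfl
    · left; rw [one_mul]

theorem exists_rel (hgr : SubexpGrowth Γ) (t g : Γ) :
    ∃ m, t ^ m * g * (t ^ m)⁻¹ ∈ Subgroup.closure (cj t g m) := by
  classical
  by_contra hcon
  push Not at hcon
  have hfin : ({t, g * t} : Set Γ).Finite := by simp
  obtain ⟨C, hC⟩ := hgr _ hfin (Real.log 2 / 2) (by positivity)
  have hle : ∀ m : ℕ, (2 : ℝ) ^ m ≤ C * Real.exp (Real.log 2 / 2 * m) := by
    intro m
    refine le_trans ?_ (hC m)
    have hSf : (({t, g * t} : Set Γ) ^ m).Finite := by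
      induction m with
      | zero => rw [pow_zero]; exact Set.finite_one
      | succ m ih => rw [pow_succ]; exact ih.mul hfin
    let f : (Fin m → Bool) → Γ := fun e =>
      pr t g m (fun i => if h : i < m then e ⟨i, h⟩ else false) * t ^ m
    have hf : Function.Injective f := by
      intro e e' hee
      have h1 := pr_inj hcon m _ _ (mul_right_cancel hee)
      funext i
      have h2 := h1 i i.2
      simpa using h2
    have h1 : (Set.range f).ncard = 2 ^ m := by
      rw [← Set.image_univ, Set.ncard_image_of_injective _ hf, Set.ncard_univ]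
      simp
    have h2 : (Set.range f).ncard ≤ (({t, g * t} : Set Γ) ^ m).ncard :=
      Set.ncard_le_ncard (by
        rintro _ ⟨e, rfl⟩
        exact pr_pow t g m _) hSf
    rw [h1] at h2
    exact_mod_cast h2
  have hexp : ∀ m : ℕ, Real.exp (Real.log 2 / 2 * m) ≤ C := by
    intro m
    have h1 := hle m
    have h2 : (2 : ℝ) ^ m = Real.exp (Real.log 2 / 2 * m) * Real.exp (Real.log 2 / 2 * m) := by
      rw [← Real.exp_add, ← Real.exp_log (show (0 : ℝ) < 2 by norm_num), ← Real.exp_nat_mul]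
      congr 1
      rw [Real.exp_log (by norm_num)]
      ring
    rw [h2] at h1
    exact le_of_mul_le_mul_right h1 (Real.exp_pos _)
  have hlog : 0 < Real.log 2 / 2 := by positivity
  obtain ⟨m, hm⟩ := exists_nat_gt (C / (Real.log 2 / 2))
  have h1 := hexp m
  have h2 : Real.log 2 / 2 * m + 1 ≤ Real.exp (Real.log 2 / 2 * m) := Real.add_one_le_exp _
  rw [div_lt_iff₀ hlog] at hm
  linarith

/-- all conjugates by nonnegative powers -/
theorem conj_mem {t g : Γ} {m : ℕ} (h : t ^ m * g * (t ^ m)⁻¹ ∈ Subgroup.closure (cj t g m)) :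
    ∀ x ∈ Subgroup.closure (cj t g m), t * x * t⁻¹ ∈ Subgroup.closure (cj t g m) := by
  intro x hx
  induction hx using Subgroup.closure_induction with
  | mem x hx =>
    obtain ⟨i, hi, rfl⟩ := hx
    have h1 : t * (t ^ i * g * (t ^ i)⁻¹) * t⁻¹ = t ^ (i + 1) * g * (t ^ (i + 1))⁻¹ := by
      rw [pow_succ']; group
    rw [h1]
    rcases Nat.lt_or_ge (i + 1) m with h2 | h2
    · exact Subgroup.subset_closure ⟨i + 1, h2, rfl⟩
    · have h3 : i + 1 = m := by omega
      rw [h3]; exact h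
  | one => simp
  | mul x y _ _ hx hy =>
    have h1 : t * (x * y) * t⁻¹ = (t * x * t⁻¹) * (t * y * t⁻¹) := by group
    rw [h1]; exact mul_mem hx hy
  | inv x _ hx =>
    have h1 : t * x⁻¹ * t⁻¹ = (t * x * t⁻¹)⁻¹ := by group
    rw [h1]; exact inv_mem hx

/-- a finite set of conjugates of `g` generating a subgroup normalised by `t` and containing `g` -/
theorem exists_norm (hgr : SubexpGrowth Γ) (t g : Γ) : ∃ A : Set Γ, A.Finite ∧
    (∀ x ∈ A, ∃ k : ℤ, x = t ^ k * g * (t ^ k)⁻¹) ∧ g ∈ Subgroup.closure A ∧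
    (∀ x ∈ Subgroup.closure A, t * x * t⁻¹ ∈ Subgroup.closure A) ∧
    ∀ x ∈ Subgroup.closure A, t⁻¹ * x * t ∈ Subgroup.closure A := by
  obtain ⟨m, hm⟩ := exists_rel hgr t g
  obtain ⟨k, hk⟩ := exists_rel hgr t⁻¹ g
  have h1 := conj_mem hm
  have h2 := conj_mem hk
  -- `g` and its conjugates
  have hg1 : ∀ j : ℕ, t ^ j * g * (t ^ j)⁻¹ ∈ Subgroup.closure (cj t g m) := by
    intro j
    rcases Nat.lt_or_ge j m with h | h
    · exact Subgroup.subset_closure ⟨j, h, rfl⟩
    · obtain ⟨i, rfl⟩ := Nat.exists_eq_add_of_le h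
      induction i with
      | zero => exact hm
      | succ i ih =>
        have h3 := h1 _ (ih (Nat.le_add_right _ _))
        have h4 : t * (t ^ (m + i) * g * (t ^ (m + i))⁻¹) * t⁻¹ =
            t ^ (m + (i + 1)) * g * (t ^ (m + (i + 1)))⁻¹ := by
          rw [← add_assoc, pow_succ']; group
        rwa [h4] at h3
  have hg2 : ∀ j : ℕ, t⁻¹ ^ j * g * (t⁻¹ ^ j)⁻¹ ∈ Subgroup.closure (cj t⁻¹ g k) := by
    intro j
    rcases Nat.lt_or_ge j k with h | h
    · exact Subgroup.subset_closure ⟨j, h, rfl⟩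
    · obtain ⟨i, rfl⟩ := Nat.exists_eq_add_of_le h
      induction i with
      | zero => exact hk
      | succ i ih =>
        have h3 := h2 _ (ih (Nat.le_add_right _ _))
        have h4 : t⁻¹ * (t⁻¹ ^ (k + i) * g * (t⁻¹ ^ (k + i))⁻¹) * t⁻¹⁻¹ =
            t⁻¹ ^ (k + (i + 1)) * g * (t⁻¹ ^ (k + (i + 1)))⁻¹ := by
          rw [← add_assoc, pow_succ']; group
        rwa [h4] at h3
  set A : Set Γ := cj t g m ∪ cj t⁻¹ g k with hA
  have hA1 : Subgroup.closure (cj t g m) ≤ Subgroup.closure A :=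
    Subgroup.closure_mono subset_union_left
  have hA2 : Subgroup.closure (cj t⁻¹ g k) ≤ Subgroup.closure A :=
    Subgroup.closure_mono subset_union_right
  -- all integer conjugates lie in the closure
  have hall : ∀ j : ℤ, t ^ j * g * (t ^ j)⁻¹ ∈ Subgroup.closure A := by
    intro j
    rcases Int.eq_nat_or_neg j with ⟨i, rfl | rfl⟩
    · have h3 := hA1 (hg1 i)
      simpa using h3
    · have h3 := hA2 (hg2 i)
      have h4 : t⁻¹ ^ i * g * (t⁻¹ ^ i)⁻¹ = t ^ (-(i : ℤ)) * g * (t ^ (-(i : ℤ)))⁻¹ := by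
        rw [zpow_neg, zpow_natCast, inv_pow]
      rwa [h4] at h3
  have hform : ∀ x ∈ A, ∃ j : ℤ, x = t ^ j * g * (t ^ j)⁻¹ := by
    rintro x (⟨i, -, rfl⟩ | ⟨i, -, rfl⟩)
    · exact ⟨i, by simp⟩
    · exact ⟨-i, by rw [zpow_neg, zpow_natCast, inv_pow]⟩
  refine ⟨A, (cj_finite _ _ _).union (cj_finite _ _ _), hform, ?_, ?_, ?_⟩
  · have := hall 0
    simpa using this
  · intro x hx
    induction hx using Subgroup.closure_induction with
    | mem x hx =>
      obtain ⟨j, rfl⟩ := hform x hx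
      have h3 : t * (t ^ j * g * (t ^ j)⁻¹) * t⁻¹ = t ^ (j + 1) * g * (t ^ (j + 1))⁻¹ := by
        rw [add_comm, zpow_add, zpow_one]; group
      rw [h3]; exact hall _
    | one => simp
    | mul x y _ _ hx hy =>
      have h3 : t * (x * y) * t⁻¹ = (t * x * t⁻¹) * (t * y * t⁻¹) := by group
      rw [h3]; exact mul_mem hx hy
    | inv x _ hx =>
      have h3 : t * x⁻¹ * t⁻¹ = (t * x * t⁻¹)⁻¹ := by group
      rw [h3]; exact inv_mem hx
  · intro x hx
    induction hx using Subgroup.closure_induction with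
    | mem x hx =>
      obtain ⟨j, rfl⟩ := hform x hx
      have h3 : t⁻¹ * (t ^ j * g * (t ^ j)⁻¹) * t = t ^ (j - 1) * g * (t ^ (j - 1))⁻¹ := by
        rw [sub_eq_neg_add, zpow_add, zpow_neg_one]; group
      rw [h3]; exact hall _
    | one => simp
    | mul x y _ _ hx hy =>
      have h3 : t⁻¹ * (x * y) * t = (t⁻¹ * x * t) * (t⁻¹ * y * t) := by group
      rw [h3]; exact mul_mem hx hy
    | inv x _ hx =>
      have h3 : t⁻¹ * x⁻¹ * t = (t⁻¹ * x * t)⁻¹ := by group
      rw [h3]; exact inv_mem hx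

/-- **Milnor's lemma** -/
theorem milnor (hgr : SubexpGrowth Γ) (H : Subgroup Γ) (hH : H.FG) (φ : Γ → ℤ)
    (hφ : ∀ g ∈ H, ∀ h ∈ H, φ (g * h) = φ g + φ h) (H' : Subgroup Γ)
    (hH' : ∀ g, g ∈ H' ↔ g ∈ H ∧ φ g = 0) : H'.FG := by
  classical
  have h1 : φ 1 = 0 := by
    have := hφ 1 (one_mem _) 1 (one_mem _)
    rw [mul_one] at this
    omega
  have hinv : ∀ g ∈ H, φ g⁻¹ = -φ g := by
    intro g hg
    have := hφ g hg g⁻¹ (inv_mem hg)
    rw [mul_inv_cancel, h1] at this
    omega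
  have hzp : ∀ g ∈ H, ∀ k : ℤ, φ (g ^ k) = k * φ g := by
    intro g hg k
    have hn : ∀ m : ℕ, φ (g ^ m) = m * φ g := by
      intro m
      induction m with
      | zero => simp [h1]
      | succ m ih =>
        rw [pow_succ, hφ _ (pow_mem hg m) g hg, ih]
        push_cast
        ring
    rcases Int.eq_nat_or_neg k with ⟨i, rfl | rfl⟩
    · rw [zpow_natCast]; exact hn i
    · rw [zpow_neg, zpow_natCast, hinv _ (pow_mem hg i), hn]
      ring
  -- a generator of the image
  let I : AddSubgroup ℤ :=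
    { carrier := φ '' (H : Set Γ)
      add_mem' := by
        rintro _ _ ⟨g, hg, rfl⟩ ⟨h, hh, rfl⟩
        exact ⟨g * h, mul_mem hg hh, hφ g hg h hh⟩
      zero_mem' := ⟨1, one_mem _, h1⟩
      neg_mem' := by rintro _ ⟨g, hg, rfl⟩; exact ⟨g⁻¹, inv_mem hg, hinv g hg⟩ }
  obtain ⟨d, hd⟩ := Int.subgroup_cyclic I
  have hdI : d ∈ I := by rw [hd]; exact AddSubgroup.subset_closure rfl
  obtain ⟨t, ht, htd⟩ := hdI
  have hdiv : ∀ g ∈ H, ∃ k : ℤ, φ g = k * d := by
    intro g hg
    have h2 : φ g ∈ I := ⟨g, hg, rfl⟩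
    rw [hd, AddSubgroup.mem_closure_singleton] at h2
    obtain ⟨k, hk⟩ := h2
    exact ⟨k, by rw [← hk]; simp⟩
  obtain ⟨S, hS⟩ := hH
  have hSH : ∀ s ∈ S, s ∈ H := fun s hs => by rw [← hS]; exact Subgroup.subset_closure hs
  choose! κ hκ using hdiv
  -- the elements of the kernel
  choose A hAf hAform hAg hA1 hA2 using fun g : Γ => exists_norm hgr t g
  set B : Set Γ := ⋃ s ∈ S, A (s * (t ^ κ s)⁻¹) with hB
  have hBf : B.Finite := S.finite_toSet.biUnion fun s _ => hAf _
  have hcl : ∀ s ∈ S, Subgroup.closure (A (s * (t ^ κ s)⁻¹)) ≤ Subgroup.closure B := fun s hs =>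
    Subgroup.closure_mono (subset_biUnion_of_mem (u := fun s => A (s * (t ^ κ s)⁻¹)) hs)
  have hn1 : ∀ x ∈ Subgroup.closure B, t * x * t⁻¹ ∈ Subgroup.closure B := by
    intro x hx
    induction hx using Subgroup.closure_induction with
    | mem x hx =>
      obtain ⟨s, hs, hx⟩ := mem_iUnion₂.1 hx
      exact hcl s hs (hA1 _ x (Subgroup.subset_closure hx))
    | one => simp
    | mul x y _ _ hx hy =>
      have h3 : t * (x * y) * t⁻¹ = (t * x * t⁻¹) * (t * y * t⁻¹) := by group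
      rw [h3]; exact mul_mem hx hy
    | inv x _ hx =>
      have h3 : t * x⁻¹ * t⁻¹ = (t * x * t⁻¹)⁻¹ := by group
      rw [h3]; exact inv_mem hx
  have hn2 : ∀ x ∈ Subgroup.closure B, t⁻¹ * x * t ∈ Subgroup.closure B := by
    intro x hx
    induction hx using Subgroup.closure_induction with
    | mem x hx =>
      obtain ⟨s, hs, hx⟩ := mem_iUnion₂.1 hx
      exact hcl s hs (hA2 _ x (Subgroup.subset_closure hx))
    | one => simp
    | mul x y _ _ hx hy =>
      have h3 : t⁻¹ * (x * y) * t = (t⁻¹ * x * t) * (t⁻¹ * y * t) := by group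
      rw [h3]; exact mul_mem hx hy
    | inv x _ hx =>
      have h3 : t⁻¹ * x⁻¹ * t = (t⁻¹ * x * t)⁻¹ := by group
      rw [h3]; exact inv_mem hx
  have hn : ∀ (k : ℤ), ∀ x ∈ Subgroup.closure B, t ^ k * x * (t ^ k)⁻¹ ∈ Subgroup.closure B := by
    intro k
    have hp : ∀ m : ℕ, ∀ x ∈ Subgroup.closure B, t ^ m * x * (t ^ m)⁻¹ ∈ Subgroup.closure B := by
      intro m
      induction m with
      | zero => intro x hx; simpa using hx
      | succ m ih =>
        intro x hx
        have h3 : t ^ (m + 1) * x * (t ^ (m + 1))⁻¹ = t * (t ^ m * x * (t ^ m)⁻¹) * t⁻¹ := by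
          rw [pow_succ']; group
        rw [h3]; exact hn1 _ (ih x hx)
    have hm : ∀ m : ℕ, ∀ x ∈ Subgroup.closure B, (t ^ m)⁻¹ * x * t ^ m ∈ Subgroup.closure B := by
      intro m
      induction m with
      | zero => intro x hx; simpa using hx
      | succ m ih =>
        intro x hx
        have h3 : (t ^ (m + 1))⁻¹ * x * t ^ (m + 1) = t⁻¹ * ((t ^ m)⁻¹ * x * t ^ m) * t := by
          rw [pow_succ]; group
        rw [h3]; exact hn2 _ (ih x hx)
    intro x hx
    rcases Int.eq_nat_or_neg k with ⟨i, rfl | rfl⟩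
    · rw [zpow_natCast]; exact hp i x hx
    · rw [zpow_neg, zpow_natCast, inv_inv]; exact hm i x hx
  -- `B` lies in the kernel
  have hgs : ∀ s ∈ S, s * (t ^ κ s)⁻¹ ∈ H ∧ φ (s * (t ^ κ s)⁻¹) = 0 := by
    intro s hs
    have hs1 := hSH s hs
    have ht1 : t ^ κ s ∈ H := zpow_mem ht _
    refine ⟨mul_mem hs1 (inv_mem ht1), ?_⟩
    rw [hφ _ hs1 _ (inv_mem ht1), hinv _ ht1, hzp t ht, htd, hκ s hs1]
    ring
  have hBk : B ⊆ H' := by
    intro x hx
    obtain ⟨s, hs, hx⟩ := mem_iUnion₂.1 hx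
    obtain ⟨k, rfl⟩ := hAform _ x hx
    obtain ⟨h2, h3⟩ := hgs s hs
    have ht1 : t ^ k ∈ H := zpow_mem ht _
    refine (hH' _).2 ⟨mul_mem (mul_mem ht1 h2) (inv_mem ht1), ?_⟩
    rw [hφ _ (mul_mem ht1 h2) _ (inv_mem ht1), hφ _ ht1 _ h2, hinv _ ht1, h3]
    ring
  have hBle : Subgroup.closure B ≤ H' := (Subgroup.closure_le _).2 hBk
  -- every element of `H` is `n t^k`
  have hdec : ∀ h ∈ H, ∃ x ∈ Subgroup.closure B, ∃ k : ℤ, h = x * t ^ k := by
    intro h hh
    rw [← hS] at hh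
    induction hh using Subgroup.closure_induction with
    | mem s hs =>
      exact ⟨s * (t ^ κ s)⁻¹, hcl s hs (hAg _), κ s, by group⟩
    | one => exact ⟨1, one_mem _, 0, by simp⟩
    | mul a b _ _ ha hb =>
      obtain ⟨x, hx, k, rfl⟩ := ha
      obtain ⟨y, hy, l, rfl⟩ := hb
      refine ⟨x * (t ^ k * y * (t ^ k)⁻¹), mul_mem hx (hn k y hy), k + l, ?_⟩
      rw [zpow_add]; group
    | inv a _ ha =>
      obtain ⟨x, hx, k, rfl⟩ := ha
      refine ⟨t ^ (-k) * x⁻¹ * (t ^ (-k))⁻¹, hn (-k) _ (inv_mem hx), -k, ?_⟩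
      rw [mul_inv_rev, inv_mul_cancel_right, zpow_neg]
  -- conclusion
  by_cases hd0 : d = 0
  · have h2 : H' = H := by
      ext g
      rw [hH']
      refine ⟨fun h => h.1, fun h => ⟨h, ?_⟩⟩
      rw [hκ g h, hd0, mul_zero]
    rw [h2]
    exact ⟨S, hS⟩
  · refine ⟨hBf.toFinset, ?_⟩
    rw [Finite.coe_toFinset]
    refine le_antisymm hBle ?_
    intro h hh
    obtain ⟨h2, h3⟩ := (hH' h).1 hh
    obtain ⟨x, hx, k, rfl⟩ := hdec h h2
    have hxH := (hH' x).1 (hBle hx)
    rw [hφ x hxH.1 _ (zpow_mem ht k), hxH.2, hzp t ht, htd, zero_add] at h3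
    have h4 : k = 0 := by
      rcases mul_eq_zero.1 h3 with h | h
      · exact h
      · exact absurd h hd0
    rw [h4, zpow_zero, mul_one]
    exact hx

/-- several homomorphisms to `ℤ` -/
theorem milnor_list (hgr : SubexpGrowth Γ) (G : Subgroup Γ) (hG : G.FG) {ι : Type*} (s : Finset ι)
    (φ : ι → Γ → ℤ) (hφ : ∀ i ∈ s, ∀ g ∈ G, ∀ h ∈ G, φ i (g * h) = φ i g + φ i h) (K : Subgroup Γ)
    (hK : ∀ g, g ∈ K ↔ g ∈ G ∧ ∀ i ∈ s, φ i g = 0) : K.FG := by
  classical
  induction s using Finset.induction_on generalizing K with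
  | empty =>
    have : K = G := by ext g; rw [hK]; simp
    rw [this]; exact hG
  | insert a s ha ih =>
    -- the intermediate group
    have h1 : ∀ i ∈ s, φ i 1 = 0 := by
      intro i hi
      have := hφ i (Finset.mem_insert_of_mem hi) 1 (one_mem _) 1 (one_mem _)
      rw [mul_one] at this
      omega
    let H : Subgroup Γ :=
      { carrier := {g | g ∈ G ∧ ∀ i ∈ s, φ i g = 0}
        mul_mem' := by
          rintro x y ⟨hx, hx'⟩ ⟨hy, hy'⟩
          refine ⟨mul_mem hx hy, fun i hi => ?_⟩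
          rw [hφ i (Finset.mem_insert_of_mem hi) x hx y hy, hx' i hi, hy' i hi, add_zero]
        one_mem' := ⟨one_mem _, h1⟩
        inv_mem' := by
          rintro x ⟨hx, hx'⟩
          refine ⟨inv_mem hx, fun i hi => ?_⟩
          have := hφ i (Finset.mem_insert_of_mem hi) x hx x⁻¹ (inv_mem hx)
          rw [mul_inv_cancel, h1 i hi, hx' i hi] at this
          omega }
    have hH : H.FG := ih (fun i hi => hφ i (Finset.mem_insert_of_mem hi)) H fun g => Iff.rfl
    refine milnor hgr H hH (φ a) (fun g hg h hh => hφ a (Finset.mem_insert_self _ _) g hg.1 h hh.1)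
      K fun g => ?_
    rw [hK]
    constructor
    · rintro ⟨h2, h3⟩
      exact ⟨⟨h2, fun i hi => h3 i (Finset.mem_insert_of_mem hi)⟩, h3 a (Finset.mem_insert_self _ _)⟩
    · rintro ⟨⟨h2, h3⟩, h4⟩
      refine ⟨h2, fun i hi => ?_⟩
      rcases Finset.mem_insert.1 hi with rfl | h
      · exact h4
      · exact h3 i h

end

end Vale.Agent.P284.H730.Mil
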