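import Vale.Agent.P272.K.QN.H705.Pull
import Vale.Agent.P284.H894.V.Spec
import Vale.Agent.P268.Hol
import Mathlib.Analysis.Calculus.InverseFunctionTheorem.ContDiff

/-!
# P284, next theorem, S5-GEO, part 1: a space `Y` with a continuous map `ι` to a complex manifold `X`
which is, in local charts of `Y`, a holomorphic immersion, is a complex manifold
-/

open scoped Manifold ContDiff Topology Pointwise ComplexConjugate ComplexOrder Matrix
open Filter Set Metric

noncomputable section

namespace Vale.Agent.P284.H730.G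

open Vale.Agent.P272.K

variable {n m : ℕ} {X : Type} [TopologicalSpace X] [ChartedSpace (Cm n) X]
  {Y : Type} [TopologicalSpace Y]

variable (n) in
/-- in the local chart `c` of `Y` the map `ι : Y → X` is a holomorphic immersion -/
def Imm (ι : Y → X) (c : OpenPartialHomeomorph Y (Cm m)) : Prop :=
  ∀ z ∈ c.target, ∀ e : Chart n X, At e (ι (c.symm z)) →
    DifferentiableAt ℂ (fun z' => e (ι (c.symm z'))) z ∧
    Function.Injective (fderiv ℂ (fun z' => e (ι (c.symm z'))) z)

variable (n m) in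
/-- `ι : Y → X` is locally a holomorphic immersion of `ℂᵐ` -/
structure ImmY (ι : Y → X) : Prop where
  cont : Continuous ι
  ch : ∀ y, ∃ c : OpenPartialHomeomorph Y (Cm m), y ∈ c.source ∧ Imm n ι c

lemma Imm.omega {ι : Y → X} (hι : Continuous ι) {c : OpenPartialHomeomorph Y (Cm m)}
    (hc : Imm n ι c) {z : Cm m} (hz : z ∈ c.target) {e : Chart n X} (he : At e (ι (c.symm z))) :
    ContDiffAt ℂ ω (fun z' => e (ι (c.symm z'))) z := by
  have hU : IsOpen (c.target ∩ c.symm ⁻¹' (ι ⁻¹' e.source)) :=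
    c.isOpen_inter_preimage_symm (e.open_source.preimage hι)
  have hd : DifferentiableOn ℂ (fun z' => e (ι (c.symm z')))
      (c.target ∩ c.symm ⁻¹' (ι ⁻¹' e.source)) := fun z' hz' =>
    (hc z' hz'.1 e ⟨he.1, hz'.2⟩).1.differentiableWithinAt
  exact (Vale.Agent.P268.analyticAt_of_differentiableOn hU hd ⟨hz, he.2⟩).contDiffAt

/-- a continuous map is holomorphic if its composition with an immersion is holomorphic -/
lemma contDiffAt_of_comp {g' : Cm m → Cm n} {k : ℕ} {g : Cm k → Cm n} {τ : Cm k → Cm m}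
    {z : Cm k} (hg' : ContDiffAt ℂ ω g' (τ z))
    (hinj : Function.Injective (fderiv ℂ g' (τ z))) (hg : ContDiffAt ℂ ω g z)
    (hτ : ContinuousAt τ z) (h : ∀ᶠ y in 𝓝 z, g y = g' (τ y)) : ContDiffAt ℂ ω τ z := by
  obtain ⟨L, hL⟩ := ((fderiv ℂ g' (τ z) : Cm m →L[ℂ] Cm n) :
    Cm m →ₗ[ℂ] Cm n).exists_leftInverse_of_injective (LinearMap.ker_eq_bot.2 hinj)
  set L' : Cm n →L[ℂ] Cm m := LinearMap.toContinuousLinearMap L with hL'
  have hcomp : L'.comp (fderiv ℂ g' (τ z)) = ContinuousLinearMap.id ℂ (Cm m) := by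
    ext v
    have := LinearMap.congr_fun hL v
    exact congrFun this _
  have h1 : ContDiffAt ℂ ω (fun y => L' (g' y)) (τ z) := L'.contDiff.contDiffAt.comp _ hg'
  have h2 : HasFDerivAt (fun y => L' (g' y))
      ((ContinuousLinearEquiv.refl ℂ (Cm m) : Cm m ≃L[ℂ] Cm m) : Cm m →L[ℂ] Cm m) (τ z) := by
    have h3 := L'.hasFDerivAt.comp (τ z) (hg'.differentiableAt (by simp)).hasFDerivAt
    rw [hcomp] at h3
    exact h3
  set Θ := h1.toOpenPartialHomeomorph (fun y => L' (g' y)) h2 (by simp) with hΘ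
  have hsrc : τ z ∈ Θ.source := h1.mem_toOpenPartialHomeomorph_source h2 (by simp)
  have h4 : ContDiffAt ℂ ω Θ.symm (L' (g' (τ z))) := h1.to_localInverse h2 (by simp)
  have h5 : τ =ᶠ[𝓝 z] fun y => Θ.symm (L' (g y)) := by
    filter_upwards [h, hτ.eventually (Θ.open_source.mem_nhds hsrc)] with y hy hy2
    rw [hy]
    exact (Θ.left_inv hy2).symm
  refine ContDiffAt.congr_of_eventuallyEq ?_ h5
  have h6 : g z = g' (τ z) := h.self_of_nhds
  refine ContDiffAt.comp (g := Θ.symm) z ?_ (L'.contDiff.contDiffAt.comp z hg)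
  simp only [h6]
  exact h4

lemma Imm.trans {ι : Y → X} (hι : Continuous ι) {c c' : OpenPartialHomeomorph Y (Cm m)}
    (hc : Imm n ι c) (hc' : Imm n ι c') {z : Cm m} (hz : z ∈ c.target) (hz' : c.symm z ∈ c'.source) :
    ContDiffAt ℂ ω (fun z => c' (c.symm z)) z := by
  set e := chartAt (Cm n) (ι (c.symm z)) with he
  have hAt : At e (ι (c.symm z)) := ⟨chart_mem_atlas _ _, mem_chart_source _ _⟩
  have h1 : c'.symm (c' (c.symm z)) = c.symm z := c'.left_inv hz'
  have hAt' : At e (ι (c'.symm (c' (c.symm z)))) := by rw [h1]; exact hAt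
  have hm : c' (c.symm z) ∈ c'.target := c'.map_source hz'
  refine contDiffAt_of_comp (g' := fun y => e (ι (c'.symm y))) (g := fun y => e (ι (c.symm y)))
    (hc'.omega hι hm hAt') (hc' _ hm e hAt').2 (hc.omega hι hz hAt) ?_ ?_
  · exact ContinuousAt.comp (c'.continuousAt hz') (c.continuousAt_symm hz)
  · filter_upwards [(c.continuousAt_symm hz).eventually (c'.open_source.mem_nhds hz')] with y hy
    rw [c'.left_inv hy]

/-- the complex structure of `Y` -/
@[reducible] def ImmY.cs {ι : Y → X} (h : ImmY n m ι) : ChartedSpace (Cm m) Y where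
  atlas := {c | Imm n ι c}
  chartAt y := (h.ch y).choose
  mem_chart_source y := (h.ch y).choose_spec.1
  chart_mem_atlas y := (h.ch y).choose_spec.2

lemma ImmY.isManifold {ι : Y → X} (h : ImmY n m ι) :
    @IsManifold ℂ _ (Cm m) _ _ (Cm m) _ 𝓘(ℂ, Cm m) ω Y _ h.cs := by
  let := h.cs
  refine isManifold_of_contDiffOn 𝓘(ℂ, Cm m) ω Y fun e e' he he' z hz => ?_
  have hz' : z ∈ (e.symm ≫ₕ e').source := by simpa using hz.1
  rw [OpenPartialHomeomorph.trans_source] at hz'
  have := Imm.trans h.cont (he : Imm n ι e) (he' : Imm n ι e') (z := z) hz'.1 hz'.2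
  exact this.contDiffWithinAt

lemma ImmY.contMDiff [IsManifold 𝓘(ℂ, Cm n) ω X] {ι : Y → X} (h : ImmY n m ι) :
    letI := h.cs
    ContMDiff 𝓘(ℂ, Cm m) 𝓘(ℂ, Cm n) ω ι := by
  let := h.cs
  intro y
  rw [contMDiffAt_iff]
  refine ⟨h.cont.continuousAt, ?_⟩
  have h1 : Imm n ι (chartAt (Cm m) y) := chart_mem_atlas (Cm m) y
  have h2 : (chartAt (Cm m) y).symm (chartAt (Cm m) y y) = y :=
    (chartAt (Cm m) y).left_inv (mem_chart_source _ y)
  have h3 : At (chartAt (Cm n) (ι y)) (ι ((chartAt (Cm m) y).symm (chartAt (Cm m) y y))) := by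
    rw [h2]; exact ⟨chart_mem_atlas _ _, mem_chart_source _ _⟩
  exact (h1.omega h.cont ((chartAt (Cm m) y).map_source (mem_chart_source _ y)) h3).contDiffWithinAt

/-! ### the pull-back of a Kähler metric -/

open Vale.Agent.P272.K.QN Vale.Agent.P272.K.C2

lemma pl_closed {H : Cm n → Matrix (Fin n) (Fin n) ℂ} {G : Cm m → Cm n} {z : Cm m}
    (hH : MC 1 H (G z)) (h : ContDiffAt ℂ ω G z)
    (hcl : ∀ i j k, dz k (fun y => H y i j) (G z) = dz i (fun y => H y k j) (G z))
    (i j k : Fin m) :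
    dz k (fun y => pl H G y i j) z = dz i (fun y => pl H G y k j) z := by
  have hA : HolR (fun y => (jm G y)ᵀ) z := hol_jmT h
  have hHG : MC 1 (fun y => H (G y)) z := MC_comp_F hH h
  have key : ∀ i k : Fin m, dz k (fun y => pl H G y i j) z =
      ∑ b, ((∑ a, dz k (fun y => jm G y a i) z * H (G z) a b) +
        ∑ a, jm G z a i * ∑ p, jm G z p k * dz p (fun y => H y a b) (G z)) *
          (starRingEnd ℂ) (jm G z b j) := by
    intro i k
    have h1 := congrFun (congrFun (DM_lawR hA hHG k) i) j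
    rw [C2.DM_apply] at h1
    rw [show (fun y => pl H G y i j) = fun y => ((jm G y)ᵀ * H (G y) * ((jm G y)ᵀ)ᴴ) i j from rfl,
      h1, Matrix.mul_apply]
    refine Finset.sum_congr rfl fun b _ => ?_
    congr 1
    rw [Matrix.add_apply, Matrix.mul_apply, Matrix.mul_apply]
    congr 1
    refine Finset.sum_congr rfl fun a _ => ?_
    rw [Matrix.transpose_apply, DM_comp_F hH h, Matrix.sum_apply]
    rfl
  rw [key i k, key k i]
  refine Finset.sum_congr rfl fun b _ => ?_
  congr 2
  · refine Finset.sum_congr rfl fun a _ => ?_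
    congr 1
    have h2 : ∀ l : Fin m, (fun y => jm G y a l) =ᶠ[𝓝 z] dz l (fun y => G y a) := fun l =>
      Eventually.of_forall fun y => rfl
    rw [C2.dz_congr k (h2 i), C2.dz_congr i (h2 k)]
    refine C2.dz_dz_comm k i ?_
    have h3 : ContDiffAt ℂ ω (fun y => G y a) z := (contDiffAt_pi.1 h) a
    exact (h3.restrict_scalars ℝ).of_le le_top
  · simp only [Finset.mul_sum]
    rw [Finset.sum_comm]
    refine Finset.sum_congr rfl fun a _ => Finset.sum_congr rfl fun p _ => ?_
    rw [hcl p b a]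
    ring

lemma pl_posDef {H : Matrix (Fin n) (Fin n) ℂ} (hH : H.PosDef) {J : Matrix (Fin n) (Fin m) ℂ}
    (hJ : Function.Injective J.mulVec) : (Jᵀ * H * J.map (starRingEnd ℂ)).PosDef := by
  have h1 : Function.Injective (J.map (starRingEnd ℂ)).mulVec := by
    have h2 : ∀ v : Fin m → ℂ, (J.map (starRingEnd ℂ)).mulVec v =
        fun i => (starRingEnd ℂ) (J.mulVec (fun j => (starRingEnd ℂ) (v j)) i) := by
      intro v
      ext i
      simp [Matrix.mulVec, dotProduct, map_sum]
    intro v v' hv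
    rw [h2, h2] at hv
    have h3 : J.mulVec (fun j => (starRingEnd ℂ) (v j)) =
        J.mulVec (fun j => (starRingEnd ℂ) (v' j)) := by
      ext i
      exact (starRingEnd ℂ).injective (congrFun hv i)
    have h4 := hJ h3
    ext j
    exact (starRingEnd ℂ).injective (congrFun h4 j)
  have h2 := hH.conjTranspose_mul_mul_same h1
  have h3 : (J.map (starRingEnd ℂ))ᴴ = Jᵀ := by
    ext i j; simp [Matrix.conjTranspose_apply, Matrix.map_apply]
  rwa [h3] at h2

/-- the pull-back of a Kähler metric by an immersion -/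
theorem isKahler_pb [IsManifold 𝓘(ℂ, Cm n) ω X] {ι : Y → X} (h : ImmY n m ι)
    {w : Chart n X → Cm n → Matrix (Fin n) (Fin n) ℂ} (hw : IsKahler w) :
    letI := h.cs
    IsKahler (n := m) (X := Y) (pb ι w) := by
  let := h.cs
  have := h.isManifold
  have hF := h.contMDiff
  have hS := isSemi_pb hF hw.toIsHermitian
  have hlocal : ∀ (c : Chart m Y) (y : Y), At c y → ∀ e : Chart n X, At e (ι y) →
      Function.Injective (jm (loc ι c e) (c y)).mulVec := by
    intro c y hc e he
    have h1 : Imm n ι c := hc.1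
    have h2 : At e (ι (c.symm (c y))) := by rw [hc.left_inv]; exact he
    obtain ⟨h3, h4⟩ := h1 (c y) hc.mem_target e h2
    intro v v' hv
    apply h4
    ext p
    have h5 := jm_mulVec (F := loc ι c e) h3 v p
    have h6 := jm_mulVec (F := loc ι c e) h3 v' p
    have h7 := congrFun hv p
    simp only [Matrix.mulVec, dotProduct] at h7
    rw [← h5, ← h6] at h7
    exact h7
  refine ⟨⟨hS.smooth, fun c y hc => ?_, hS.change⟩, fun c y hc i j k => ?_⟩
  · have he : At (chartAt (Cm n) (ι y)) (ι y) := ⟨chart_mem_atlas _ _, mem_chart_source _ _⟩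
    rw [pb_apply hF hw.toIsHermitian hc he]
    unfold pl
    rw [loc_apply hc]
    exact pl_posDef (hw.posDef _ _ he) (hlocal c y hc _ he)
  · have he : At (chartAt (Cm n) (ι y)) (ι y) := ⟨chart_mem_atlas _ _, mem_chart_source _ _⟩
    have hev := pb_eventually hF hw.toIsHermitian hc he
    have h1 : ∀ i j, (fun z => pb ι w c z i j) =ᶠ[𝓝 (c y)]
        fun z => pl (w (chartAt (Cm n) (ι y))) (loc ι c (chartAt (Cm n) (ι y))) z i j := by
      intro i j
      filter_upwards [hev] with z hz
      rw [hz]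
    rw [C2.dz_congr k (h1 i j), C2.dz_congr i (h1 k j)]
    refine pl_closed ?_ (loc_contDiffAt hF hc he) ?_ i j k
    · rw [loc_apply hc]
      intro a b
      exact (hw.smooth _ _ he a b).of_le (by exact_mod_cast le_top)
    · rw [loc_apply hc]
      exact hw.closed _ _ he

end Vale.Agent.P284.H730.G
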