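import Vale.Agent.P284.H894.G.Defs
import Mathlib.Topology.Covering.Quotient

/-!
# P284, next theorem, S5-GEO, part 2: topology of the quotient of a piece `V₁` of a Galois covering by
a subgroup `S` of the Galois group
-/

open scoped Topology Pointwise
open Topology
open Filter Set

noncomputable section

namespace Vale.Agent.P284.H730.G

open Vale.Agent.P284.H894.G

variable {X : Type} [TopologicalSpace X] {E Γ : Type} [TopologicalSpace E] [Group Γ] [MulAction Γ E]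

/-- the action of `S` on `V₁` -/
@[reducible] def act (S : Subgroup Γ) (V₁ : Set E) (hinv : ∀ s ∈ S, ∀ y ∈ V₁, s • y ∈ V₁) :
    MulAction S V₁ where
  smul s y := ⟨(s : Γ) • (y : E), hinv s s.2 y y.2⟩
  one_smul y := Subtype.ext (one_smul Γ (y : E))
  mul_smul s t y := Subtype.ext (mul_smul (s : Γ) (t : Γ) (y : E))

/-- `V₁ / S` -/
def Qt (S : Subgroup Γ) (V₁ : Set E) (hinv : ∀ s ∈ S, ∀ y ∈ V₁, s • y ∈ V₁) : Type :=
  @Quotient V₁ (@MulAction.orbitRel S V₁ _ (act S V₁ hinv))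

section
variable (S : Subgroup Γ) (V₁ : Set E) (hinv : ∀ s ∈ S, ∀ y ∈ V₁, s • y ∈ V₁)

instance : TopologicalSpace (Qt S V₁ hinv) :=
  inferInstanceAs (TopologicalSpace (@Quotient V₁ (@MulAction.orbitRel S V₁ _ (act S V₁ hinv))))

/-- the projection `V₁ → V₁ / S` -/
def mkQ : V₁ → Qt S V₁ hinv := @Quotient.mk V₁ (@MulAction.orbitRel S V₁ _ (act S V₁ hinv))

lemma mkQ_isQuotientMap : IsQuotientMap (mkQ S V₁ hinv) := isQuotientMap_quotient_mk'

omit [TopologicalSpace E] in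
lemma mkQ_eq {y y' : V₁} : mkQ S V₁ hinv y = mkQ S V₁ hinv y' ↔
    ∃ s ∈ S, s • (y : E) = y' := by
  let := act S V₁ hinv
  constructor
  · intro h
    have h1 : y ∈ MulAction.orbit S y' := Quotient.exact h
    obtain ⟨s, hs⟩ := h1
    refine ⟨((s : Γ))⁻¹, S.inv_mem s.2, ?_⟩
    rw [← hs]
    exact inv_smul_smul (s : Γ) (y' : E)
  · rintro ⟨s, hs, h⟩
    refine Quotient.sound (?_ : y ∈ MulAction.orbit S y')
    refine ⟨⟨s⁻¹, S.inv_mem hs⟩, Subtype.ext ?_⟩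
    change s⁻¹ • (y' : E) = y
    rw [← h, inv_smul_smul]

end

section
variable {p : E → X} (hp : IsGalois Γ p)

include hp in
/-- a neighbourhood on which `p` is injective -/
lemma exists_inj (y : E) : ∃ U : Set E, IsOpen U ∧ y ∈ U ∧ InjOn p U := by
  obtain ⟨e, he, rfl⟩ := hp.cov.isLocalHomeomorph y
  exact ⟨e.source, e.open_source, he, e.injOn⟩

variable {S : Subgroup Γ} {V₁ : Set E} (hinv : ∀ s ∈ S, ∀ y ∈ V₁, s • y ∈ V₁)

include hp in
lemma quotientCov : letI := act S V₁ hinv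
    IsQuotientCoveringMap (mkQ S V₁ hinv) S := by
  let := act S V₁ hinv
  have h1 := mkQ_isQuotientMap S V₁ hinv
  refine (isQuotientCoveringMap_iff ..).2 ⟨h1, ⟨fun s => ?_⟩, ?_, fun y => ?_⟩
  · exact Continuous.subtype_mk ((hp.cont s).comp continuous_subtype_val) _
  · intro y y'
    rw [mkQ_eq]
    constructor
    · rintro ⟨s, hs, h⟩
      refine ⟨⟨s⁻¹, S.inv_mem hs⟩, Subtype.ext ?_⟩
      change s⁻¹ • (y' : E) = y
      rw [← h, inv_smul_smul]
    · rintro ⟨s, hs⟩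
      refine ⟨((s : Γ))⁻¹, S.inv_mem s.2, ?_⟩
      rw [← hs]
      exact inv_smul_smul (s : Γ) (y' : E)
  · obtain ⟨U, hU, hy, hinj⟩ := exists_inj hp (y : E)
    refine ⟨Subtype.val ⁻¹' U, (hU.preimage continuous_subtype_val).mem_nhds hy, ?_⟩
    rintro g ⟨_, ⟨x, hx, rfl⟩, hgx⟩
    have h2 : p ((g : Γ) • (x : E)) = p x := ((hp.orb _ _).2 ⟨g, rfl⟩).symm
    have h3 : (g : Γ) • (x : E) = x := hinj hgx hx h2
    exact Subtype.ext (hp.free _ _ h3)

include hp in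
lemma isGalois_mkQ : letI := act S V₁ hinv
    IsGalois S (mkQ S V₁ hinv) := by
  let := act S V₁ hinv
  have h := quotientCov hp hinv
  refine ⟨h.isCoveringMap, h.surjective, fun s => ?_, fun s y hy => ?_, fun y y' => ?_⟩
  · exact Continuous.subtype_mk ((hp.cont s).comp continuous_subtype_val) _
  · exact Subtype.ext (hp.free _ _ (congrArg Subtype.val hy))
  · rw [mkQ_eq]
    constructor
    · rintro ⟨s, hs, h⟩
      exact ⟨⟨s, hs⟩, Subtype.ext h⟩
    · rintro ⟨s, h⟩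
      exact ⟨s, s.2, congrArg Subtype.val h⟩

/-- the map `V₁ / S → X` induced by `p` -/
def toX : Qt S V₁ hinv → X :=
  @Quotient.lift _ _ (@MulAction.orbitRel S V₁ _ (act S V₁ hinv)) (fun y : V₁ => p y) (by
    intro y y' h
    obtain ⟨s, hs, h1⟩ := (mkQ_eq S V₁ hinv).1 (Quotient.sound h)
    exact (hp.orb _ _).2 ⟨s, h1⟩)

@[simp] lemma toX_mkQ (y : V₁) : toX hp hinv (mkQ S V₁ hinv y) = p y := rfl

lemma continuous_toX : Continuous (toX hp hinv) :=
  (mkQ_isQuotientMap S V₁ hinv).continuous_iff.2 (hp.cov.continuous.comp continuous_subtype_val)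

include hp in
lemma t2_Qt [T2Space X] : T2Space (Qt S V₁ hinv) := by
  refine ⟨fun a b hab => ?_⟩
  obtain ⟨y, rfl⟩ := (mkQ_isQuotientMap S V₁ hinv).surjective a
  obtain ⟨y', rfl⟩ := (mkQ_isQuotientMap S V₁ hinv).surjective b
  by_cases h : p y = p y'
  · obtain ⟨γ, hγ⟩ := (hp.orb _ _).1 h
    have hγS : γ ∉ S := fun hs => hab ((mkQ_eq S V₁ hinv).2 ⟨γ, hs, hγ⟩)
    obtain ⟨U, hU, hy, hinj⟩ := exists_inj hp (y : E)
    let := act S V₁ hinv
    have hopen : IsOpenMap (mkQ S V₁ hinv) := (quotientCov hp hinv).isOpenQuotientMap.isOpenMap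
    have hU' : IsOpen ((fun x : E => γ⁻¹ • x) ⁻¹' U) := hU.preimage (hp.cont _)
    refine ⟨mkQ S V₁ hinv '' (Subtype.val ⁻¹' U),
      mkQ S V₁ hinv '' (Subtype.val ⁻¹' ((fun x : E => γ⁻¹ • x) ⁻¹' U)),
      hopen _ (hU.preimage continuous_subtype_val), hopen _ (hU'.preimage continuous_subtype_val),
      ⟨y, hy, rfl⟩, ⟨y', ?_, rfl⟩, ?_⟩
    · change γ⁻¹ • (y' : E) ∈ U
      rw [← hγ, inv_smul_smul]
      exact hy
    · rw [Set.disjoint_left]
      rintro _ ⟨u, hu, rfl⟩ ⟨u', hu', hEq⟩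
      obtain ⟨s, hs, h1⟩ := (mkQ_eq S V₁ hinv).1 hEq
      -- `s • u' = u`
      have hu'' : γ⁻¹ • (u' : E) ∈ U := hu'
      have h2 : p (γ⁻¹ • (u' : E)) = p u := by
        rw [← h1]
        rw [← (hp.orb (u' : E) (γ⁻¹ • (u' : E))).2 ⟨_, rfl⟩]
        exact (hp.orb _ _).2 ⟨_, rfl⟩
      have h3 : γ⁻¹ • (u' : E) = u := hinj hu'' hu h2
      have h4 : (s⁻¹ * γ⁻¹) • (u' : E) = u' := by
        rw [mul_smul, h3, ← h1, inv_smul_smul]
      have h5 := hp.free _ _ h4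
      apply hγS
      have h6 : γ = s⁻¹ := by
        rw [mul_eq_one_iff_eq_inv, inv_inv] at h5
        exact h5.symm
      rw [h6]
      exact S.inv_mem hs
  · obtain ⟨A, B, hA, hB, hyA, hyB, hAB⟩ := t2_separation h
    refine ⟨toX hp hinv ⁻¹' A, toX hp hinv ⁻¹' B, hA.preimage (continuous_toX hp hinv),
      hB.preimage (continuous_toX hp hinv), hyA, hyB, hAB.preimage _⟩

omit [TopologicalSpace X] in
lemma compact_Qt (hV : IsClosed V₁)
    (hQ : ∃ Q : Set E, IsCompact Q ∧ ∀ y ∈ V₁, ∃ s ∈ S, s • y ∈ Q) :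
    CompactSpace (Qt S V₁ hinv) := by
  obtain ⟨Q, hQ, hQ'⟩ := hQ
  have h1 : IsCompact (Subtype.val ⁻¹' Q : Set V₁) :=
    hV.isClosedEmbedding_subtypeVal.isCompact_preimage hQ
  have h2 : mkQ S V₁ hinv '' (Subtype.val ⁻¹' Q : Set V₁) = univ := by
    refine eq_univ_of_forall fun a => ?_
    obtain ⟨y, rfl⟩ := (mkQ_isQuotientMap S V₁ hinv).surjective a
    obtain ⟨s, hs, h3⟩ := hQ' y y.2
    exact ⟨⟨s • (y : E), hinv s hs y y.2⟩, h3,
      ((mkQ_eq S V₁ hinv).2 ⟨s, hs, rfl⟩).symm⟩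
  exact ⟨h2 ▸ h1.image (mkQ_isQuotientMap S V₁ hinv).continuous⟩

lemma connected_Qt (hV : IsConnected V₁) : ConnectedSpace (Qt S V₁ hinv) := by
  have := isConnected_iff_connectedSpace.1 hV
  exact (mkQ_isQuotientMap S V₁ hinv).surjective.connectedSpace
    (mkQ_isQuotientMap S V₁ hinv).continuous

end

end Vale.Agent.P284.H730.G
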