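import Vale.Agent.P284.H730.S5G1
import Vale.Agent.P284.H730.S5G2
import Vale.Agent.P284.H894.W.Spec

/-!
# P284, next theorem, S5-GEO, part 3: charts of `V₁ / S`
-/

open scoped Manifold ContDiff Topology Pointwise ComplexConjugate ComplexOrder Matrix
open Filter Set Metric

noncomputable section

namespace Vale.Agent.P284.H730.G

open Vale.Agent.P272.K Vale.Agent.P284.H894.G Vale.Agent.P284.H894.W

section
variable {n m : ℕ} {X : Type} [TopologicalSpace X] [ChartedSpace (Cm n) X]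
  {Y : Type} [TopologicalSpace Y]

lemma imm_of_local [IsManifold 𝓘(ℂ, Cm n) ω X] {ι : Y → X} (hι : Continuous ι)
    {c : OpenPartialHomeomorph Y (Cm m)}
    {e : Chart n X} (he : e ∈ atlas (Cm n) X) (g : Cm m → Cm n) (L : Cm n →L[ℂ] Cm m)
    (h1 : ∀ z ∈ c.target, ι (c.symm z) = e.symm (g z)) (h2 : ∀ z ∈ c.target, g z ∈ e.target)
    (h3 : ∀ z ∈ c.target, DifferentiableAt ℂ g z) (h4 : ∀ z ∈ c.target, L (g z) = z) :
    Imm n ι c := by
  intro z hz e' he'
  have hz1 : e.symm (g z) = ι (c.symm z) := (h1 z hz).symm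
  have hAt : At e (ι (c.symm z)) := by rw [← hz1]; exact ⟨he, e.map_target (h2 z hz)⟩
  have hez : e (ι (c.symm z)) = g z := by rw [← hz1]; exact e.right_inv (h2 z hz)
  have hev : (fun z' => e' (ι (c.symm z'))) =ᶠ[𝓝 z] fun z' => e' (e.symm (g z')) := by
    filter_upwards [c.open_target.mem_nhds hz] with z' hz'
    rw [h1 z' hz']
  have hT : DifferentiableAt ℂ (fun x => e' (e.symm x)) (g z) := by
    have := transition_differentiableAt hAt he'
    rwa [hez] at this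
  have hd : DifferentiableAt ℂ (fun z' => e' (ι (c.symm z'))) z :=
    (DifferentiableAt.comp (g := fun x => e' (e.symm x)) z hT (h3 z hz)).congr_of_eventuallyEq hev
  refine ⟨hd, ?_⟩
  have hK : DifferentiableAt ℂ (fun x => L (e (e'.symm x))) (e' (ι (c.symm z))) :=
    L.differentiableAt.comp _ (transition_differentiableAt he' hAt)
  have hid : (fun z' => L (e (e'.symm (e' (ι (c.symm z')))))) =ᶠ[𝓝 z] fun z' => z' := by
    have hcont : ContinuousAt (fun z' => ι (c.symm z')) z :=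
      hι.continuousAt.comp (c.continuousAt_symm hz)
    filter_upwards [c.open_target.mem_nhds hz,
      hcont.eventually (e'.open_source.mem_nhds he'.2)] with z' hz' hz2
    have hz2' : ι (c.symm z') ∈ e'.source := hz2
    rw [e'.left_inv hz2', h1 z' hz', e.right_inv (h2 z' hz'), h4 z' hz']
  have hcomp := (DifferentiableAt.hasFDerivAt hK).comp z hd.hasFDerivAt
  have hcomp2 : HasFDerivAt (fun z' : Cm m => z') _ z := hcomp.congr_of_eventuallyEq hid.symm
  have h5 := hcomp2.unique (hasFDerivAt_id z)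
  intro v v' hv
  have h6 := congrArg (fun T : Cm m →L[ℂ] Cm m => T v) h5
  have h7 := congrArg (fun T : Cm m →L[ℂ] Cm m => T v') h5
  simp only [ContinuousLinearMap.comp_apply, ContinuousLinearMap.id_apply] at h6 h7
  rw [← h6, ← h7, hv]

/-- the local chart of `V = {Ψ₁ = a}` -/
def slice {E A B : Type*} [TopologicalSpace E] [TopologicalSpace A] [TopologicalSpace B]
    (Ψ : OpenPartialHomeomorph E (A × B)) (V : Set E) (a : A) (v₀ : V)
    (hV : ∀ x ∈ Ψ.source, x ∈ V ↔ (Ψ x).1 = a) : OpenPartialHomeomorph V B where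
  toFun x := (Ψ x).2
  invFun b := open Classical in if h : Ψ.symm (a, b) ∈ V then ⟨Ψ.symm (a, b), h⟩ else v₀
  source := Subtype.val ⁻¹' Ψ.source
  target := {b | (a, b) ∈ Ψ.target}
  map_source' x hx := by
    have h1 : (Ψ x).1 = a := (hV x hx).1 x.2
    have h2 : (a, (Ψ x).2) = Ψ x := by rw [← h1]
    change (a, (Ψ x).2) ∈ Ψ.target
    rw [h2]
    exact Ψ.map_source hx
  map_target' b hb := by
    have h1 : Ψ.symm (a, b) ∈ Ψ.source := Ψ.map_target hb
    have h2 : Ψ.symm (a, b) ∈ V := (hV _ h1).2 (by rw [Ψ.right_inv hb])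
    simp only [dif_pos h2]
    exact h1
  left_inv' x hx := by
    have h1 : (Ψ x).1 = a := (hV x hx).1 x.2
    have h2 : (a, (Ψ x).2) = Ψ x := by rw [← h1]
    have h3 : Ψ.symm (a, (Ψ x).2) = x := by rw [h2]; exact Ψ.left_inv hx
    have h4 : Ψ.symm (a, (Ψ x).2) ∈ V := by rw [h3]; exact x.2
    simp only [dif_pos h4]
    exact Subtype.ext h3
  right_inv' b hb := by
    have h1 : Ψ.symm (a, b) ∈ Ψ.source := Ψ.map_target hb
    have h2 : Ψ.symm (a, b) ∈ V := (hV _ h1).2 (by rw [Ψ.right_inv hb])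
    simp only [dif_pos h2]
    rw [Ψ.right_inv hb]
  open_source := Ψ.open_source.preimage continuous_subtype_val
  open_target := Ψ.open_target.preimage (by fun_prop)
  continuousOn_toFun := by
    refine continuous_snd.comp_continuousOn ?_
    exact Ψ.continuousOn.comp continuous_subtype_val.continuousOn fun x hx => hx
  continuousOn_invFun := by
    rw [Topology.IsInducing.subtypeVal.continuousOn_iff]
    have h1 : ContinuousOn (fun b => Ψ.symm (a, b)) {b | (a, b) ∈ Ψ.target} :=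
      Ψ.continuousOn_symm.comp (by fun_prop) fun b hb => hb
    refine h1.congr fun b hb => ?_
    have h1 : Ψ.symm (a, b) ∈ Ψ.source := Ψ.map_target hb
    have h2 : Ψ.symm (a, b) ∈ V := (hV _ h1).2 (by rw [Ψ.right_inv hb])
    simp only [Function.comp_apply, dif_pos h2]

lemma slice_symm {E A B : Type*} [TopologicalSpace E] [TopologicalSpace A] [TopologicalSpace B]
    (Ψ : OpenPartialHomeomorph E (A × B)) (V : Set E) (a : A) (v₀ : V)
    (hV : ∀ x ∈ Ψ.source, x ∈ V ↔ (Ψ x).1 = a) {b : B} (hb : (a, b) ∈ Ψ.target) :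
    ((slice Ψ V a v₀ hV).symm b : E) = Ψ.symm (a, b) := by
  have h1 : Ψ.symm (a, b) ∈ Ψ.source := Ψ.map_target hb
  have h2 : Ψ.symm (a, b) ∈ V := (hV _ h1).2 (by rw [Ψ.right_inv hb])
  have h3 : (slice Ψ V a v₀ hV).symm b = ⟨Ψ.symm (a, b), h2⟩ := dif_pos h2
  rw [h3]

end

/-- a complement of a surjective linear map -/
lemma exists_compl {n N m : ℕ} (hmn : m + N = n) (D : Cm n →L[ℂ] Cm N)
    (hD : Function.Surjective D) :
    ∃ (L : Cm n →L[ℂ] Cm m) (M : Cm n ≃L[ℂ] Cm N × Cm m),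
      (M : Cm n →L[ℂ] Cm N × Cm m) = D.prod L := by
  have hr : LinearMap.range (D : Cm n →ₗ[ℂ] Cm N) = ⊤ := LinearMap.range_eq_top.2 hD
  have hk : Module.finrank ℂ (LinearMap.ker (D : Cm n →ₗ[ℂ] Cm N)) = m := by
    have h1 := (D : Cm n →ₗ[ℂ] Cm N).finrank_range_add_finrank_ker
    rw [hr, finrank_top] at h1
    simp only [Module.finrank_fintype_fun_eq_card, Fintype.card_fin] at h1
    omega
  let κ : LinearMap.ker (D : Cm n →ₗ[ℂ] Cm N) ≃ₗ[ℂ] Cm m :=
    LinearEquiv.ofFinrankEq _ _ (by rw [hk]; simp)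
  obtain ⟨L, hL⟩ := LinearMap.exists_extend (κ : LinearMap.ker (D : Cm n →ₗ[ℂ] Cm N) →ₗ[ℂ] Cm m)
  have hinj : Function.Injective ((D : Cm n →ₗ[ℂ] Cm N).prod L) := by
    rw [← LinearMap.ker_eq_bot, LinearMap.ker_eq_bot']
    intro v hv
    have h1 : D v = 0 := congrArg Prod.fst hv
    have h2 : L v = 0 := congrArg Prod.snd hv
    have h3 := LinearMap.congr_fun hL (⟨v, h1⟩ : LinearMap.ker (D : Cm n →ₗ[ℂ] Cm N))
    have h4 : κ ⟨v, h1⟩ = 0 := by
      rw [← h2]; exact h3.symm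
    have h5 := κ.injective (h4.trans (map_zero κ).symm)
    exact congrArg Subtype.val h5
  have hfr : Module.finrank ℂ (Cm n) = Module.finrank ℂ (Cm N × Cm m) := by
    simp only [Module.finrank_prod, Module.finrank_fintype_fun_eq_card, Fintype.card_fin]
    omega
  refine ⟨LinearMap.toContinuousLinearMap L,
    (LinearEquiv.ofInjectiveOfFinrankEq _ hinj hfr).toContinuousLinearEquiv, ?_⟩
  ext v <;> rfl

/-- inverse function theorem -/
lemma exists_theta {n N m : ℕ} (hmn : m + N = n) {f : Cm n → Cm N} {z₀ : Cm n}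
    (hf : ∀ᶠ z in 𝓝 z₀, DifferentiableAt ℂ f z) (hs : Function.Surjective (fderiv ℂ f z₀)) :
    ∃ (L : Cm n →L[ℂ] Cm m) (Θ : OpenPartialHomeomorph (Cm n) (Cm N × Cm m)),
      z₀ ∈ Θ.source ∧ (∀ z, Θ z = (f z, L z)) ∧
      ∀ ζ ∈ Θ.target, DifferentiableAt ℂ Θ.symm ζ := by
  obtain ⟨L, M, hM⟩ := exists_compl hmn _ hs
  obtain ⟨U, hU, hUo, hz⟩ := _root_.mem_nhds_iff.1 hf
  have hf1 : ContDiffAt ℂ ω f z₀ := by
    have hd : DifferentiableOn ℂ f U := fun z hz => (hU hz : DifferentiableAt ℂ f z).differentiableWithinAt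
    exact (Vale.Agent.P268.analyticAt_of_differentiableOn hUo hd hz).contDiffAt
  have h1 : ContDiffAt ℂ ω (fun z => (f z, L z)) z₀ := hf1.prodMk L.contDiff.contDiffAt
  have h2 : HasFDerivAt (fun z => (f z, L z)) (M : Cm n →L[ℂ] Cm N × Cm m) z₀ := by
    rw [hM]
    exact ((hf1.differentiableAt (by simp)).hasFDerivAt).prodMk L.hasFDerivAt
  set Θ₀ := h1.toOpenPartialHomeomorph (fun z => (f z, L z)) h2 (by simp) with hΘ
  have hsrc : z₀ ∈ Θ₀.source := h1.mem_toOpenPartialHomeomorph_source h2 (by simp)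
  have h4 : ContDiffAt ℂ ω Θ₀.symm (f z₀, L z₀) := h1.to_localInverse h2 (by simp)
  have h5 : ∀ᶠ ζ in 𝓝 (f z₀, L z₀), DifferentiableAt ℂ Θ₀.symm ζ := by
    filter_upwards [h4.eventually (by simp)] with ζ hζ
    exact hζ.differentiableAt (by simp)
  obtain ⟨T, hT, hTo, hzT⟩ := _root_.mem_nhds_iff.1 h5
  have hA : IsOpen (Θ₀.source ∩ Θ₀ ⁻¹' T) := Θ₀.isOpen_inter_preimage hTo
  refine ⟨L, Θ₀.restrOpen _ hA, ?_, fun z => rfl, fun ζ hζ => ?_⟩
  · rw [OpenPartialHomeomorph.restrOpen_source]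
    exact ⟨hsrc, hsrc, hzT⟩
  · have h6 : ζ ∈ Θ₀.target ∧ Θ₀.symm ζ ∈ Θ₀.source ∩ Θ₀ ⁻¹' T := by
      have h7 := (Θ₀.restrOpen _ hA).map_target hζ
      rw [OpenPartialHomeomorph.restrOpen_source] at h7
      refine ⟨?_, h7.2⟩
      exact hζ.1
    have h8 : ζ ∈ T := by
      have := h6.2.2
      rw [Set.mem_preimage, Θ₀.right_inv h6.1] at this
      exact this
    exact hT h8

section
variable {n m N : ℕ} {X : Type} [TopologicalSpace X] [ChartedSpace (Cm n) X]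
  [IsManifold 𝓘(ℂ, Cm n) ω X]
  {E Γ : Type} [TopologicalSpace E] [Group Γ] [MulAction Γ E]
  {p : E → X} (hp : IsGalois Γ p) {S : Subgroup Γ} {V₁ : Set E}
  (hinv : ∀ s ∈ S, ∀ y ∈ V₁, s • y ∈ V₁)

/-- the charts of `V₁ / S` -/
theorem immY_toX {w : Chart n X → Cm n → Matrix (Fin n) (Fin n) ℂ} {F : E → Cm N}
    (hF : ∃ B, HolB p w F B) {y₀ : Cm N} (hV : ∀ y ∈ V₁, F y = y₀)
    (hO : ∃ O : Set E, IsOpen O ∧ V₁ = F ⁻¹' {y₀} ∩ O) (hreg : ∀ y ∈ V₁, Reg (n := n) p F y)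
    (hmn : m + N = n) : ImmY n m (toX hp hinv) := by
  refine ⟨continuous_toX hp hinv, fun a => ?_⟩
  obtain ⟨y, rfl⟩ := (mkQ_isQuotientMap S V₁ hinv).surjective a
  obtain ⟨B, hB⟩ := hF
  obtain ⟨O, hO, hVO⟩ := hO
  obtain ⟨ϕ, hy, hϕ⟩ := hp.cov.isLocalHomeomorph (y : E)
  set e := chartAt (Cm n) (p y) with he
  have hAt : At e (p y) := ⟨chart_mem_atlas _ _, mem_chart_source _ _⟩
  obtain ⟨f, hf1, hf2, -⟩ := hB y e hAt
  have hs := hreg y y.2 e f hAt hf1
  obtain ⟨L, Θ, hz, hΘ, hΘs⟩ := exists_theta hmn hf2 hs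
  obtain ⟨A, hA, hAo, hyA⟩ := _root_.mem_nhds_iff.1 hf1
  have hyO : (y : E) ∈ O := (hVO.le y.2).2
  have hAO : IsOpen (A ∩ O) := hAo.inter hO
  set ψ := (ϕ ≫ₕ e).restrOpen (A ∩ O) hAO with hψ
  set Ψ := ψ ≫ₕ Θ with hΨ
  have hψs : ∀ x, x ∈ ψ.source ↔ (x ∈ ϕ.source ∧ p x ∈ e.source) ∧ x ∈ A ∧ x ∈ O := by
    intro x
    rw [hψ, OpenPartialHomeomorph.restrOpen_source, OpenPartialHomeomorph.trans_source]
    rw [hϕ]
    rfl
  have hψa : ∀ x, ψ x = e (p x) := by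
    intro x
    rw [hϕ]
    rfl
  have hΨs : ∀ x, x ∈ Ψ.source ↔ x ∈ ψ.source ∧ e (p x) ∈ Θ.source := by
    intro x
    rw [hΨ, OpenPartialHomeomorph.trans_source]
    constructor
    · rintro ⟨h1, h2⟩
      exact ⟨h1, by rw [← hψa]; exact h2⟩
    · rintro ⟨h1, h2⟩
      exact ⟨h1, by rw [Set.mem_preimage, hψa]; exact h2⟩
  have hΨa : ∀ x, Ψ x = (f (e (p x)), L (e (p x))) := by
    intro x
    change Θ (ψ x) = _
    rw [hψa, hΘ]
  have hVs : ∀ x ∈ Ψ.source, x ∈ V₁ ↔ (Ψ x).1 = y₀ := by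
    intro x hx
    have h1 := (hψs x).1 ((hΨs x).1 hx).1
    have h2 : F x = f (e (p x)) := hA h1.2.1
    rw [hΨa]
    change _ ↔ f (e (p x)) = y₀
    rw [← h2]
    constructor
    · exact hV x
    · intro h3
      rw [hVO]
      exact ⟨h3, h1.2.2⟩
  let := act S V₁ hinv
  obtain ⟨f₁, hy₁, hf₁⟩ := (quotientCov hp hinv).isCoveringMap.isLocalHomeomorph y
  set cV := slice Ψ V₁ y₀ y hVs with hcV
  have hyΨ : (y : E) ∈ Ψ.source := (hΨs _).2 ⟨(hψs _).2 ⟨⟨hy, hAt.2⟩, hyA, hyO⟩, hz⟩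
  refine ⟨f₁.symm ≫ₕ cV, ?_, ?_⟩
  · rw [OpenPartialHomeomorph.trans_source]
    refine ⟨?_, ?_⟩
    · rw [hf₁]
      exact f₁.map_source hy₁
    · rw [Set.mem_preimage, hf₁, f₁.left_inv hy₁]
      exact hyΨ
  · have hkey : ∀ z ∈ (f₁.symm ≫ₕ cV).target, (y₀, z) ∈ Ψ.target ∧
        (f₁.symm ≫ₕ cV).symm z = mkQ S V₁ hinv (cV.symm z) ∧
        (cV.symm z : E) = Ψ.symm (y₀, z) := by
      intro z hz
      have h1 : z ∈ cV.target := by
        rw [OpenPartialHomeomorph.trans_target] at hz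
        exact hz.1
      refine ⟨h1, ?_, slice_symm Ψ V₁ y₀ y hVs h1⟩
      rw [hf₁]
      rfl
    have hkey2 : ∀ z, (y₀, z) ∈ Ψ.target → (y₀, z) ∈ Θ.target ∧ Θ.symm (y₀, z) ∈ e.target ∧
        p (Ψ.symm (y₀, z)) = e.symm (Θ.symm (y₀, z)) := by
      intro z hz
      have h1 : (y₀, z) ∈ Θ.target ∧ Θ.symm (y₀, z) ∈ ψ.target := by
        rw [hΨ, OpenPartialHomeomorph.trans_target] at hz
        exact hz
      have h2 : Θ.symm (y₀, z) ∈ (ϕ ≫ₕ e).target := h1.2.1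
      rw [OpenPartialHomeomorph.trans_target] at h2
      refine ⟨h1.1, h2.1, ?_⟩
      change p (ϕ.symm (e.symm (Θ.symm (y₀, z)))) = _
      rw [hϕ]
      exact ϕ.right_inv h2.2
    refine imm_of_local (continuous_toX hp hinv) hAt.1 (fun z => Θ.symm (y₀, z)) L ?_ ?_ ?_ ?_
    · intro z hz
      obtain ⟨h1, h2, h3⟩ := hkey z hz
      rw [h2, toX_mkQ, h3]
      exact (hkey2 z h1).2.2
    · intro z hz
      exact (hkey2 z (hkey z hz).1).2.1
    · intro z hz
      have h1 := hΘs _ (hkey2 z (hkey z hz).1).1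
      exact DifferentiableAt.comp (g := Θ.symm) z h1 (by fun_prop)
    · intro z hz
      have h1 := Θ.right_inv (hkey2 z (hkey z hz).1).1
      rw [hΘ] at h1
      exact congrArg Prod.snd h1

end

end Vale.Agent.P284.H730.G
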