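import Vale.Agent.P284.H730.AlbFin
import Vale.Agent.P284.H730.Milnor
import Vale.Agent.P284.H731.Lat
import Vale.Agent.P284.H894.F.DefsC
import Vale.Agent.P284.H465.V19

/-!
# P284, row STR (helper730): structure of the fundamental group from the finite dimension and the rank
-/

open scoped Manifold ContDiff Topology Pointwise
open Filter Set Metric Function

noncomputable section

namespace Vale.Agent.P284.H730.Str

open Vale.Agent.P272.K Vale.Agent.P284.H248 Vale.Agent.P284.H894 Vale.Agent.P284.H894.G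
  Vale.Agent.P284.H894.V Vale.Agent.P284.H894.W Vale.Agent.P284.H894.F Vale.Agent.P284.H894.S

/-- on a simply connected covering -/
theorem str_sc (n : ℕ) (X : Type) [TopologicalSpace X]
    [T2Space X] [CompactSpace X] [ConnectedSpace X]
    [ChartedSpace (Cm n) X] [IsManifold 𝓘(ℂ, Cm n) ω X]
    (w : Chart n X → Cm n → Matrix (Fin n) (Fin n) ℂ) (hw : IsKahler w)
    (E Γ : Type) [TopologicalSpace E] [SimplyConnectedSpace E] [Group Γ] [MulAction Γ E]
    (p : E → X) (hp : IsGalois Γ p)
    (hFD : ∃ V : Submodule ℝ (E → ℝ), FiniteDimensional ℝ V ∧ ∀ u, u ∈ V ↔ ∃ B, IsPHB p w u B)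
    (hR : ∀ (G K : Subgroup Γ) (N : ℕ) (F : E → Cm N) (c : Γ → Cm N), Alb p w G K F c →
      N ≤ n ∧ ∃ y, Reg (n := n) p F y) (hgr : SubexpGrowth Γ) : AbelianByNonIndicable n Γ := by
  classical
  obtain ⟨_, _, _, hfg, -⟩ := H639.V.v15Stmt n X w hw E Γ p hp
  obtain ⟨G, K, N, F, c, hAl⟩ := Alb.alb_of_fd n X w hw E Γ p hp hFD
  obtain ⟨hN, y₀, hy₀⟩ := hR G K N F c hAl
  have hadd := alb_add hAl
  obtain ⟨c', hc', hker⟩ := H731.Lat.latStmt Γ G K N c hadd hAl.mem hAl.disc hAl.span
  have hKG : K ≤ G := fun g hg => ((hAl.mem g).1 hg).1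
  -- `K` is finitely generated
  have hGfg : G.FG := by
    have := hAl.fi
    rw [← Group.fg_iff_subgroup_fg]
    exact Subgroup.fg_of_index_ne_zero _
  have hKfg : K.FG := by
    refine Mil.milnor_list hgr G hGfg (Finset.univ : Finset (Fin (2 * N)))
      (fun i g => if h : g ∈ G then Multiplicative.toAdd (c' ⟨g, h⟩) i else 0) ?_ K ?_
    · intro i _ g hg h hh
      simp only [dif_pos hg, dif_pos hh, dif_pos (G.mul_mem hg hh)]
      have h1 : c' (⟨g * h, G.mul_mem hg hh⟩ : G) = c' ⟨g, hg⟩ * c' ⟨h, hh⟩ := by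
        rw [← map_mul]; rfl
      rw [h1]
      rfl
    · intro g
      constructor
      · intro hg
        refine ⟨hKG hg, fun i _ => ?_⟩
        have h1 : (⟨g, hKG hg⟩ : G) ∈ c'.ker := by
          rw [hker]; exact hg
        rw [MonoidHom.mem_ker] at h1
        simp only [dif_pos (hKG hg), h1]
        rfl
      · rintro ⟨hg, h1⟩
        have h2 : (⟨g, hg⟩ : G) ∈ c'.ker := by
          rw [MonoidHom.mem_ker]
          refine Multiplicative.toAdd.injective (funext fun i => ?_)
          have := h1 i (Finset.mem_univ i)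
          simp only [dif_pos hg] at this
          exact this
        rw [hker] at h2
        exact h2
  have hKf : Group.FG K := (Group.fg_iff_subgroup_fg K).2 hKfg
  -- `K` is not virtually indicable
  have hKv : ¬ VirtIndicable K := by
    intro hv
    obtain ⟨G₂, hG₂, hle, f, B, hf, k, hk, hk0, hfk⟩ :=
      H409.grpStmt Γ hgr hfg G K hAl.fi N c hadd hAl.mem hAl.disc hAl.span hKf hv
    have hsym := stkStmt n X w hw E Γ p hp N F hAl.hol ⟨y₀, hy₀⟩ G₂ c hG₂
      (fun g hg y => hAl.equiv g (hle hg) y) f B hf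
    have h1 := hAl.max G₂ hG₂ hle (fun g => f g - B (c g) (c g) / 2) (by
      intro g hg h hh
      show f (g * h) - B (c (g * h)) (c (g * h)) / 2 = _
      rw [hf g hg h hh, hadd g (hle hg) h (hle hh)]
      simp only [map_add, LinearMap.add_apply]
      rw [hsym (c h) (c g)]
      ring) k hk hk0
    apply hfk
    rw [hk0] at h1
    simpa using h1
  let e : c'.ker ≃* K := (MulEquiv.subgroupCongr hker).trans (Subgroup.subgroupOfEquivOfLe hKG)
  refine ⟨G, 2 * N, c', hAl.fi, by omega, hc', ?_, fun h => hKv ?_⟩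
  · exact Group.fg_of_surjective (f := e.symm.toMonoidHom) e.symm.surjective
  · exact H465.V19.virtIndicable_of_equiv e h

/-- invariance under isomorphisms -/
theorem abni_equiv {n : ℕ} {A B : Type} [Group A] [Group B] (e : A ≃* B)
    (h : AbelianByNonIndicable n A) : AbelianByNonIndicable n B := by
  obtain ⟨G, m, c, h1, h2, h3, h4, h5⟩ := h
  let eG : G.map e.toMonoidHom ≃* G := (e.subgroupMap G).symm
  refine ⟨G.map e.toMonoidHom, m, c.comp eG.toMonoidHom, ?_, h2, h3.comp eG.surjective, ?_, ?_⟩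
  · exact ⟨(Subgroup.index_map_equiv G e).trans_ne h1.index_ne_zero⟩
  all_goals
    let e' : (c.comp eG.toMonoidHom).ker ≃* c.ker :=
      { toFun := fun x => ⟨eG x.1, x.2⟩
        invFun := fun x => ⟨eG.symm x.1, by
          have hx := x.2
          rw [MonoidHom.mem_ker] at hx ⊢
          show c (eG (eG.symm x.1)) = 1
          rw [eG.apply_symm_apply]
          exact hx⟩
        left_inv := fun x => Subtype.ext (eG.symm_apply_apply _)
        right_inv := fun x => Subtype.ext (eG.apply_symm_apply _)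
        map_mul' := fun x y => Subtype.ext (map_mul eG _ _) }
  · exact Group.fg_of_surjective (f := e'.symm.toMonoidHom) e'.symm.surjective
  · exact fun h => h5 (H465.V19.virtIndicable_of_equiv e' h)

end Vale.Agent.P284.H730.Str
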