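import Vale.Agent.P284.H730.Str
import Vale.Agent.P284.H446.VA
import Vale.Agent.P284.H639.S.Span
import Vale.Agent.P284.H66.FDs4
import Vale.Agent.P284.H977.Pi1

/-!
# P284, row STR (helper730): structure of the fundamental group when there are many entire curves of
finite order, up to the rank
-/

open scoped Manifold ContDiff Topology Pointwise
open Filter Set Metric Function

noncomputable section

namespace Vale.Agent.P284.H730.Str

open Vale.Agent.P272.K Vale.Agent.P284.H248 Vale.Agent.P284.H894 Vale.Agent.P284.H894.G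
  Vale.Agent.P284.H894.V Vale.Agent.P284.H894.W Vale.Agent.P284.H894.F

variable {n : ℕ} {X : Type} [TopologicalSpace X] [T2Space X] [CompactSpace X] [ConnectedSpace X]
  [ChartedSpace (Cm n) X] [IsManifold 𝓘(ℂ, Cm n) ω X]
  {w : Chart n X → Cm n → Matrix (Fin n) (Fin n) ℂ}

theorem fd_many (hw : IsHermitian w) (h : ManyCurves w) : H446.K.FDAll w := by
  intro E _ _ p hp hs
  rcases h with ⟨x, hx⟩ | h
  · exact H66.FDs.fdStarZ w hw x hx E p hp hs
  · exact H639.S.fdSpan w hw h E p hp hs

/-- `strC` from the rank lemma -/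
theorem strC_of (hw : IsKahler w) (h : ManyCurves w)
    (hR : ∀ (E Γ : Type) [TopologicalSpace E] [ConnectedSpace E] [Group Γ] [MulAction Γ E]
      (p : E → X), IsGalois Γ p → ∀ (G K : Subgroup Γ) (N : ℕ) (F : E → Cm N) (c : Γ → Cm N),
      Alb p w G K F c → N ≤ n ∧ ∃ y, Reg (n := n) p F y)
    (x : X) (hg : SubexpGrowth (FundamentalGroup X x)) :
    AbelianByNonIndicable n (FundamentalGroup X x) := by
  obtain ⟨Y, Γ, tY, hsc, gΓ, aΓ, π, e, hG⟩ := H977.exists_uc (n := n) X x
  have hpc : PathConnectedSpace Y := inferInstance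
  exact abni_equiv e.symm (str_sc n X w hw Y Γ π hG
    (fd_many hw.toIsHermitian h Y π hG.cov hG.surj) (hR Y Γ π hG)
    (H977.subexpGrowth_of_injective e.symm.toMonoidHom e.symm.injective hg))

end Vale.Agent.P284.H730.Str
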