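import Vale.Agent.P284.H730.StrZ
import Vale.Agent.P284.H639.S.RankSpan

/-!
# P284, row STR (helper730): structure of the fundamental group of a compact Kähler manifold with many
entire curves of finite order, final form
-/

open scoped Manifold ContDiff Topology Pointwise
open Filter Set Metric Function

noncomputable section

namespace Vale.Agent.P284.H730.Str

open Vale.Agent.P272.K Vale.Agent.P284.H248 Vale.Agent.P284.H894 Vale.Agent.P284.H894.G
  Vale.Agent.P284.H894.V Vale.Agent.P284.H894.W Vale.Agent.P284.H894.F

variable {n : ℕ} {X : Type} [TopologicalSpace X] [T2Space X] [CompactSpace X] [ConnectedSpace X]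
  [ChartedSpace (Cm n) X] [IsManifold 𝓘(ℂ, Cm n) ω X]
  {w : Chart n X → Cm n → Matrix (Fin n) (Fin n) ℂ}

/-- **structure theorem**: `ManyCurves` and subexponential growth of `π₁` -/
theorem strC (hw : IsKahler w) (h : ManyCurves w) (x : X)
    (hg : SubexpGrowth (FundamentalGroup X x)) :
    AbelianByNonIndicable n (FundamentalGroup X x) := by
  rcases h with h | h
  · exact strZ hw h x hg
  · refine strC_of hw (Or.inr h) ?_ x hg
    intro E Γ _ _ _ _ p hp G K N F c hA
    exact H639.S.rankSpan hw.toIsHermitian h E Γ p hp G K N F c hA

end Vale.Agent.P284.H730.Str
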