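import Vale.Agent.P284.H730.StrC
import Vale.Agent.P284.H66.Rk5

/-!
# P284, row STR (helper730): one point with Zariski dense directions
-/

open scoped Manifold ContDiff Topology Pointwise
open Filter Set Metric Function

noncomputable section

namespace Vale.Agent.P284.H730.Str

open Vale.Agent.P272.K Vale.Agent.P284.H248 Vale.Agent.P284.H894 Vale.Agent.P284.H894.G
  Vale.Agent.P284.H894.V Vale.Agent.P284.H894.W Vale.Agent.P284.H894.F

variable {n : ℕ} {X : Type} [TopologicalSpace X] [T2Space X] [CompactSpace X] [ConnectedSpace X]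
  [ChartedSpace (Cm n) X] [IsManifold 𝓘(ℂ, Cm n) ω X]
  {w : Chart n X → Cm n → Matrix (Fin n) (Fin n) ℂ}

/-- structure theorem, `CurveDense` at one point -/
theorem strZ (hw : IsKahler w) (h : ∃ x : X, CurveDense w x) (x : X)
    (hg : SubexpGrowth (FundamentalGroup X x)) :
    AbelianByNonIndicable n (FundamentalGroup X x) := by
  obtain ⟨x₀, hx₀⟩ := h
  refine strC_of hw (Or.inl ⟨x₀, hx₀⟩) ?_ x hg
  intro E Γ _ _ _ _ p hp G K N F c hA
  exact H66.Rk.rankZ hw.toIsHermitian hx₀ hp hA

end Vale.Agent.P284.H730.Str
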