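import Vale.Agent.P284.H287.T.Defs
import Vale.Agent.P284.H730.Dn3

/-!
# P284, theorem T, row T3, part 1: the Laplacian of Hilbert-valued functions by components
-/

set_option linter.all false

open scoped Manifold ContDiff Topology Pointwise ComplexConjugate ComplexOrder
open Filter Set Metric MeasureTheory

noncomputable section

namespace Vale.Agent.P284.H730.T

open Vale.Agent.P272.K Vale.Agent.P272.K.C2 Vale.Agent.P284.H894.V Vale.Agent.P284.H359.Fr
  Vale.Agent.P284.H359.V Vale.Agent.P284.H287.T Vale.Agent.P284.H639.V Vale.Agent.P284.H730.A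

section pointwise
variable {n : ℕ} {w : Cm n → Matrix (Fin n) (Fin n) ℂ} {z : Cm n}
  {H : Type} [NormedAddCommGroup H] [InnerProductSpace ℝ H]

theorem pd_smooth {F : Cm n → ℝ} (hF : ContDiffAt ℝ ∞ F z) (v : Cm n) :
    ContDiffAt ℝ ∞ (pd v F) z :=
  ContDiffAt.clm_apply (hF.fderiv_right (m := (⊤ : ℕ∞)) (by simp)) contDiffAt_const

theorem pd_diff {F : Cm n → ℝ} (hF : ContDiffAt ℝ ∞ F z) (v : Cm n) :
    DifferentiableAt ℝ (pd v F) z := (pd_smooth hF v).differentiableAt (by simp)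

/-- the Laplacian in real directions -/
theorem lap_loc {F : Cm n → ℝ} (hF : ContDiffAt ℝ ∞ F z) :
    lap w F z = ∑ a, ∑ b, cw w z a b * pd (ev a) (pd (ev b) F) z := by
  rw [sum_split]
  unfold lap
  have hd1 : ∀ v, DifferentiableAt ℝ (pd v F) z := pd_diff hF
  have hev : ∀ᶠ y in 𝓝 z, DifferentiableAt ℝ F y := by
    have h1 : ContDiffAt ℝ 1 F z := hF.of_le (by exact_mod_cast le_top)
    filter_upwards [h1.eventually (by simp)] with y hy
    exact hy.differentiableAt (by simp)
  have hH : ∀ j k, cHess F z j k =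
      (dz j (fun y => (pd (ev (k, false)) F y : ℂ)) z
        + Complex.I * dz j (fun y => (pd (ev (k, true)) F y : ℂ)) z) / 2 := by
    intro j k
    have e : dzb k (fun y => (F y : ℂ)) =ᶠ[𝓝 z] fun y =>
        ((pd (ev (k, false)) F y : ℂ) + Complex.I * (pd (ev (k, true)) F y : ℂ)) / 2 := by
      filter_upwards [hev] with y hy
      exact dzb_coe hy k
    show dz j (dzb k (fun y => (F y : ℂ))) z = _
    rw [dz_congr j e, dz_lin (hd1 _) (hd1 _)]
  rw [Matrix.trace, Complex.re_sum]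
  simp only [Matrix.diag_apply, Matrix.mul_apply, Complex.re_sum]
  rw [Finset.sum_comm]
  refine Finset.sum_congr rfl fun j _ => ?_
  refine Finset.sum_congr rfl fun k _ => ?_
  rw [hH, dz_coe (hd1 _), dz_coe (hd1 _)]
  unfold cw cf
  simp
  ring

variable {u v : Cm n → H}

theorem cmp_smooth (hu : ContDiffAt ℝ ∞ u z) (η : H) :
    ContDiffAt ℝ ∞ (fun y => inner ℝ (u y) η) z := hu.inner ℝ contDiffAt_const

theorem dH_smooth (hu : ContDiffAt ℝ ∞ u z) (e : Cm n) :
    ContDiffAt ℝ ∞ (fun y => fderiv ℝ u y e) z :=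
  ContDiffAt.clm_apply (hu.fderiv_right (m := (⊤ : ℕ∞)) (by simp)) contDiffAt_const

theorem pd_cmp (hu : DifferentiableAt ℝ u z) (e : Cm n) (η : H) :
    pd e (fun y => inner ℝ (u y) η) z = inner ℝ (fderiv ℝ u z e) η := by
  unfold pd
  rw [fderiv_inner_apply ℝ hu (differentiableAt_const η)]
  simp

theorem diff_ev (hu : ContDiffAt ℝ ∞ u z) : ∀ᶠ y in 𝓝 z, DifferentiableAt ℝ u y := by
  have h1 : ContDiffAt ℝ 1 u z := hu.of_le (by exact_mod_cast le_top)
  filter_upwards [h1.eventually (by simp)] with y hy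
  exact hy.differentiableAt (by simp)

theorem pdpd_cmp (hu : ContDiffAt ℝ ∞ u z) (a b : Fin n × Bool) (η : H) :
    pd (ev a) (pd (ev b) (fun y => inner ℝ (u y) η)) z = inner ℝ (ddH u z a b) η := by
  have e : pd (ev b) (fun y => inner ℝ (u y) η) =ᶠ[𝓝 z]
      fun y => inner ℝ (fderiv ℝ u y (ev b)) η := by
    filter_upwards [diff_ev hu] with y hy
    exact pd_cmp hy (ev b) η
  have h1 : pd (ev a) (pd (ev b) (fun y => inner ℝ (u y) η)) z =
      pd (ev a) (fun y => inner ℝ (fderiv ℝ u y (ev b)) η) z := by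
    unfold pd
    exact congrArg (fun L : Cm n →L[ℝ] ℝ => L (ev a)) e.fderiv_eq
  rw [h1, pd_cmp ((dH_smooth hu (ev b)).differentiableAt (by simp))]
  rfl

/-- **the components of the Laplacian** -/
theorem inner_lapH (hu : ContDiffAt ℝ ∞ u z) (η : H) :
    inner ℝ (lapH w u z) η = lap w (fun y => inner ℝ (u y) η) z := by
  rw [lap_loc (cmp_smooth hu η)]
  unfold lapH
  rw [sum_inner]
  refine Finset.sum_congr rfl fun a _ => ?_
  rw [sum_inner]
  refine Finset.sum_congr rfl fun b _ => ?_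
  rw [real_inner_smul_left, pdpd_cmp hu]

theorem lapH_add (hu : ContDiffAt ℝ ∞ u z) (hv : ContDiffAt ℝ ∞ v z) :
    lapH w (fun y => u y + v y) z = lapH w u z + lapH w v z := by
  refine ext_inner_right ℝ fun η => ?_
  rw [inner_lapH (hu.add hv), inner_add_left, inner_lapH hu, inner_lapH hv]
  have e : (fun y => (inner ℝ (u y + v y) η : ℝ)) = fun y => inner ℝ (u y) η + inner ℝ (v y) η := by
    funext y; exact inner_add_left _ _ _
  rw [e, Asm.lap_add (c2 (cmp_smooth hu η)) (c2 (cmp_smooth hv η))]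

theorem lapH_smul (c : ℝ) (hu : ContDiffAt ℝ ∞ u z) :
    lapH w (fun y => c • u y) z = c • lapH w u z := by
  refine ext_inner_right ℝ fun η => ?_
  rw [inner_lapH (hu.const_smul c), real_inner_smul_left, inner_lapH hu]
  have e : (fun y => (inner ℝ (c • u y) η : ℝ)) = fun y => c * inner ℝ (u y) η := by
    funext y; exact real_inner_smul_left _ _ _
  rw [e, Asm.lap_smul _ (c2 (cmp_smooth hu η))]

theorem lapH_congr (e : u =ᶠ[𝓝 z] v) : lapH w u z = lapH w v z := by
  unfold lapH ddH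
  refine Finset.sum_congr rfl fun a _ => Finset.sum_congr rfl fun b _ => ?_
  have h1 : (fun y => fderiv ℝ u y (ev b)) =ᶠ[𝓝 z] fun y => fderiv ℝ v y (ev b) := by
    filter_upwards [e.fderiv (𝕜 := ℝ)] with y hy
    rw [hy]
  rw [h1.fderiv_eq]

/-- scalar function times a vector -/
theorem lapH_sv {F : Cm n → ℝ} (hF : ContDiffAt ℝ ∞ F z) (x : H) :
    lapH w (fun y => F y • x) z = lap w F z • x := by
  refine ext_inner_right ℝ fun η => ?_
  rw [inner_lapH (u := fun y => F y • x) (hF.smul contDiffAt_const), real_inner_smul_left]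
  have e : (fun y => (inner ℝ (F y • x) η : ℝ)) = fun y => inner ℝ x η * F y := by
    funext y
    rw [real_inner_smul_left, mul_comm]
  rw [e, Asm.lap_smul _ (c2 hF), mul_comm]

theorem lapH_zero : lapH w (fun _ => (0 : H)) z = 0 := by
  have h := lapH_sv (w := w) (z := z) (F := fun _ => 0) contDiffAt_const (0 : H)
  simpa using h

/-- an isometry -/
theorem lapH_iso (A : H ≃ₗᵢ[ℝ] H) (hu : ContDiffAt ℝ ∞ u z) :
    lapH w (fun y => A (u y)) z = A (lapH w u z) := by
  refine ext_inner_right ℝ fun η => ?_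
  have hA : ContDiffAt ℝ ∞ (fun y => A (u y)) z :=
    A.toContinuousLinearEquiv.contDiff.contDiffAt.comp z hu
  have h1 : ∀ x : H, (inner ℝ (A x) η : ℝ) = inner ℝ x (A.symm η) := fun x => by
    rw [← A.inner_map_map x (A.symm η), A.apply_symm_apply]
  rw [inner_lapH hA, h1, inner_lapH hu]
  have e : (fun y => (inner ℝ (A (u y)) η : ℝ)) = fun y => inner ℝ (u y) (A.symm η) := by
    funext y; exact h1 _
  rw [e]

theorem cw_smooth {U : Set (Cm n)} (hw : KU U w) (hz : z ∈ U) (a b : Fin n × Bool) :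
    ContDiffAt ℝ ∞ (fun y => cw w y a b) z := by
  have h0 : (w z).det ≠ 0 := (hw.pos z hz).det_pos.ne'
  have h1 : MC ∞ w z := fun i j => hw.smooth z hz i j
  have h := h1.inv h0 b.1 a.1
  have hre : ContDiffAt ℝ ∞ (fun y => ((w y)⁻¹ b.1 a.1).re) z :=
    Complex.reCLM.contDiff.contDiffAt.comp z h
  have him : ContDiffAt ℝ ∞ (fun y => ((w y)⁻¹ b.1 a.1).im) z :=
    Complex.imCLM.contDiff.contDiffAt.comp z h
  unfold cw cf
  obtain ⟨j, α⟩ := a
  obtain ⟨k, β⟩ := b
  cases α <;> cases β <;> simp only [if_true, if_false, reduceCtorEq, Bool.false_eq_true,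
    Bool.true_eq_false] <;>
    first | exact hre.div_const 4 | exact him.div_const 4 | exact him.neg.div_const 4

theorem ddH_smooth (hu : ContDiffAt ℝ ∞ u z) (a b : Fin n × Bool) :
    ContDiffAt ℝ ∞ (fun y => ddH u y a b) z := dH_smooth (dH_smooth hu (ev b)) (ev a)

theorem lapH_smooth {U : Set (Cm n)} (hw : KU U w) (hz : z ∈ U) (hu : ContDiffAt ℝ ∞ u z) :
    ContDiffAt ℝ ∞ (lapH w u) z :=
  ContDiffAt.sum fun a _ => ContDiffAt.sum fun b _ => (cw_smooth hw hz a b).smul (ddH_smooth hu a b)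

end pointwise

end Vale.Agent.P284.H730.T
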