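import Vale.Agent.P284.H730.T3a

/-!
# P284, theorem T, row T3, part 2: the local inequality for Hilbert-valued functions
-/

set_option linter.all false

open scoped Manifold ContDiff Topology Pointwise ComplexConjugate ComplexOrder
open Filter Set Metric MeasureTheory

noncomputable section

namespace Vale.Agent.P284.H730.T

open Vale.Agent.P272.K Vale.Agent.P272.K.C2 Vale.Agent.P284.H894.V Vale.Agent.P284.H359.Fr
  Vale.Agent.P284.H359.V Vale.Agent.P284.H287.T Vale.Agent.P284.H639.V Vale.Agent.P284.H730.A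
  Vale.Agent.P284.H446.V

section
variable {n : ℕ} {H : Type} [NormedAddCommGroup H] [InnerProductSpace ℝ H]

/-- the projection to the span of a finite orthonormal family -/
def pr {m : ℕ} (e : Fin m → H) (v : H) : H := ∑ i, (inner ℝ v (e i) : ℝ) • e i

theorem pyth {m : ℕ} {e : Fin m → H} (he : Orthonormal ℝ e) (v : H) :
    ‖v‖ ^ 2 = ∑ i, (inner ℝ v (e i) : ℝ) ^ 2 + ‖v - pr e v‖ ^ 2 := by
  have h1 : (inner ℝ v (pr e v) : ℝ) = ∑ i, (inner ℝ v (e i) : ℝ) ^ 2 := by
    unfold pr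
    rw [inner_sum]
    refine Finset.sum_congr rfl fun i _ => ?_
    rw [real_inner_smul_right]
    ring
  have h2 : ‖pr e v‖ ^ 2 = ∑ i, (inner ℝ v (e i) : ℝ) ^ 2 := by
    rw [← real_inner_self_eq_norm_sq]
    unfold pr
    rw [he.inner_sum]
    refine Finset.sum_congr rfl fun i _ => ?_
    simp
    ring
  rw [norm_sub_sq_real, h1, h2]
  ring

theorem pr_sub {m : ℕ} (e : Fin m → H) (v v' : H) : pr e (v - v') = pr e v - pr e v' := by
  unfold pr
  rw [← Finset.sum_sub_distrib]
  refine Finset.sum_congr rfl fun i _ => ?_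
  rw [inner_sub_left, sub_smul]

theorem norm_sub_pr {m : ℕ} {e : Fin m → H} (he : Orthonormal ℝ e) (v : H) :
    ‖v - pr e v‖ ≤ ‖v‖ := by
  have h1 := pyth he v
  have h2 : 0 ≤ ∑ i, (inner ℝ v (e i) : ℝ) ^ 2 := Finset.sum_nonneg fun i _ => sq_nonneg _
  exact abs_le_of_sq_le_sq' (by linarith) (norm_nonneg _) |>.2

theorem sum_sq_le {m : ℕ} {e : Fin m → H} (he : Orthonormal ℝ e) (v : H) :
    ∑ i, (inner ℝ v (e i) : ℝ) ^ 2 ≤ ‖v‖ ^ 2 := by
  have h1 := pyth he v
  nlinarith [sq_nonneg ‖v - pr e v‖]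

/-- finite-dimensional approximation of a compact set -/
theorem exists_fam {S : Set H} (hS : IsCompact S) {η : ℝ} (hη : 0 < η) :
    ∃ (m : ℕ) (e : Fin m → H), Orthonormal ℝ e ∧ ∀ x ∈ S, ‖x - pr e x‖ ≤ η := by
  obtain ⟨t, -, htf, hcov⟩ := hS.elim_finite_subcover_image (b := S) (c := fun y => ball y η)
    (fun y _ => isOpen_ball) (fun x hx => mem_iUnion₂.2 ⟨x, hx, mem_ball_self hη⟩)
  set W : Submodule ℝ H := Submodule.span ℝ t with hW
  have : FiniteDimensional ℝ W := FiniteDimensional.span_of_finite ℝ htf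
  set bs := stdOrthonormalBasis ℝ W with hbs
  have he : Orthonormal ℝ (fun i => (bs i : H)) :=
    bs.orthonormal.comp_linearIsometry W.subtypeₗᵢ
  refine ⟨Module.finrank ℝ W, fun i => (bs i : H), he, fun x hx => ?_⟩
  obtain ⟨y, hy, hxy⟩ := mem_iUnion₂.1 (hcov hx)
  have hyW : y ∈ W := Submodule.subset_span hy
  have hP : pr (fun i => (bs i : H)) y = y := by
    have h1 := bs.sum_repr' ⟨y, hyW⟩
    have h2 := congrArg (fun v : W => (v : H)) h1
    simp only [Submodule.coe_sum, Submodule.coe_smul, Submodule.coe_inner] at h2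
    unfold pr
    conv_rhs => rw [← h2]
    refine Finset.sum_congr rfl fun i _ => ?_
    rw [real_inner_comm]
  have h3 : x - pr (fun i => (bs i : H)) x = (x - y) - pr (fun i => (bs i : H)) (x - y) := by
    rw [pr_sub, hP]
    abel
  rw [h3]
  refine (norm_sub_pr he _).trans ?_
  rw [← dist_eq_norm]
  exact (mem_ball.1 hxy).le

theorem pr_cont {m : ℕ} (e : Fin m → H) {α : Type*} [TopologicalSpace α] {S : Set α} {h : α → H}
    (hh : ContinuousOn h S) : ContinuousOn (fun z => ‖h z - pr e (h z)‖ ^ 2) S := by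
  refine (hh.sub ?_).norm.pow 2
  unfold pr
  exact continuousOn_finsetSum _ fun i _ => (hh.inner continuousOn_const).smul continuousOn_const

/-- the local inequality for Hilbert-valued functions -/
theorem v7H (n : ℕ) (c : Cm n) (R R' : ℝ) (hR : 0 < R) (hRR : R < R')
    (w : Cm n → Matrix (Fin n) (Fin n) ℂ) (hw : KU (ball c R') w) (q : Cm n → ℝ)
    (hq : ∀ z ∈ ball c R', ContDiffAt ℝ ∞ q z)
    (h : ℕ → Cm n → H) (hsm : ∀ j, ∀ z ∈ ball c R', ContDiffAt ℝ ∞ (h j) z)
    (hcau : ∀ ε : ℝ, 0 < ε → ∃ J, ∀ j ≥ J, ∀ k ≥ J,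
      ∫ z in ball c R, ‖h j z - h k z‖ ^ 2 * vol w z < ε)
    (hweak : ∀ x : H, ∀ F, TU (ball c R) F →
      Tendsto (fun j => ∫ z in ball c R, inner ℝ (h j z) x * (q z * F z - lap w F z) * vol w z)
        atTop (𝓝 0))
    (ζ : Cm n → ℝ) (hζ : TU (ball c R) ζ) (hgr : ∀ z ∈ ball c R, 0 ≤ gr w ζ ζ z)
    (ε : ℝ) (hε : 0 < ε) : ∀ᶠ j in atTop,
      ∫ z in ball c R, q z * ζ z ^ 2 * ‖h j z‖ ^ 2 * vol w z ≤
        (∫ z in ball c R, gr w ζ ζ z * ‖h j z‖ ^ 2 * vol w z) + ε := by
  have hvol : ContinuousOn (vol w) (ball c R') := fun z hz =>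
    (smooth_vol hw hz).continuousAt.continuousWithinAt
  have hvn : ∀ z ∈ ball c R, 0 ≤ vol w z := fun z hz =>
    (Complex.pos_iff.1 (hw.pos z (ball_subset_ball hRR.le hz)).det_pos).1.le
  have hqc : ContinuousOn q (ball c R') := fun z hz => (hq z hz).continuousAt.continuousWithinAt
  have hcont : ∀ j, ContinuousOn (h j) (ball c R') := fun j z hz =>
    (hsm j z hz).continuousAt.continuousWithinAt
  have hi : ∀ {F : Cm n → ℝ}, ContinuousOn F (ball c R') → IntegrableOn F (ball c R) := by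
    intro F hF
    exact ((hF.mono (closedBall_subset_ball hRR)).integrableOn_compact
      (isCompact_closedBall _ _)).mono_set ball_subset_closedBall
  have hζc : ContinuousOn ζ (ball c R') := hζ.smooth.continuous.continuousOn
  have hgc : ContinuousOn (gr w ζ ζ) (ball c R') := fun z hz =>
    (smooth_gr hw hz hζ.smooth.contDiffAt hζ.smooth.contDiffAt).continuousAt.continuousWithinAt
  -- a bound of the coefficient
  obtain ⟨M, hM0, hM⟩ : ∃ M : ℝ, 0 ≤ M ∧ ∀ z ∈ ball c R, q z * ζ z ^ 2 ≤ M := by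
    obtain ⟨B, hB⟩ := (isCompact_closedBall c R).exists_bound_of_continuousOn
      ((hqc.mul (hζc.pow 2)).mono (closedBall_subset_ball hRR))
    refine ⟨max B 0, le_max_right _ _, fun z hz => ?_⟩
    exact (le_abs_self _).trans ((hB z (ball_subset_closedBall hz)).trans (le_max_left _ _))
  set V : ℝ := ∫ z in ball c R, vol w z with hV
  have hV0 : 0 ≤ V := setIntegral_nonneg measurableSet_ball hvn
  obtain ⟨J, hJ⟩ := hcau (ε / (8 * (M + 1))) (by positivity)
  set η : ℝ := Real.sqrt (ε / (8 * (M + 1) * (V + 1))) with hη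
  have hη0 : 0 < η := Real.sqrt_pos.2 (by positivity)
  have hη2 : η ^ 2 = ε / (8 * (M + 1) * (V + 1)) := Real.sq_sqrt (by positivity)
  obtain ⟨m, e, he, happ⟩ := exists_fam (((isCompact_closedBall c R).image_of_continuousOn
    ((hcont J).mono (closedBall_subset_ball hRR)))) hη0
  have happ' : ∀ z ∈ ball c R, ‖h J z - pr e (h J z)‖ ≤ η := fun z hz =>
    happ _ (mem_image_of_mem _ (ball_subset_closedBall hz))
  -- the error
  have herr : ∀ j ≥ J, ∫ z in ball c R, ‖h j z - pr e (h j z)‖ ^ 2 * vol w z ≤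
      ε / (2 * (M + 1)) := by
    intro j hj
    have h1 : ∀ z ∈ ball c R, ‖h j z - pr e (h j z)‖ ^ 2 * vol w z ≤
        2 * (‖h j z - h J z‖ ^ 2 * vol w z) + 2 * η ^ 2 * vol w z := by
      intro z hz
      have h2 : h j z - pr e (h j z) = ((h j z - h J z) - pr e (h j z - h J z)) +
          (h J z - pr e (h J z)) := by
        rw [pr_sub]
        abel
      have h3 : ‖h j z - pr e (h j z)‖ ≤ ‖h j z - h J z‖ + η := by
        rw [h2]
        exact (norm_add_le _ _).trans (add_le_add (norm_sub_pr he _) (happ' z hz))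
      have h4 : ‖h j z - pr e (h j z)‖ ^ 2 ≤ 2 * ‖h j z - h J z‖ ^ 2 + 2 * η ^ 2 := by
        nlinarith [norm_nonneg (h j z - pr e (h j z)), sq_nonneg (‖h j z - h J z‖ - η),
          norm_nonneg (h j z - h J z)]
      calc _ ≤ (2 * ‖h j z - h J z‖ ^ 2 + 2 * η ^ 2) * vol w z :=
            mul_le_mul_of_nonneg_right h4 (hvn z hz)
        _ = _ := by ring
    have c1 : ContinuousOn (fun z => ‖h j z - h J z‖ ^ 2 * vol w z) (ball c R') :=
      (((hcont j).sub (hcont J)).norm.pow 2).mul hvol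
    have c2 := (pr_cont e (hcont j)).mul hvol
    have i1 : IntegrableOn (fun z => 2 * (‖h j z - h J z‖ ^ 2 * vol w z)) (ball c R) :=
      hi ((continuousOn_const (c := (2 : ℝ))).mul c1)
    have i2 : IntegrableOn (fun z => 2 * η ^ 2 * vol w z) (ball c R) :=
      hi ((continuousOn_const (c := 2 * η ^ 2)).mul hvol)
    have h5 := setIntegral_mono_on (hi c2) (i1.add i2) measurableSet_ball h1
    refine h5.trans ?_
    have h6 : ∫ z in ball c R, (2 * (‖h j z - h J z‖ ^ 2 * vol w z) + 2 * η ^ 2 * vol w z) =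
        2 * (∫ z in ball c R, ‖h j z - h J z‖ ^ 2 * vol w z) + 2 * η ^ 2 * V := by
      rw [integral_add i1 i2, integral_const_mul, hV, integral_const_mul]
    refine (le_of_eq h6).trans ?_
    have h7 := hJ j hj J le_rfl
    have h8 : 2 * η ^ 2 * V ≤ ε / (4 * (M + 1)) := by
      rw [hη2]
      have h9 : V / (V + 1) ≤ 1 := by
        rw [div_le_one (by linarith)]
        linarith
      have h10 : 2 * (ε / (8 * (M + 1) * (V + 1))) * V = ε / (4 * (M + 1)) * (V / (V + 1)) := by
        field_simp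
        ring
      rw [h10]
      exact mul_le_of_le_one_right (by positivity) h9
    have h11 : ε / (2 * (M + 1)) = 2 * (ε / (8 * (M + 1))) + ε / (4 * (M + 1)) := by
      field_simp
      ring
    rw [h11]
    linarith
  -- the scalar inequalities
  have hsc : ∀ᶠ j in atTop, ∀ i : Fin m,
      ∫ z in ball c R, q z * ζ z ^ 2 * (inner ℝ (h j z) (e i) : ℝ) ^ 2 * vol w z ≤
        (∫ z in ball c R, gr w ζ ζ z * (inner ℝ (h j z) (e i) : ℝ) ^ 2 * vol w z) +
          ε / (2 * (m + 1)) := by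
    rw [eventually_all]
    intro i
    refine v7q n c R R' hR hRR w hw q hq (fun j z => inner ℝ (h j z) (e i))
      (fun j z hz => cmp_smooth (hsm j z hz) (e i)) (fun ε' hε' => ?_) (hweak (e i)) ζ hζ _
      (by positivity)
    obtain ⟨J', hJ'⟩ := hcau ε' hε'
    refine ⟨J', fun j hj k hk => lt_of_le_of_lt ?_ (hJ' j hj k hk)⟩
    refine setIntegral_mono_on (hi ((((hcont j).inner continuousOn_const).sub
      ((hcont k).inner continuousOn_const)).pow 2 |>.mul hvol))
      (hi ((((hcont j).sub (hcont k)).norm.pow 2).mul hvol)) measurableSet_ball fun z hz => ?_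
    refine mul_le_mul_of_nonneg_right ?_ (hvn z hz)
    rw [← inner_sub_left]
    have h1 := abs_real_inner_le_norm (h j z - h k z) (e i)
    rw [he.1 i, mul_one] at h1
    rw [← sq_abs]
    exact pow_le_pow_left₀ (abs_nonneg _) h1 2
  filter_upwards [hsc, eventually_ge_atTop J] with j hj hjJ
  have cI : ∀ i, ContinuousOn (fun z => (inner ℝ (h j z) (e i) : ℝ) ^ 2) (ball c R') := fun i =>
    ((hcont j).inner continuousOn_const).pow 2
  have cP := pr_cont e (hcont j)
  have cN : ContinuousOn (fun z => ‖h j z‖ ^ 2) (ball c R') := (hcont j).norm.pow 2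
  have e1 : ∫ z in ball c R, q z * ζ z ^ 2 * ‖h j z‖ ^ 2 * vol w z =
      (∑ i, ∫ z in ball c R, q z * ζ z ^ 2 * (inner ℝ (h j z) (e i) : ℝ) ^ 2 * vol w z) +
        ∫ z in ball c R, q z * ζ z ^ 2 * ‖h j z - pr e (h j z)‖ ^ 2 * vol w z := by
    have i1 : ∀ i ∈ Finset.univ, IntegrableOn (fun z => q z * ζ z ^ 2 *
        (inner ℝ (h j z) (e i) : ℝ) ^ 2 * vol w z) (ball c R) := fun i _ =>
      hi (((hqc.mul (hζc.pow 2)).mul (cI i)).mul hvol)
    have i2 : IntegrableOn (fun z => q z * ζ z ^ 2 * ‖h j z - pr e (h j z)‖ ^ 2 * vol w z)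
        (ball c R) := hi (((hqc.mul (hζc.pow 2)).mul cP).mul hvol)
    rw [← integral_finset_sum _ i1, ← integral_add (integrable_finset_sum _ i1) i2]
    refine setIntegral_congr_fun measurableSet_ball fun z _ => ?_
    show q z * ζ z ^ 2 * ‖h j z‖ ^ 2 * vol w z = _
    rw [pyth he (h j z), mul_add, add_mul, Finset.mul_sum, Finset.sum_mul]
  have e2 : ∑ i, ∫ z in ball c R, gr w ζ ζ z * (inner ℝ (h j z) (e i) : ℝ) ^ 2 * vol w z ≤
      ∫ z in ball c R, gr w ζ ζ z * ‖h j z‖ ^ 2 * vol w z := by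
    have i1 : ∀ i ∈ Finset.univ, IntegrableOn (fun z => gr w ζ ζ z *
        (inner ℝ (h j z) (e i) : ℝ) ^ 2 * vol w z) (ball c R) := fun i _ =>
      hi ((hgc.mul (cI i)).mul hvol)
    rw [← integral_finset_sum _ i1]
    refine setIntegral_mono_on (integrable_finset_sum _ i1)
      (hi ((hgc.mul cN).mul hvol)) measurableSet_ball fun z hz => ?_
    rw [← Finset.sum_mul, ← Finset.mul_sum]
    exact mul_le_mul_of_nonneg_right (mul_le_mul_of_nonneg_left (sum_sq_le he _) (hgr z hz))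
      (hvn z hz)
  have e3 : ∫ z in ball c R, q z * ζ z ^ 2 * ‖h j z - pr e (h j z)‖ ^ 2 * vol w z ≤ ε / 2 := by
    have h1 : ∫ z in ball c R, q z * ζ z ^ 2 * ‖h j z - pr e (h j z)‖ ^ 2 * vol w z ≤
        ∫ z in ball c R, M * (‖h j z - pr e (h j z)‖ ^ 2 * vol w z) := by
      refine setIntegral_mono_on (hi (((hqc.mul (hζc.pow 2)).mul cP).mul hvol))
        (hi (continuousOn_const.mul (cP.mul hvol))) measurableSet_ball fun z hz => ?_
      rw [mul_assoc]
      exact mul_le_mul_of_nonneg_right (hM z hz) (mul_nonneg (sq_nonneg _) (hvn z hz))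
    rw [integral_const_mul] at h1
    refine h1.trans ((mul_le_mul_of_nonneg_left (herr j hjJ) hM0).trans ?_)
    have h2 : M * (ε / (2 * (M + 1))) = ε / 2 * (M / (M + 1)) := by
      field_simp
    rw [h2]
    exact mul_le_of_le_one_right (by positivity) (by rw [div_le_one (by linarith)]; linarith)
  have e4 : ∑ i : Fin m, ∫ z in ball c R, q z * ζ z ^ 2 * (inner ℝ (h j z) (e i) : ℝ) ^ 2 *
      vol w z ≤ (∑ i, ∫ z in ball c R, gr w ζ ζ z * (inner ℝ (h j z) (e i) : ℝ) ^ 2 * vol w z) +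
        ε / 2 := by
    refine (Finset.sum_le_sum fun i _ => hj i).trans ?_
    rw [Finset.sum_add_distrib, Finset.sum_const, Finset.card_univ, Fintype.card_fin,
      nsmul_eq_mul]
    have h2 : (m : ℝ) * (ε / (2 * (m + 1))) = ε / 2 * (m / (m + 1)) := by
      field_simp
    rw [h2]
    have h3 : ε / 2 * ((m : ℝ) / (m + 1)) ≤ ε / 2 := by
      refine mul_le_of_le_one_right (by positivity) ?_
      rw [div_le_one (by positivity)]
      linarith
    linarith
  rw [e1]
  linarith

end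

end Vale.Agent.P284.H730.T
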