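import Vale.Agent.P284.H730.T3b

/-!
# P284, theorem T, row T3, part 3: the range of `q - Δ` is dense for large `q` on Hilbert-valued
sections over the compact base
-/

set_option linter.all false

open scoped Manifold ContDiff Topology Pointwise ComplexConjugate ComplexOrder
open Filter Set Metric MeasureTheory

noncomputable section

namespace Vale.Agent.P284.H730.T

open Vale.Agent.P272.K Vale.Agent.P272.K.C2 Vale.Agent.P284.H248 Vale.Agent.P284.H894
  Vale.Agent.P284.H894.V Vale.Agent.P284.H639.V Vale.Agent.P284.H913.V Vale.Agent.P284.H66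
  Vale.Agent.P284.H66.S7 Vale.Agent.P284.H287.T Vale.Agent.P284.H730.A

section glob
variable {n : ℕ} {Γ : Type} [Group Γ] {C : Coc n Γ} {H : Type} [NormedAddCommGroup H]
  [InnerProductSpace ℝ H] {π : Γ →* (H ≃ₗᵢ[ℝ] H)}

theorem sec0 {s : Γ → C.I → Cm n → H} (hs : Sec C π 0 s) (g γ : Γ) (a : C.I) {z : Cm n}
    (hz : z ∈ C.Ω a) : s (g * γ) a z = π g (s γ a z) := by
  rw [hs.equi g γ a z hz]
  simp

/-- the space of sections -/
def secM (C : Coc n Γ) (π : Γ →* (H ≃ₗᵢ[ℝ] H)) : Submodule ℝ (Γ → C.I → Cm n → H) where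
  carrier := {s | Sec C π 0 s}
  add_mem' := by
    intro f g hf hg
    refine ⟨fun γ a z hz => (hf.smooth γ a z hz).add (hg.smooth γ a z hz),
      fun γ a b z hz => ?_, fun h γ a z hz => ?_⟩
    · show f γ a z + g γ a z = _
      rw [hf.compat γ a b z hz, hg.compat γ a b z hz]
      rfl
    · show f _ a z + g _ a z = π h (f γ a z + g γ a z) + 0
      rw [sec0 hf h γ a hz, sec0 hg h γ a hz, map_add, add_zero]
  zero_mem' := by
    refine ⟨fun γ a z _ => contDiffAt_const, fun _ _ _ _ _ => rfl, fun h γ a z _ => ?_⟩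
    show (0 : H) = π h 0 + 0
    rw [map_zero, add_zero]
  smul_mem' := by
    intro c f hf
    refine ⟨fun γ a z hz => (hf.smooth γ a z hz).const_smul c,
      fun γ a b z hz => ?_, fun h γ a z hz => ?_⟩
    · show c • f γ a z = _
      rw [hf.compat γ a b z hz]
      rfl
    · show c • f _ a z = π h (c • f γ a z) + 0
      rw [sec0 hf h γ a hz, map_smul, add_zero]

theorem sec_ev {β : Γ → H} {s : Γ → C.I → Cm n → H} (hs : Sec C π β s) (γ : Γ) {a b : C.I}
    {z : Cm n} (hz : z ∈ C.O a b) :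
    ∀ᶠ y in 𝓝 z, s γ a y = s (γ * C.κ a b z) b (C.T a b y) := by
  filter_upwards [(C.O_open a b).mem_nhds hz, C.κ_loc a b z hz] with y hy hk
  rw [hs.compat γ a b y hy, hk]

theorem sec_one {s : Γ → C.I → Cm n → H} (hs : Sec C π 0 s) {a b : C.I} {z : Cm n}
    (hz : z ∈ C.O a b) : s 1 a z = π (C.κ a b z) (s 1 b (C.T a b z)) := by
  rw [hs.compat 1 a b z hz, one_mul, ← sec0 hs (C.κ a b z) 1 b (T_mem_Ω C hz), mul_one]

/-- change of coordinates -/
theorem lapH_trans (K : KM C) {f f' : Cm n → H} {a b : C.I} {z : Cm n} (hz : z ∈ C.O a b)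
    (hf : ContDiffAt ℝ ∞ f z) (hf' : ContDiffAt ℝ ∞ f' (C.T a b z))
    (e : ∀ᶠ y in 𝓝 z, f y = f' (C.T a b y)) :
    lapH (K.w a) f z = lapH (K.w b) f' (C.T a b z) := by
  refine ext_inner_right ℝ fun η => ?_
  rw [inner_lapH hf, inner_lapH hf']
  exact (lap_trans K hz (cmp_smooth hf' η) (by filter_upwards [e] with y hy; rw [hy])).1

/-- the operator `q - Δ` -/
def opH (K : KM C) (q : C.I → Cm n → ℝ) (s : Γ → C.I → Cm n → H) (γ : Γ) (a : C.I) :
    Cm n → H :=
  (C.Ω a).indicator fun z => q a z • s γ a z - lapH (K.w a) (s γ a) z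

theorem opH_mem (K : KM C) (q : C.I → Cm n → ℝ) (s : Γ → C.I → Cm n → H) (γ : Γ) {a : C.I}
    {z : Cm n} (hz : z ∈ C.Ω a) :
    opH K q s γ a z = q a z • s γ a z - lapH (K.w a) (s γ a) z := indicator_of_mem hz _

theorem opH_sec (K : KM C) {q : C.I → Cm n → ℝ} (hq : Pot C q) {s : Γ → C.I → Cm n → H}
    (hs : Sec C π 0 s) : Sec C π 0 (opH K q s) where
  smooth γ a z hz := by
    have h1 : ContDiffAt ℝ ∞ (fun z => q a z • s γ a z - lapH (K.w a) (s γ a) z) z :=
      ((hq.smooth a z hz).smul (hs.smooth γ a z hz)).sub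
        (lapH_smooth (K.ku a) hz (hs.smooth γ a z hz))
    refine h1.congr_of_eventuallyEq ?_
    filter_upwards [(isOpen_Ω C a).mem_nhds hz] with y hy using opH_mem K q s γ hy
  compat γ a b z hz := by
    rw [opH_mem K q s _ (O_sub_Ω C hz), opH_mem K q s _ (T_mem_Ω C hz), hq.compat a b z hz,
      hs.compat γ a b z hz, lapH_trans K hz (hs.smooth γ a z (O_sub_Ω C hz))
        (hs.smooth _ b _ (T_mem_Ω C hz)) (sec_ev hs γ hz)]
  equi g γ a z hz := by
    rw [opH_mem K q s _ hz, opH_mem K q s _ hz, sec0 hs g γ a hz]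
    have e : s (g * γ) a =ᶠ[𝓝 z] fun y => π g (s γ a y) := by
      filter_upwards [(isOpen_Ω C a).mem_nhds hz] with y hy using sec0 hs g γ a hy
    rw [lapH_congr e, lapH_iso _ (hs.smooth γ a z hz), map_sub, map_smul]
    simp

/-- the operator as a linear map -/
def opHL (K : KM C) {q : C.I → Cm n → ℝ} (hq : Pot C q) : secM C π →ₗ[ℝ] secM C π where
  toFun s := ⟨opH K q (s : Γ → C.I → Cm n → H), opH_sec K hq s.2⟩
  map_add' f g := by
    refine Subtype.ext ?_
    funext γ a z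
    show opH K q ((f + g : secM C π) : Γ → C.I → Cm n → H) γ a z =
      opH K q (f : Γ → C.I → Cm n → H) γ a z + opH K q (g : Γ → C.I → Cm n → H) γ a z
    by_cases hz : z ∈ C.Ω a
    · rw [opH_mem K q _ γ hz, opH_mem K q _ γ hz, opH_mem K q _ γ hz]
      have h1 := lapH_add (w := K.w a) (f.2.smooth γ a z hz) (g.2.smooth γ a z hz)
      have h2 : ((f + g : secM C π) : Γ → C.I → Cm n → H) γ a = fun y =>
        (f : Γ → C.I → Cm n → H) γ a y + (g : Γ → C.I → Cm n → H) γ a y := rfl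
      rw [h2, h1, smul_add]
      abel
    · simp only [opH, indicator_of_notMem hz, add_zero]
  map_smul' c f := by
    refine Subtype.ext ?_
    funext γ a z
    show opH K q ((c • f : secM C π) : Γ → C.I → Cm n → H) γ a z =
      c • opH K q (f : Γ → C.I → Cm n → H) γ a z
    by_cases hz : z ∈ C.Ω a
    · rw [opH_mem K q _ γ hz, opH_mem K q _ γ hz]
      have h1 := lapH_smul (w := K.w a) c (f.2.smooth γ a z hz)
      have h2 : ((c • f : secM C π) : Γ → C.I → Cm n → H) γ a = fun y =>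
        c • (f : Γ → C.I → Cm n → H) γ a y := rfl
      rw [h2, h1, smul_sub, smul_comm c]
    · simp only [opH, indicator_of_notMem hz, smul_zero]

theorem opHL_apply (K : KM C) {q : C.I → Cm n → ℝ} (hq : Pot C q) (s : secM C π) (γ : Γ)
    {a : C.I} {z : Cm n} (hz : z ∈ C.Ω a) : (opHL K hq s : Γ → C.I → Cm n → H) γ a z =
      q a z • (s : Γ → C.I → Cm n → H) γ a z -
        lapH (K.w a) ((s : Γ → C.I → Cm n → H) γ a) z := opH_mem K q _ γ hz

/-- `⟨f, h⟩` is a function on the base -/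
theorem BD_inner {f h : Γ → C.I → Cm n → H} (hf : Sec C π 0 f) (hh : Sec C π 0 h) :
    BD C (fun a z => inner ℝ (f 1 a z) (h 1 a z)) where
  cont a z hz :=
    (((hf.smooth 1 a z hz).inner ℝ (hh.smooth 1 a z hz)).continuousAt).continuousWithinAt
  compat a b z hz _ _ := by
    rw [sec_one hf hz, sec_one hh hz, LinearIsometryEquiv.inner_map_map]

theorem BD_sqH {f : Γ → C.I → Cm n → H} (hf : Sec C π 0 f) :
    BD C (fun a z => ‖f 1 a z‖ ^ 2) := by
  have h1 := BD_inner hf hf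
  have h2 : (fun (a : C.I) (z : Cm n) => (inner ℝ (f 1 a z) (f 1 a z) : ℝ)) =
      fun a z => ‖f 1 a z‖ ^ 2 := by
    funext a z
    exact real_inner_self_eq_norm_sq _
  rw [← h2]
  exact h1

/-- the inner product -/
def ipH (P : PU C) (K : KM C) : secM C π →ₗ[ℝ] secM C π →ₗ[ℝ] ℝ :=
  LinearMap.mk₂ ℝ (fun f h => BInt P K fun a z => inner ℝ ((f : Γ → C.I → Cm n → H) 1 a z)
      ((h : Γ → C.I → Cm n → H) 1 a z))
    (by
      intro f g h
      rw [← BInt_add P K (BD_inner f.2 h.2) (BD_inner g.2 h.2)]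
      refine BInt_congr P K fun a z _ => ?_
      exact inner_add_left _ _ _)
    (by
      intro c f h
      rw [smul_eq_mul, ← BInt_smul]
      refine BInt_congr P K fun a z _ => ?_
      exact real_inner_smul_left _ _ _)
    (by
      intro f g h
      rw [← BInt_add P K (BD_inner f.2 g.2) (BD_inner f.2 h.2)]
      refine BInt_congr P K fun a z _ => ?_
      exact inner_add_right _ _ _)
    (by
      intro c f h
      rw [smul_eq_mul, ← BInt_smul]
      refine BInt_congr P K fun a z _ => ?_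
      exact real_inner_smul_right _ _ _)

theorem ipH_apply (P : PU C) (K : KM C) (f h : secM C π) :
    ipH P K f h = BInt P K fun a z => inner ℝ ((f : Γ → C.I → Cm n → H) 1 a z)
      ((h : Γ → C.I → Cm n → H) 1 a z) := rfl

theorem ipH_self (P : PU C) (K : KM C) (f : secM C π) :
    ipH P K f f = BInt P K fun a z => ‖(f : Γ → C.I → Cm n → H) 1 a z‖ ^ 2 := by
  rw [ipH_apply]
  refine BInt_congr P K fun a z _ => ?_
  exact real_inner_self_eq_norm_sq _

theorem ipH_symm (P : PU C) (K : KM C) (f h : secM C π) : ipH P K f h = ipH P K h f := by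
  rw [ipH_apply, ipH_apply]
  refine BInt_congr P K fun a z _ => ?_
  exact real_inner_comm _ _

theorem ipH_nonneg (P : PU C) (K : KM C) (f : secM C π) : 0 ≤ ipH P K f f := by
  rw [ipH_self]
  exact BInt_nonneg P K fun a z _ => sq_nonneg _

/-! ### Sections supported in one piece -/

open Classical in
/-- the function `F x` on the ball number `b`, extended by `0` -/
def extH (C : Coc n Γ) (π : Γ →* (H ≃ₗᵢ[ℝ] H)) (b : C.I) (x : H) (F : Cm n → ℝ) (γ : Γ) (a : C.I)
    (z : Cm n) : H :=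
  if z ∈ C.O a b then F (C.T a b z) • π (γ * C.κ a b z) x else 0

theorem extH_mem (b : C.I) (x : H) (F : Cm n → ℝ) (γ : Γ) {a : C.I} {z : Cm n}
    (hz : z ∈ C.O a b) : extH C π b x F γ a z = F (C.T a b z) • π (γ * C.κ a b z) x :=
  if_pos hz

theorem extH_notMem (b : C.I) (x : H) (F : Cm n → ℝ) (γ : Γ) {a : C.I} {z : Cm n}
    (hz : z ∉ C.O a b) : extH C π b x F γ a z = 0 := if_neg hz

theorem extH_ev0 {b : C.I} (x : H) {F : Cm n → ℝ} (hF : TU (C.V b) F) (γ : Γ) {a : C.I}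
    {z : Cm n} (hz : z ∈ C.Ω a) (h : ¬ (z ∈ C.O a b ∧ C.T a b z ∈ tsupport F)) :
    extH C π b x F γ a =ᶠ[𝓝 z] fun _ => 0 := by
  have hsub : tsupport F ⊆ ball (C.c b) (4 * C.r b) := hF.supp.trans (V_sub_Ω C b)
  filter_upwards [C.closed a b (tsupport F) hF.compact hsub z hz h] with y hy
  by_cases hy2 : y ∈ C.O a b
  · have h1 : F (C.T a b y) = 0 := by
      by_contra h0
      exact hy ⟨hy2, subset_tsupport F h0⟩
    rw [extH_mem b x F γ hy2, h1, zero_smul]
  · exact extH_notMem b x F γ hy2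

theorem extH_sec {b : C.I} (x : H) {F : Cm n → ℝ} (hF : TU (C.V b) F) :
    Sec C π 0 (extH C π b x F) where
  smooth γ a z hz := by
    by_cases h : z ∈ C.O a b ∧ C.T a b z ∈ tsupport F
    · have e : extH C π b x F γ a =ᶠ[𝓝 z]
          fun y => F (C.T a b y) • π (γ * C.κ a b z) x := by
        filter_upwards [(C.O_open a b).mem_nhds h.1, C.κ_loc a b z h.1] with y hy hk
        rw [extH_mem b x F γ hy, hk]
      refine ContDiffAt.congr_of_eventuallyEq ?_ e
      have h1 : ContDiffAt ℝ ∞ (fun y => F (C.T a b y)) z :=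
        hF.smooth.contDiffAt.comp z (C.T_smooth h.1)
      exact h1.smul contDiffAt_const
    · exact contDiffAt_const.congr_of_eventuallyEq (extH_ev0 x hF γ hz h)
  compat γ a d z hz := by
    by_cases hb : z ∈ C.O a b
    · have hd : C.T a d z ∈ C.O d b := C.O_trans hz hb
      rw [extH_mem b x F γ hb, extH_mem b x F _ hd, C.trans_κ a d b z hz hd,
        C.trans_T a d b z hz hd, mul_assoc γ]
    · have hd : C.T a d z ∉ C.O d b := fun h => hb (C.trans_mem a d b z hz h)
      rw [extH_notMem b x F γ hb, extH_notMem b x F _ hd]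
  equi g γ a z hz := by
    by_cases hb : z ∈ C.O a b
    · rw [extH_mem b x F _ hb, extH_mem b x F _ hb, mul_assoc g, map_mul, map_smul]
      simp
    · rw [extH_notMem b x F _ hb, extH_notMem b x F _ hb, map_zero]
      simp

theorem extH_self (b : C.I) (x : H) (F : Cm n → ℝ) {z : Cm n} (hz : z ∈ C.Ω b) :
    extH C π b x F 1 b z = F z • x := by
  have hO := mem_O_self C hz
  rw [extH_mem b x F 1 hO, C.κ_self b z hO, C.T_self b z hO, mul_one, map_one]
  rfl

/-- the weak equation on the ball number `b` -/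
theorem weakH (P : PU C) (K : KM C) {q : C.I → Cm n → ℝ} (hq : Pot C q) {h : ℕ → secM C π}
    (hh : ∀ u, Tendsto (fun j => ipH P K (h j) (opHL K hq u)) atTop (𝓝 0))
    (b : C.I) (x : H) {F : Cm n → ℝ} (hF : TU (C.V b) F) :
    Tendsto (fun j => ∫ z in C.V b, inner ℝ ((h j : Γ → C.I → Cm n → H) 1 b z) x *
      (q b z * F z - lap (K.w b) F z) * vol (K.w b) z) atTop (𝓝 0) := by
  set u : secM C π := ⟨extH C π b x F, extH_sec x hF⟩ with hu
  refine (hh u).congr fun j => ?_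
  rw [ipH_apply, (BD_inner (h j).2 (opHL K hq u).2).piece P K b ?_]
  · refine setIntegral_congr_fun measurableSet_ball fun z hz => ?_
    have hz' := V_sub_Ω C b hz
    have e : extH C π b x F 1 b =ᶠ[𝓝 z] fun y => F y • x := by
      filter_upwards [(isOpen_Ω C b).mem_nhds hz'] with y hy using extH_self b x F hy
    have h1 : (opHL K hq u : Γ → C.I → Cm n → H) 1 b z =
        (q b z * F z - lap (K.w b) F z) • x := by
      rw [opHL_apply K hq u 1 hz']
      show q b z • extH C π b x F 1 b z - lapH (K.w b) (extH C π b x F 1 b) z = _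
      rw [lapH_congr e, lapH_sv hF.smooth.contDiffAt, extH_self b x F hz', smul_smul, sub_smul]
    simp only [h1, real_inner_smul_right]
    ring
  · intro a z hz hne
    by_contra hn
    apply hne
    have hz' := V_sub_Ω C a hz
    have hn' : ¬ (z ∈ C.O a b ∧ C.T a b z ∈ tsupport F) := fun h => hn ⟨h.1, hF.supp h.2⟩
    have e := extH_ev0 (π := π) x hF 1 hz' hn'
    have h1 : (opHL K hq u : Γ → C.I → Cm n → H) 1 a z = 0 := by
      rw [opHL_apply K hq u 1 hz']
      show q a z • extH C π b x F 1 a z - lapH (K.w a) (extH C π b x F 1 a) z = _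
      rw [lapH_congr e, lapH_zero, e.self_of_nhds, smul_zero, sub_zero]
    rw [h1, inner_zero_right]

/-- the local inequality for the sections -/
theorem locH (P : PU C) (K : KM C) {q : C.I → Cm n → ℝ} (hq : Pot C q) {h : ℕ → secM C π}
    (hcau : ∀ j k : ℕ, ipH P K (h j - h k) (h j - h k) ≤
      2 / ((j : ℝ) + 1) + 2 / ((k : ℝ) + 1))
    (hh : ∀ u, Tendsto (fun j => ipH P K (h j) (opHL K hq u)) atTop (𝓝 0))
    (b : C.I) {ε : ℝ} (hε : 0 < ε) : ∀ᶠ j in atTop,
      BInt P K (fun a z => q a z * P.χ b a z ^ 2 * ‖(h j : Γ → C.I → Cm n → H) 1 a z‖ ^ 2) ≤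
        BInt P K (fun a z => gr (K.w a) (P.χ b a) (P.χ b a) z *
          ‖(h j : Γ → C.I → Cm n → H) 1 a z‖ ^ 2) + ε := by
  have hr := C.r_pos b
  have hsq : ∀ f : secM C π, BD C (fun a z => ‖(f : Γ → C.I → Cm n → H) 1 a z‖ ^ 2) := fun f =>
    BD_sqH f.2
  have key := v7H n (C.c b) (3 * C.r b) (4 * C.r b) (by linarith) (by linarith) (K.w b) (K.ku b)
      (q b) (hq.smooth b) (fun j => (h j : Γ → C.I → Cm n → H) 1 b)
      (fun j z hz => (h j).2.smooth 1 b z hz)
      (fun η hη => by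
        obtain ⟨J, hJ⟩ := exists_nat_gt (4 / η)
        refine ⟨J, fun j hj k hk => ?_⟩
        have h2 := (hsq (h j - h k)).le P K (fun a z _ => sq_nonneg _) b
        rw [← ipH_self] at h2
        refine (h2.trans (hcau j k)).trans_lt ?_
        have hJ0 : (0 : ℝ) < (J : ℝ) + 1 := by positivity
        have h4 : ∀ i ≥ J, (2 : ℝ) / ((i : ℝ) + 1) ≤ 2 / ((J : ℝ) + 1) := fun i hi => by
          have : (J : ℝ) ≤ i := by exact_mod_cast hi
          gcongr
        have h3 : (2 : ℝ) / ((J : ℝ) + 1) + 2 / ((J : ℝ) + 1) < η := by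
          rw [← add_div, div_lt_iff₀ hJ0]
          rw [div_lt_iff₀ hη] at hJ
          nlinarith
        linarith [h4 j hj, h4 k hk])
      (fun x F hF => weakH P K hq hh b x hF) (zeta P b) (TU_zeta P b)
      (fun z hz => (H730.V.vpStmt.nonneg (K.w b) (zeta P b) z
        ((K.ku b).pos z (V_sub_Ω C b hz))).1) ε hε
  filter_upwards [key] with j h1
  have F1 : BD C (fun a z => q a z * P.χ b a z ^ 2 * ‖(h j : Γ → C.I → Cm n → H) 1 a z‖ ^ 2) := by
    have h3 := BD_mul (BD_mul (BD_pot hq) (BD_mul (BD_chi P b) (BD_chi P b))) (hsq (h j))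
    simpa only [sq] using h3
  have F2 := BD_mul (BD_gr_chi P K b) (hsq (h j))
  rw [F1.piece P K b ?_, F2.piece P K b ?_]
  · have e1 : ∫ z in C.V b, q b z * P.χ b b z ^ 2 *
        ‖(h j : Γ → C.I → Cm n → H) 1 b z‖ ^ 2 * vol (K.w b) z =
        ∫ z in C.V b, q b z * zeta P b z ^ 2 *
          ‖(h j : Γ → C.I → Cm n → H) 1 b z‖ ^ 2 * vol (K.w b) z := by
      refine setIntegral_congr_fun measurableSet_ball fun z hz => ?_
      have hz2 : zeta P b z = P.χ b b z := indicator_of_mem (V_sub_Ω C b hz) _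
      simp only [hz2]
    have e2 : ∫ z in C.V b, gr (K.w b) (P.χ b b) (P.χ b b) z *
        ‖(h j : Γ → C.I → Cm n → H) 1 b z‖ ^ 2 * vol (K.w b) z =
        ∫ z in C.V b, gr (K.w b) (zeta P b) (zeta P b) z *
          ‖(h j : Γ → C.I → Cm n → H) 1 b z‖ ^ 2 * vol (K.w b) z := by
      refine setIntegral_congr_fun measurableSet_ball fun z hz => ?_
      have hz2 := gr_congr (w := K.w b) (zeta_ev P b (V_sub_Ω C b hz))
        (zeta_ev P b (V_sub_Ω C b hz))
      simp only [hz2]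
    rw [e1, e2]
    exact h1
  · intro a z hz hne
    by_contra hn
    apply hne
    have hn' : ¬ (z ∈ C.O a b ∧ C.T a b z ∈ P.K b) := fun h => hn ⟨h.1, P.K_sub b h.2⟩
    have e := chi_ev P b (V_sub_Ω C a hz) hn'
    rw [gr_eq_zero e, zero_mul]
  · intro a z hz hne
    by_contra hn
    apply hne
    have hn' : ¬ (z ∈ C.O a b ∧ C.T a b z ∈ P.K b) := fun h => hn ⟨h.1, P.K_sub b h.2⟩
    have e := chi_ev P b (V_sub_Ω C a hz) hn'
    rw [e.self_of_nhds]
    ring

end glob

section main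
variable {n : ℕ} {Γ : Type} [Group Γ] {C : Coc n Γ}

/-- **T3**: the range of `q - Δ` is dense if `q` is large, uniformly in the representation. -/
theorem dense_rangeH (P : PU C) (K : KM C) : ∃ l₀ : ℝ, 0 < l₀ ∧
    ∀ (H : Type) [NormedAddCommGroup H] [InnerProductSpace ℝ H] (π : Γ →* (H ≃ₗᵢ[ℝ] H))
      (q : C.I → Cm n → ℝ) (hq : Pot C q), (∀ a, ∀ z ∈ C.Ω a, l₀ ≤ q a z) →
      ∀ (f : secM C π) (δ : ℝ), 0 < δ → ∃ v : secM C π,
        ipH P K (f - opHL K hq v) (f - opHL K hq v) < δ := by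
  obtain ⟨B, hB0, hB⟩ := H446.V.exists_gr_χ P K
  set I : ℝ := ((Fintype.card C.I : ℕ) : ℝ) with hI
  have hI1 : (1 : ℝ) ≤ I := by
    rw [hI]
    exact Nat.one_le_cast.2 Fintype.card_pos
  refine ⟨I ^ 2 * B + I, by positivity, fun H _ _ π q hq hql f δ hδ => ?_⟩
  set l : ℝ := I ^ 2 * B + I with hl
  have hl0 : 0 < l := by positivity
  obtain ⟨v, hcau, hort⟩ := H446.V.min_seq (ipH P K) (ipH_symm P K) (ipH_nonneg P K)
    (opHL K hq) f
  set h : ℕ → secM C π := fun j => f - opHL K hq (v j) with hh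
  have hsq : ∀ f : secM C π, BD C (fun a z => ‖(f : Γ → C.I → Cm n → H) 1 a z‖ ^ 2) := fun f =>
    BD_sqH f.2
  set ε : ℝ := δ / (2 * I) with hε
  have hε0 : 0 < ε := by positivity
  have hev : ∀ᶠ j in atTop, ∀ b : C.I,
      BInt P K (fun a z => q a z * P.χ b a z ^ 2 * ‖(h j : Γ → C.I → Cm n → H) 1 a z‖ ^ 2) ≤
        BInt P K (fun a z => gr (K.w a) (P.χ b a) (P.χ b a) z *
          ‖(h j : Γ → C.I → Cm n → H) 1 a z‖ ^ 2) + ε := by
    rw [eventually_all]
    intro b
    exact locH P K hq hcau hort b hε0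
  obtain ⟨j, hj⟩ := hev.exists
  set X : ℝ := BInt P K (fun a z => ‖(h j : Γ → C.I → Cm n → H) 1 a z‖ ^ 2) with hX
  have hX0 : 0 ≤ X := BInt_nonneg P K fun a z _ => sq_nonneg _
  -- right-hand side
  have hR : ∀ b : C.I, BInt P K (fun a z => gr (K.w a) (P.χ b a) (P.χ b a) z *
      ‖(h j : Γ → C.I → Cm n → H) 1 a z‖ ^ 2) ≤ B * X := by
    intro b
    rw [hX, ← BInt_smul]
    refine BInt_mono P K (BD_mul (BD_gr_chi P K b) (hsq (h j))) (BD_smul (hsq (h j)) B)
      fun a z hz => ?_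
    exact mul_le_mul_of_nonneg_right ((le_abs_self _).trans (hB a b b z hz)) (sq_nonneg _)
  -- left-hand side
  have hχ2 : ∀ b : C.I, BD C (fun a z => P.χ b a z ^ 2 *
      ‖(h j : Γ → C.I → Cm n → H) 1 a z‖ ^ 2) := by
    intro b
    have h3 := BD_mul (BD_mul (BD_chi P b) (BD_chi P b)) (hsq (h j))
    simpa only [sq] using h3
  have hL : ∀ b : C.I, l * BInt P K (fun a z => P.χ b a z ^ 2 *
      ‖(h j : Γ → C.I → Cm n → H) 1 a z‖ ^ 2) ≤
      BInt P K (fun a z => q a z * P.χ b a z ^ 2 *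
        ‖(h j : Γ → C.I → Cm n → H) 1 a z‖ ^ 2) := by
    intro b
    rw [← BInt_smul]
    have F1 : BD C (fun a z => q a z * P.χ b a z ^ 2 *
        ‖(h j : Γ → C.I → Cm n → H) 1 a z‖ ^ 2) := by
      have h3 := BD_mul (BD_pot hq) (hχ2 b)
      simpa only [mul_assoc] using h3
    refine BInt_mono P K (BD_smul (hχ2 b) l) F1 fun a z hz => ?_
    rw [mul_assoc]
    exact mul_le_mul_of_nonneg_right (hql a z (V_sub_Ω C a hz)) (by positivity)
  have hS : X ≤ I * ∑ b, BInt P K (fun a z => P.χ b a z ^ 2 *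
      ‖(h j : Γ → C.I → Cm n → H) 1 a z‖ ^ 2) := by
    rw [← BInt_sum P K Finset.univ fun b _ => hχ2 b, ← BInt_smul]
    have F3 : BD C (fun a z => ∑ b, P.χ b a z ^ 2 *
        ‖(h j : Γ → C.I → Cm n → H) 1 a z‖ ^ 2) :=
      ⟨fun a => continuousOn_finsetSum _ fun b _ => (hχ2 b).cont a, fun a d z hz h1 h2 =>
        Finset.sum_congr rfl fun b _ => (hχ2 b).compat a d z hz h1 h2⟩
    refine BInt_mono P K (hsq (h j)) (BD_smul F3 I) fun a z hz => ?_
    have h1 : (1 : ℝ) ≤ I * ∑ b, P.χ b a z ^ 2 := by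
      have h2 := sq_sum_le_card_mul_sum_sq (s := (Finset.univ : Finset C.I))
        (f := fun b => P.χ b a z)
      rw [P.sum_one a z (V_sub_Ω C a hz), one_pow, Finset.card_univ] at h2
      exact h2
    rw [← Finset.sum_mul, ← mul_assoc]
    exact le_mul_of_one_le_left (sq_nonneg _) h1
  refine ⟨v j, ?_⟩
  have hfin : ipH P K (f - opHL K hq (v j)) (f - opHL K hq (v j)) = X := ipH_self P K _
  rw [hfin]
  have h1 : l * X ≤ I * (I * (B * X + ε)) := by
    calc l * X ≤ l * (I * ∑ b, BInt P K (fun a z => P.χ b a z ^ 2 *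
          ‖(h j : Γ → C.I → Cm n → H) 1 a z‖ ^ 2)) := mul_le_mul_of_nonneg_left hS hl0.le
      _ = I * ∑ b, l * BInt P K (fun a z => P.χ b a z ^ 2 *
          ‖(h j : Γ → C.I → Cm n → H) 1 a z‖ ^ 2) := by rw [← Finset.mul_sum]; ring
      _ ≤ I * ∑ _b : C.I, (B * X + ε) := by
          refine mul_le_mul_of_nonneg_left ?_ (by linarith)
          refine Finset.sum_le_sum fun b _ => ?_
          exact ((hL b).trans (hj b)).trans (by linarith [hR b])
      _ = _ := by rw [Finset.sum_const, Finset.card_univ, nsmul_eq_mul]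
  have h2 : I * X ≤ I * (I * ε) := by
    rw [hl] at h1
    nlinarith
  have h3 : X ≤ I * ε := le_of_mul_le_mul_left h2 (by linarith)
  have h4 : I * ε = δ / 2 := by
    rw [hε]
    field_simp
  linarith

theorem pot_const (l : ℝ) : Pot C (fun _ _ => l) :=
  ⟨fun _ _ _ => contDiffAt_const, fun _ _ _ _ => rfl⟩

/-- **T3** in the literal form -/
theorem densH (P : PU C) (K : KM C) : ∃ l₀ : ℝ, 0 < l₀ ∧
    ∀ (H : Type) [NormedAddCommGroup H] [InnerProductSpace ℝ H] (π : Γ →* (H ≃ₗᵢ[ℝ] H)),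
      ∀ l : ℝ, l₀ ≤ l → ∀ s, Sec C π 0 s → ∀ δ : ℝ, 0 < δ → ∃ v, Sec C π 0 v ∧
        BInt P K (fun a z => ‖l • v 1 a z - lapH (K.w a) (v 1 a) z - s 1 a z‖ ^ 2) < δ := by
  obtain ⟨l₀, h0, hd⟩ := dense_rangeH P K
  refine ⟨l₀, h0, fun H _ _ π l hl s hs δ hδ => ?_⟩
  obtain ⟨v, hv⟩ := hd H π (fun _ _ => l) (pot_const l) (fun _ _ _ => hl) ⟨s, hs⟩ δ hδ
  refine ⟨v, v.2, ?_⟩
  rw [ipH_self] at hv
  refine lt_of_eq_of_lt ?_ hv
  refine BInt_congr P K fun a z hz => ?_
  have h3 : ((⟨s, hs⟩ - opHL K (pot_const l) v : secM C π) :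
      Γ → C.I → Cm n → H) 1 a z = s 1 a z - (opHL K (pot_const l) v : Γ → C.I → Cm n → H) 1 a z :=
    rfl
  rw [h3, opHL_apply K (pot_const l) v 1 (V_sub_Ω C a hz), norm_sub_rev (s 1 a z)]

end main

end Vale.Agent.P284.H730.T
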